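import Mathlib

/-!
P096, type III, the flow part: a twisted convolution on the line is bounded in mean square by the
bounds of its kernel at the single frequencies (Parseval on long circles).
-/

open MeasureTheory Filter Topology Set
open scoped InnerProductSpace Real

namespace Vale.Agent.P096.Three.Flow.Parseval

variable {H : Type} [NormedAddCommGroup H] [InnerProductSpace ℂ H] [CompleteSpace H]

section circle

variable {P : ℝ} [hP : Fact (0 < P)]

open AddCircle

omit [CompleteSpace H] in
lemma integrable_circle {E : Type*} [NormedAddCommGroup E] {f : AddCircle P → E}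
    (hf : Continuous f) : Integrable f haarAddCircle :=
  hf.integrable_of_hasCompactSupport (HasCompactSupport.of_compactSpace f)

/-- Parseval in one coordinate. -/
lemma hasSum_coord (G : C(AddCircle P, H)) (e : H) :
    HasSum (fun m => ‖⟪e, fourierCoeff (T := P) G m⟫_ℂ‖ ^ 2)
      (∫ x : AddCircle P, ‖⟪e, G x⟫_ℂ‖ ^ 2 ∂haarAddCircle) := by
  set f : C(AddCircle P, ℂ) := ⟨fun x => ⟪e, G x⟫_ℂ, continuous_const.inner G.continuous⟩ with hf
  have hc : ∀ m, fourierCoeff f m = ⟪e, fourierCoeff (T := P) G m⟫_ℂ := by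
    intro m
    rw [fourierCoeff, fourierCoeff,
      ← integral_inner (f := fun x => (fourier (-m) x : ℂ) • G x)
        (integrable_circle ((fourier (-m)).continuous.smul G.continuous)) e]
    refine integral_congr_ae (Eventually.of_forall fun x => ?_)
    simp [hf, inner_smul_right]
  have h := hasSum_sq_fourierCoeff (ContinuousMap.toLp (E := ℂ) 2 haarAddCircle ℂ f)
  simp only [fourierCoeff_toLp, hc] at h
  convert h using 1
  refine integral_congr_ae ?_
  filter_upwards [ContinuousMap.coeFn_toLp (p := 2) (𝕜 := ℂ) haarAddCircle f] with x hx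
  rw [hx]
  rfl

/-- Bessel for a continuous vector valued function on the circle. -/
lemma sum_sq_le (Z : C(AddCircle P, H)) (S : Finset ℤ) :
    ∑ m ∈ S, ‖fourierCoeff (T := P) Z m‖ ^ 2 ≤ ∫ x : AddCircle P, ‖Z x‖ ^ 2 ∂haarAddCircle := by
  set W := Submodule.span ℂ ((fun m => fourierCoeff (T := P) Z m) '' (S : Set ℤ)) with hW
  have : FiniteDimensional ℂ W :=
    FiniteDimensional.span_of_finite ℂ (S.finite_toSet.image _)
  set b := stdOrthonormalBasis ℂ W
  have ho : Orthonormal ℂ (fun i => (b i : H)) := b.orthonormal.comp_linearIsometry W.subtypeₗᵢ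
  have e : ∀ m ∈ S, ‖fourierCoeff (T := P) Z m‖ ^ 2 =
      ∑ i, ‖⟪(b i : H), fourierCoeff (T := P) Z m⟫_ℂ‖ ^ 2 := by
    intro m hm
    have hmem : fourierCoeff (T := P) Z m ∈ W := Submodule.subset_span ⟨m, hm, rfl⟩
    exact (b.sum_sq_norm_inner_right ⟨_, hmem⟩).symm
  calc ∑ m ∈ S, ‖fourierCoeff (T := P) Z m‖ ^ 2
      = ∑ i, ∑ m ∈ S, ‖⟪(b i : H), fourierCoeff (T := P) Z m⟫_ℂ‖ ^ 2 := by
        rw [Finset.sum_comm]; exact Finset.sum_congr rfl e
    _ ≤ ∑ i, ∫ x : AddCircle P, ‖⟪(b i : H), Z x⟫_ℂ‖ ^ 2 ∂haarAddCircle :=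
        Finset.sum_le_sum fun i _ => sum_le_hasSum S (fun m _ => by positivity) (hasSum_coord Z _)
    _ = ∫ x : AddCircle P, ∑ i, ‖⟪(b i : H), Z x⟫_ℂ‖ ^ 2 ∂haarAddCircle :=
        (integral_finsetSum _ fun i _ =>
          integrable_circle ((continuous_const.inner Z.continuous).norm.pow 2)).symm
    _ ≤ _ := integral_mono
        (integrable_circle (continuous_finsetSum _ fun i _ =>
          (continuous_const.inner Z.continuous).norm.pow 2))
        (integrable_circle (Z.continuous.norm.pow 2)) fun x => ho.sum_inner_products_le _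

end circle

/-- The kernel of the twisted convolution: `φ r` times the operator `A r`. -/
structure Kernel (H : Type) [NormedAddCommGroup H] [InnerProductSpace ℂ H] [CompleteSpace H] where
  /-- The weight. -/
  φ : ℝ → ℝ
  /-- The operators. -/
  A : ℝ → (H →L[ℂ] H)
  φ_cont : Continuous φ
  φ_nonneg : ∀ r, 0 ≤ φ r
  φ_int : Integrable φ
  A_cont : ∀ v, Continuous fun r => A r v
  A_le : ∀ r v, ‖A r v‖ ≤ 2 * ‖v‖
  /-- The bound at the single frequencies. -/
  g : ℝ
  g_nonneg : 0 ≤ g
  bound : ∀ (q : ℝ) (v : H),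
    ‖∫ r, (φ r : ℂ) • Complex.exp ((q * r : ℝ) * Complex.I) • A r v‖ ≤ g * ‖v‖

namespace Kernel

variable (K : Kernel H)

lemma continuous_apply {X : Type*} [TopologicalSpace X] [FirstCountableTopology X] {a : X → ℝ}
    {b : X → H} (ha : Continuous a) (hb : Continuous b) : Continuous fun x => K.A (a x) (b x) := by
  refine continuous_iff_continuousAt.2 fun x => ?_
  have h : Tendsto (fun y => K.A (a y) (b y - b x) + K.A (a y) (b x)) (𝓝 x)
      (𝓝 (0 + K.A (a x) (b x))) := by
    refine Tendsto.add ?_ (((K.A_cont (b x)).comp ha).tendsto x)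
    refine squeeze_zero_norm (fun y => K.A_le _ _) ?_
    have := (((hb.tendsto x).sub_const (b x)).norm).const_mul 2
    simpa using this
  simpa [ContinuousAt, map_sub] using h

section circle

variable {P : ℝ} [hP : Fact (0 < P)] (Z : C(AddCircle P, H))

/-- The convolution on the circle. -/
noncomputable def conv (x : AddCircle P) : H := ∫ r : ℝ, (K.φ r : ℂ) • K.A r (Z (x - (r : ℝ)))

omit hP in
lemma continuous_integrand :
    Continuous fun p : AddCircle P × ℝ => (K.φ p.2 : ℂ) • K.A p.2 (Z (p.1 - (p.2 : ℝ))) :=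
  (Complex.continuous_ofReal.comp (K.φ_cont.comp continuous_snd)).smul
    (K.continuous_apply continuous_snd (Z.continuous.comp
      (continuous_fst.sub ((AddCircle.continuous_mk' P).comp continuous_snd))))

lemma norm_integrand (x : AddCircle P) (r : ℝ) :
    ‖(K.φ r : ℂ) • K.A r (Z (x - (r : ℝ)))‖ ≤ K.φ r * (2 * ‖Z‖) := by
  rw [norm_smul, Complex.norm_real, Real.norm_of_nonneg (K.φ_nonneg r)]
  exact mul_le_mul_of_nonneg_left ((K.A_le r _).trans
    (mul_le_mul_of_nonneg_left (Z.norm_coe_le_norm _) zero_le_two)) (K.φ_nonneg r)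

lemma continuous_conv : Continuous (K.conv Z) :=
  continuous_of_dominated (fun x => ((K.continuous_integrand Z).comp
      (Continuous.prodMk_right x)).aestronglyMeasurable)
    (fun x => Eventually.of_forall (K.norm_integrand Z x)) (K.φ_int.mul_const _)
    (Eventually.of_forall fun r => (K.continuous_integrand Z).comp (Continuous.prodMk_left r))

lemma coeff_conv (m : ℤ) :
    ‖fourierCoeff (T := P) (K.conv Z) m‖ ≤ K.g * ‖fourierCoeff (T := P) Z m‖ := by
  have key : fourierCoeff (T := P) (K.conv Z) m = ∫ r : ℝ, (K.φ r : ℂ) •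
      Complex.exp (((-(2 * π * m / P)) * r : ℝ) * Complex.I) •
        K.A r (fourierCoeff (T := P) Z m) := by
    unfold fourierCoeff conv
    simp only [← integral_smul]
    rw [integral_integral_swap]
    · refine integral_congr_ae (Eventually.of_forall fun r => ?_)
      have h1 : ∀ x : AddCircle P, (fourier (-m) x : ℂ) • (K.φ r : ℂ) • K.A r (Z (x - (r : ℝ))) =
          (K.φ r : ℂ) • (fourier (-m) (r : AddCircle P) : ℂ) •
            K.A r ((fourier (-m) (x - (r : AddCircle P)) : ℂ) • Z (x - (r : AddCircle P))) := by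
        intro x
        rw [map_smul, smul_smul, smul_smul, smul_smul]
        congr 1
        rw [show (fourier (-m) x : ℂ) =
            fourier (-m) (r : AddCircle P) * fourier (-m) (x - (r : AddCircle P)) by
          simp only [fourier_apply, ← Circle.coe_mul, ← AddCircle.toCircle_add, ← smul_add,
            add_sub_cancel]]
        ring
      have h2 : (fourier (-m) (r : AddCircle P) : ℂ) =
          Complex.exp (((-(2 * π * m / P)) * r : ℝ) * Complex.I) := by
        rw [fourier_coe_apply]; push_cast; ring_nf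
      simp only [h1]
      rw [integral_smul, integral_smul, h2, (K.A r).integral_comp_comm
          (φ := fun x : AddCircle P =>
            (fourier (-m) (x - (r : AddCircle P)) : ℂ) • Z (x - (r : AddCircle P)))
          (integrable_circle (((fourier (-m)).continuous.smul Z.continuous).comp
            (continuous_id.sub continuous_const))),
        integral_sub_right_eq_self (fun x : AddCircle P => (fourier (-m) x : ℂ) • Z x)]
    · refine ((K.φ_int.mul_const (2 * ‖Z‖)).comp_snd AddCircle.haarAddCircle).mono'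
        (((fourier (-m)).continuous.comp continuous_fst).smul
          (K.continuous_integrand Z)).aestronglyMeasurable (Eventually.of_forall fun p => ?_)
      simp only [Function.uncurry]
      rw [norm_smul, fourier_apply, Circle.norm_coe, one_mul]
      exact K.norm_integrand Z p.1 p.2
  rw [key]
  exact K.bound _ _

lemma circle_le {ι : Type*} [Fintype ι] {e : ι → H} (he : Orthonormal ℂ e) :
    ∫ x : AddCircle P, ∑ i, ‖⟪e i, K.conv Z x⟫_ℂ‖ ^ 2 ∂AddCircle.haarAddCircle ≤
      K.g ^ 2 * ∫ x : AddCircle P, ‖Z x‖ ^ 2 ∂AddCircle.haarAddCircle := by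
  set G : C(AddCircle P, H) := ⟨K.conv Z, K.continuous_conv Z⟩ with hG
  have hi : ∀ i ∈ (Finset.univ : Finset ι), Integrable
      (fun x => ‖⟪e i, K.conv Z x⟫_ℂ‖ ^ 2) AddCircle.haarAddCircle := fun i _ =>
    integrable_circle ((continuous_const.inner (K.continuous_conv Z)).norm.pow 2)
  rw [integral_finsetSum _ hi]
  refine hasSum_le_of_sum_le (hasSum_sum fun i _ => hasSum_coord G (e i)) fun S => ?_
  calc ∑ m ∈ S, ∑ i, ‖⟪e i, fourierCoeff (T := P) G m⟫_ℂ‖ ^ 2
      ≤ ∑ m ∈ S, K.g ^ 2 * ‖fourierCoeff (T := P) Z m‖ ^ 2 :=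
        Finset.sum_le_sum fun m _ => (he.sum_inner_products_le _).trans (by
          rw [← mul_pow]; exact pow_le_pow_left₀ (norm_nonneg _) (K.coeff_conv Z m) 2)
    _ ≤ _ := by
        rw [← Finset.mul_sum]
        exact mul_le_mul_of_nonneg_left (sum_sq_le Z S) (sq_nonneg _)

end circle

/-- The twisted convolution of a vector valued function. -/
noncomputable def line (z : ℝ → H) (s : ℝ) : H := ∫ r : ℝ, (K.φ r : ℂ) • K.A r (z (s - r))

lemma continuous_line {z : ℝ → H} (hz : Continuous z) {b : ℝ} (hb : ∀ t, ‖z t‖ ≤ b) :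
    Continuous (K.line z) := by
  have hc : Continuous fun p : ℝ × ℝ => (K.φ p.2 : ℂ) • K.A p.2 (z (p.1 - p.2)) :=
    (Complex.continuous_ofReal.comp (K.φ_cont.comp continuous_snd)).smul
      (K.continuous_apply continuous_snd (hz.comp (continuous_fst.sub continuous_snd)))
  refine continuous_of_dominated (bound := fun r => K.φ r * (2 * b))
    (fun x => (hc.comp (Continuous.prodMk_right x)).aestronglyMeasurable)
    (fun x => Eventually.of_forall fun r => ?_) (K.φ_int.mul_const _)
    (Eventually.of_forall fun r => hc.comp (Continuous.prodMk_left r))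
  rw [norm_smul, Complex.norm_real, Real.norm_of_nonneg (K.φ_nonneg r)]
  exact mul_le_mul_of_nonneg_left ((K.A_le r _).trans
    (mul_le_mul_of_nonneg_left (hb _) zero_le_two)) (K.φ_nonneg r)

/-- The mean square of the convolution on the support interval. -/
theorem line_le {z : ℝ → H} (hz : Continuous z) (hs : ∀ t, 1 ≤ |t| → z t = 0) :
    ∫ s in (-1 : ℝ)..1, ‖K.line z s‖ ^ 2 ≤ 4 * K.g ^ 2 * ∫ s in (-1 : ℝ)..1, ‖z s‖ ^ 2 := by
  obtain ⟨b, hb⟩ : ∃ b, ∀ t, ‖z t‖ ≤ b :=
    (hz.bounded_above_of_compact_support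
      (HasCompactSupport.intro (isCompact_Icc (a := (-1 : ℝ)) (b := 1)) fun t ht => hs t (by
        by_contra h; exact ht (Set.mem_Icc.2 (abs_le.1 (not_le.1 h).le)))))
  have hline := K.continuous_line hz hb
  refine le_of_forall_pos_le_add fun ε hε => ?_
  have himg : TotallyBounded (K.line z '' Icc (-1) 1) :=
    (isCompact_Icc.image hline).totallyBounded
  set δ : ℝ := min 1 (ε / 32) with hδ
  have hδ0 : 0 < δ := lt_min one_pos (by positivity)
  obtain ⟨T, hTf, hT⟩ := Metric.totallyBounded_iff.1 himg δ hδ0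
  set W := Submodule.span ℂ T with hW
  have : FiniteDimensional ℂ W := FiniteDimensional.span_of_finite ℂ hTf
  set b' := stdOrthonormalBasis ℂ W
  have ho : Orthonormal ℂ (fun i => (b' i : H)) := b'.orthonormal.comp_linearIsometry W.subtypeₗᵢ
  set sq : H → ℝ := fun v => ∑ i, ‖⟪(b' i : H), v⟫_ℂ‖ ^ 2 with hsq
  have hsq_le : ∀ v, sq v ≤ ‖v‖ ^ 2 := fun v => ho.sum_inner_products_le v
  have hW2 : ∀ v : H, sq v = ‖W.orthogonalProjectionOnto v‖ ^ 2 := fun v => by
    rw [← b'.sum_sq_norm_inner_right (W.orthogonalProjectionOnto v), hsq]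
    simp only [← Submodule.inner_orthogonalProjectionOnto_eq_of_mem_left]
  have hnear : ∀ s ∈ Icc (-1 : ℝ) 1, ‖K.line z s‖ ≤ Real.sqrt (sq (K.line z s)) + δ := by
    intro s hs'
    obtain ⟨w, hw, hd⟩ := Set.mem_iUnion₂.1 (hT ⟨s, hs', rfl⟩)
    rw [hW2, Real.sqrt_sq (norm_nonneg _)]
    have h1 : ‖K.line z s - W.starProjection (K.line z s)‖ ≤ δ := by
      rw [Submodule.starProjection_minimal]
      refine (ciInf_le ⟨0, by rintro _ ⟨x, rfl⟩; positivity⟩
        ⟨w, Submodule.subset_span hw⟩).trans ?_
      rw [← dist_eq_norm]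
      exact hd.le
    calc ‖K.line z s‖ ≤ ‖K.line z s - W.starProjection (K.line z s)‖ +
          ‖W.starProjection (K.line z s)‖ := norm_le_norm_sub_add _ _
      _ ≤ δ + ‖W.orthogonalProjectionOnto (K.line z s)‖ := add_le_add h1 le_rfl
      _ = _ := add_comm _ _
  -- a long circle
  obtain ⟨P, hP4, htail⟩ : ∃ P : ℝ, 8 < P ∧ (∫ r in {r : ℝ | P / 4 ≤ |r|}, K.φ r) * (4 * b) ≤ δ := by
    have hm : ∀ n : ℕ, MeasurableSet {r : ℝ | (n : ℝ) ≤ |r|} := fun n =>
      (isClosed_le continuous_const continuous_abs).measurableSet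
    have ht : Tendsto (fun n : ℕ => ∫ r in {r : ℝ | (n : ℝ) ≤ |r|}, K.φ r) atTop (𝓝 0) := by
      simp_rw [← fun n => integral_indicator (f := K.φ) (μ := volume) (hm n)]
      rw [← integral_zero ℝ ℝ]
      refine tendsto_integral_of_dominated_convergence K.φ
        (fun n => (K.φ_cont.stronglyMeasurable.indicator (hm n)).aestronglyMeasurable) K.φ_int
        (fun n => Eventually.of_forall fun r => ?_) (Eventually.of_forall fun r => ?_)
      · rw [Real.norm_of_nonneg (Set.indicator_nonneg (fun x _ => K.φ_nonneg x) r)]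
        exact Set.indicator_le_self' (fun x _ => K.φ_nonneg x) r
      · refine (tendsto_const_nhds (x := (0 : ℝ))).congr' ((eventually_ge_atTop (⌈|r|⌉₊ + 1)).mono
          fun n hn => Eq.symm ?_)
        refine Set.indicator_of_notMem (s := {r : ℝ | (n : ℝ) ≤ |r|}) (f := K.φ)
          (fun h : (n : ℝ) ≤ |r| => ?_)
        have : (⌈|r|⌉₊ + 1 : ℝ) ≤ n := by exact_mod_cast hn
        linarith [Nat.le_ceil |r|]
    obtain ⟨n, hn⟩ := ((((ht.mul_const (4 * b))).eventually
      (eventually_le_nhds (show 0 * (4 * b) < δ by rwa [zero_mul]))).and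
        (eventually_gt_atTop 2)).exists
    exact ⟨4 * n, by exact_mod_cast (by omega : 8 < 4 * n),
      by simpa [mul_div_cancel_left₀] using hn.1⟩
  have : Fact (0 < P) := ⟨by linarith⟩
  set zc : C(AddCircle P, H) := ⟨AddCircle.liftIco P (-(P / 2)) z,
    AddCircle.liftIco_continuous (by
      rw [hs _ (by rw [abs_neg, abs_of_pos] <;> linarith),
        hs _ (by rw [show -(P / 2) + P = P / 2 by ring, abs_of_pos] <;> linarith)])
      hz.continuousOn⟩ with hzc
  have hzc_apply : ∀ t ∈ Ico (-(P / 2)) (-(P / 2) + P), zc (t : AddCircle P) = z t := fun t ht =>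
    AddCircle.liftIco_coe_apply ht
  have hzc_norm : ∀ x, ‖zc x‖ ≤ b := fun x => by
    show ‖AddCircle.liftIco P (-(P / 2)) z x‖ ≤ b
    exact hb _
  have hclose : ∀ s ∈ Icc (-1 : ℝ) 1, ‖K.line z s - K.conv zc (s : AddCircle P)‖ ≤ δ := by
    intro s hs'
    have i1 : Integrable fun r => (K.φ r : ℂ) • K.A r (z (s - r)) :=
      (K.φ_int.mul_const (2 * b)).mono' (((Complex.continuous_ofReal.comp K.φ_cont).smul
        (K.continuous_apply continuous_id (hz.comp (continuous_const.sub continuous_id))))
          ).aestronglyMeasurable (Eventually.of_forall fun r => by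
        rw [norm_smul, Complex.norm_real, Real.norm_of_nonneg (K.φ_nonneg r)]
        exact mul_le_mul_of_nonneg_left ((K.A_le r _).trans
          (mul_le_mul_of_nonneg_left (hb _) zero_le_two)) (K.φ_nonneg r))
    have i2 : Integrable fun r : ℝ => (K.φ r : ℂ) • K.A r (zc ((s : AddCircle P) - (r : ℝ))) :=
      (K.φ_int.mul_const (2 * ‖zc‖)).mono' ((K.continuous_integrand zc).comp
        (Continuous.prodMk_right (s : AddCircle P))).aestronglyMeasurable
          (Eventually.of_forall (K.norm_integrand zc _))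
    rw [line, conv, ← integral_sub i1 i2]
    refine le_trans ((norm_integral_le_of_norm_le
      (g := fun r => {r : ℝ | P / 4 ≤ |r|}.indicator K.φ r * (4 * b)) ((K.φ_int.indicator
        (isClosed_le continuous_const continuous_abs).measurableSet).mul_const _)
      (Eventually.of_forall fun r => ?_))) ?_
    · by_cases hr : P / 4 ≤ |r|
      · rw [Set.indicator_of_mem (show r ∈ {r : ℝ | P / 4 ≤ |r|} from hr), ← smul_sub, ← map_sub,
          norm_smul, Complex.norm_real, Real.norm_of_nonneg (K.φ_nonneg r)]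
        refine mul_le_mul_of_nonneg_left ((K.A_le r _).trans ?_) (K.φ_nonneg r)
        have := (norm_sub_le (z (s - r)) (zc ((s : AddCircle P) - (r : ℝ)))).trans
          (add_le_add (hb _) (hzc_norm _))
        linarith
      · rw [Set.indicator_of_notMem (show r ∉ {r : ℝ | P / 4 ≤ |r|} from hr), zero_mul]
        have hr' := abs_lt.1 (not_le.1 hr)
        rw [← QuotientAddGroup.mk_sub, hzc_apply (s - r)
          ⟨by linarith [hs'.1], by linarith [hs'.2]⟩, sub_self, norm_zero]
    · rw [integral_mul_const, integral_indicator (isClosed_le continuous_const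
        continuous_abs).measurableSet]
      exact htail
  set G := fun x : AddCircle P => sq (K.conv zc x) with hG
  have hGc : Continuous G := continuous_finsetSum _ fun i _ =>
    (continuous_const.inner (K.continuous_conv zc)).norm.pow 2
  have hGp : ∀ f : AddCircle P → ℝ, ∫ x, f x ∂AddCircle.haarAddCircle =
      P⁻¹ * ∫ t in (-(P / 2))..(-(P / 2) + P), f t := fun f => by
    rw [AddCircle.intervalIntegral_preimage P (-(P / 2)) f, AddCircle.integral_haarAddCircle,
      smul_eq_mul]
  have hcirc := K.circle_le zc ho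
  rw [hGp, hGp] at hcirc
  have hcirc' : ∫ t in (-(P / 2))..(-(P / 2) + P), G t ≤
      K.g ^ 2 * ∫ t in (-(P / 2))..(-(P / 2) + P), ‖zc t‖ ^ 2 :=
    le_of_mul_le_mul_left (hcirc.trans_eq (by ring)) (inv_pos.2 (by linarith : (0 : ℝ) < P))
  have hsupp : ∫ t in (-(P / 2))..(-(P / 2) + P), ‖zc t‖ ^ 2 =
      ∫ t in (-1 : ℝ)..1, ‖z t‖ ^ 2 := by
    have e : ∫ t in (-(P / 2))..(-(P / 2) + P), ‖zc t‖ ^ 2 =
        ∫ t in (-(P / 2))..(-(P / 2) + P), ‖z t‖ ^ 2 := by
      refine intervalIntegral.integral_congr_ae ?_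
      filter_upwards [compl_mem_ae_iff.2 (measure_singleton (μ := volume) (-(P / 2) + P))]
        with t ht1 ht
      rw [uIoc_of_le (by linarith)] at ht
      rw [hzc_apply t ⟨ht.1.le, lt_of_le_of_ne ht.2 ht1⟩]
    rw [e]
    refine (intervalIntegral.integral_eq_integral_of_support_subset ?_).trans
      (intervalIntegral.integral_eq_integral_of_support_subset ?_).symm <;>
    · intro t ht
      by_contra h
      have h1 : 1 ≤ |t| := le_of_not_gt fun hlt => by
        rw [abs_lt] at hlt
        exact h ⟨by linarith [hlt.1], by linarith [hlt.2]⟩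
      exact ht (by simp [hs t h1])
  have hpt : ∀ s ∈ Icc (-1 : ℝ) 1, ‖K.line z s‖ ^ 2 ≤ 4 * G s + 16 * δ ^ 2 := by
    intro s hs'
    have h1 := hnear s hs'
    have h2 : Real.sqrt (sq (K.line z s)) ≤ Real.sqrt (G s) + δ := by
      rw [show G (s : AddCircle P) = sq (K.conv zc s) from rfl, hW2, hW2, Real.sqrt_sq (norm_nonneg _), Real.sqrt_sq (norm_nonneg _)]
      calc ‖W.orthogonalProjectionOnto (K.line z s)‖
          = ‖W.orthogonalProjectionOnto (K.conv zc s) +
              W.orthogonalProjectionOnto (K.line z s - K.conv zc s)‖ := by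
            rw [← map_add, add_sub_cancel]
        _ ≤ _ := (norm_add_le _ _).trans (add_le_add le_rfl
            ((W.norm_orthogonalProjectionOnto_apply_le _).trans (hclose s hs')))
    have hg0 : 0 ≤ G s := Finset.sum_nonneg fun i _ => by positivity
    nlinarith [Real.sq_sqrt hg0, Real.sqrt_nonneg (G s), norm_nonneg (K.line z s),
      sq_nonneg (Real.sqrt (G s) - 2 * δ)]
  have hGr : Continuous fun s : ℝ => G s := hGc.comp (AddCircle.continuous_mk' P)
  have hmono : ∫ s in (-1 : ℝ)..1, G s ≤ ∫ t in (-(P / 2))..(-(P / 2) + P), G t :=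
    intervalIntegral.integral_mono_interval (by linarith) (by norm_num) (by linarith)
      (Eventually.of_forall fun t => Finset.sum_nonneg fun i _ => by positivity)
      (hGr.intervalIntegrable _ _)
  calc ∫ s in (-1 : ℝ)..1, ‖K.line z s‖ ^ 2
      ≤ ∫ s in (-1 : ℝ)..1, (4 * G s + 16 * δ ^ 2) :=
        intervalIntegral.integral_mono_on (by norm_num)
          ((hline.norm.pow 2).intervalIntegrable _ _)
          (((hGr.const_mul 4).add continuous_const).intervalIntegrable _ _) hpt
    _ = 4 * (∫ s in (-1 : ℝ)..1, G s) + 32 * δ ^ 2 := by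
        rw [intervalIntegral.integral_add ((hGr.const_mul 4).intervalIntegrable _ _)
          intervalIntegrable_const, intervalIntegral.integral_const_mul,
          intervalIntegral.integral_const, smul_eq_mul]
        ring
    _ ≤ _ := by
        have h1 : δ ^ 2 ≤ ε / 32 := by
          have a := min_le_left (1 : ℝ) (ε / 32); have b := min_le_right (1 : ℝ) (ε / 32)
          nlinarith
        rw [← hsupp]
        linarith [hmono.trans hcirc']

end Kernel

end Vale.Agent.P096.Three.Flow.Parseval
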