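import Vale.Agent.P096.Three.Flow.Defs
import Vale.Agent.P096.Three.Flow.Parseval
import Vale.Agent.P132.Tomita.Contour

/-!
P096, type III, the flow part: two flows close at every single frequency of the kernel
`1 / cosh (π r)` are close in mean square on short windows of times.
-/

open MeasureTheory Filter Topology Set
open scoped InnerProductSpace Real

namespace Vale.Agent.P096.Three.Flow.Mean

open Vale.Agent.P132.Tomita (integrable_sech integral_sech)

variable {H : Type} [NormedAddCommGroup H] [InnerProductSpace ℂ H] [CompleteSpace H]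

/-- A continuous one parameter group of unitaries. -/
structure IsFlow (U : ℝ → (H →L[ℂ] H)) : Prop where
  zero : U 0 = 1
  add : ∀ s t, U (s + t) = U s * U t
  star_eq : ∀ t, star (U t) = U (-t)
  cont : ∀ v, Continuous fun t => U t v

/-- The kernel. -/
noncomputable def sk (r : ℝ) : ℝ := (Real.cosh (π * r))⁻¹

/-- The tent. -/
noncomputable def tent (r : ℝ) : ℝ := max 0 (1 - |r|)

/-- The bound of the two flows at the single frequencies. -/
def FreqLe (U U' : ℝ → (H →L[ℂ] H)) (g : ℝ) : Prop :=
  ∀ (q : ℝ) (v : H),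
    ‖∫ r, (sk r : ℂ) • Complex.exp ((q * r : ℝ) * Complex.I) • (U' r v - U r v)‖ ≤ g * ‖v‖

lemma IsFlow.norm_apply {U : ℝ → (H →L[ℂ] H)} (h : IsFlow U) (t : ℝ) (v : H) : ‖U t v‖ = ‖v‖ := by
  have h1 : star (U t) * U t = 1 := by rw [h.star_eq, ← h.add, neg_add_cancel, h.zero]
  exact ContinuousLinearMap.norm_map_iff_adjoint_comp_self (U t) |>.2 h1 v

lemma IsFlow.comp {U : ℝ → (H →L[ℂ] H)} (h : IsFlow U) (s t : ℝ) (v : H) :
    U s (U t v) = U (s + t) v := by
  rw [h.add]; rfl

lemma IsFlow.continuous_apply {U : ℝ → (H →L[ℂ] H)} (h : IsFlow U) {X : Type*} [TopologicalSpace X]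
    {a : X → ℝ} {b : X → H} (ha : Continuous a) (hb : Continuous b) :
    Continuous fun x => U (a x) (b x) := by
  refine continuous_iff_continuousAt.2 fun x => ?_
  have h1 : Tendsto (fun y => U (a y) (b y - b x) + U (a y) (b x)) (𝓝 x)
      (𝓝 (0 + U (a x) (b x))) := by
    refine Tendsto.add ?_ (((h.cont (b x)).comp ha).tendsto x)
    refine squeeze_zero_norm (fun y => (h.norm_apply _ _).le) ?_
    simpa using ((hb.tendsto x).sub_const (b x)).norm
  simpa [ContinuousAt, map_sub] using h1

lemma continuous_sk : Continuous sk :=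
  (Real.continuous_cosh.comp (continuous_const.mul continuous_id)).inv₀ fun _ =>
    (Real.cosh_pos _).ne'

lemma sk_pos (r : ℝ) : 0 < sk r := inv_pos.2 (Real.cosh_pos _)

lemma sk_le_one (r : ℝ) : sk r ≤ 1 := inv_le_one_of_one_le₀ (Real.one_le_cosh _)

lemma hasDerivAt_sk (r : ℝ) :
    HasDerivAt sk (-(Real.sinh (π * r) * π) / Real.cosh (π * r) ^ 2) r := by
  have h := (((hasDerivAt_id r).const_mul π).cosh).inv (Real.cosh_pos (π * r)).ne'
  unfold sk
  convert! h using 1
  simp

lemma abs_sk_sub (a b : ℝ) : |sk a - sk b| ≤ 4 * |a - b| := by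
  have hd : ∀ r, ‖-(Real.sinh (π * r) * π) / Real.cosh (π * r) ^ 2‖ ≤ 4 := fun r => by
    have hc := Real.cosh_pos (π * r)
    have h1 : |Real.sinh (π * r)| ≤ Real.cosh (π * r) := by
      rw [abs_le]; constructor <;> linarith [Real.cosh_add_sinh (π * r),
        Real.cosh_sub_sinh (π * r), Real.exp_pos (π * r), Real.exp_pos (-(π * r))]
    rw [Real.norm_eq_abs, abs_div, abs_neg, abs_mul, abs_of_pos Real.pi_pos,
      abs_of_pos (by positivity : 0 < Real.cosh (π * r) ^ 2), div_le_iff₀ (by positivity)]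
    nlinarith [Real.pi_le_four, Real.pi_pos, Real.one_le_cosh (π * r),
      abs_nonneg (Real.sinh (π * r))]
  simpa [Real.norm_eq_abs] using convex_univ.norm_image_sub_le_of_norm_hasDerivWithin_le
    (fun r _ => (hasDerivAt_sk r).hasDerivWithinAt) (fun r _ => hd r) (mem_univ b) (mem_univ a)

lemma continuous_tent : Continuous tent := continuous_const.max (continuous_const.sub continuous_abs)

lemma tent_nonneg (r : ℝ) : 0 ≤ tent r := le_max_left _ _

lemma tent_le_one (r : ℝ) : tent r ≤ 1 := max_le zero_le_one (by linarith [abs_nonneg r])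

lemma tent_zero {r : ℝ} (h : 1 ≤ |r|) : tent r = 0 := max_eq_left (by linarith)

lemma abs_tent_sub (a b : ℝ) : |tent a - tent b| ≤ |a - b| := by
  refine (abs_max_sub_max_le_max 0 (1 - |a|) 0 (1 - |b|)).trans (max_le (by simp) ?_)
  rw [show 1 - |a| - (1 - |b|) = |b| - |a| by ring, abs_sub_comm a b]
  exact abs_abs_sub_abs_le_abs_sub b a

/-- The weight of the mean at `s`. -/
noncomputable def wt (s r : ℝ) : ℝ := sk r * tent (s - r)

lemma continuous_wt (s : ℝ) : Continuous (wt s) :=
  continuous_sk.mul (continuous_tent.comp (continuous_const.sub continuous_id))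

lemma abs_wt_le (s r : ℝ) : |wt s r| ≤ sk r := by
  rw [wt, abs_of_nonneg (mul_nonneg (sk_pos r).le (tent_nonneg _))]
  exact mul_le_of_le_one_right (sk_pos r).le (tent_le_one _)

lemma integrable_sk : Integrable sk := integrable_sech

lemma integral_sk : ∫ r, sk r = 1 := integral_sech

lemma integrable_wt (s : ℝ) : Integrable (wt s) :=
  integrable_sk.mono' (continuous_wt s).aestronglyMeasurable
    (Eventually.of_forall fun r => by rw [Real.norm_eq_abs]; exact abs_wt_le s r)

lemma wt_zero_pos : 0 < ∫ r, wt 0 r :=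
  (continuous_wt 0).integral_pos_of_hasCompactSupport_nonneg_nonzero
    (HasCompactSupport.intro (isCompact_Icc (a := (-1 : ℝ)) (b := 1)) fun r hr => by
      rw [wt, zero_sub, tent_zero, mul_zero]
      rw [abs_neg]
      by_contra h
      exact hr (Set.mem_Icc.2 (abs_le.1 (not_le.1 h).le)))
    (fun r => mul_nonneg (sk_pos r).le (tent_nonneg _))
    (x := 0) (by simp [wt, sk, tent])

lemma integral_translate {τ : ℝ} (hτ : |τ| ≤ 1) :
    ∫ r, |wt 0 (r - τ) - wt 0 r| ≤ 20 * |τ| := by
  have hb : ∀ r, |wt 0 (r - τ) - wt 0 r| ≤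
      (Icc (-2 : ℝ) 2).indicator (fun _ => 5 * |τ|) r := by
    intro r
    by_cases hr : r ∈ Icc (-2 : ℝ) 2
    · rw [Set.indicator_of_mem hr]
      calc |wt 0 (r - τ) - wt 0 r|
          = |(sk (r - τ) - sk r) * tent (0 - (r - τ)) +
              sk r * (tent (0 - (r - τ)) - tent (0 - r))| := by rw [wt, wt]; ring_nf
        _ ≤ 4 * |τ| * 1 + 1 * |τ| := by
            refine (abs_add_le _ _).trans (add_le_add ?_ ?_) <;> rw [abs_mul]
            · refine mul_le_mul ((abs_sk_sub _ _).trans_eq ?_) ?_ (abs_nonneg _) (by positivity)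
              · rw [show r - τ - r = -τ by ring, abs_neg]
              · rw [abs_of_nonneg (tent_nonneg _)]; exact tent_le_one _
            · refine mul_le_mul ?_ ((abs_tent_sub _ _).trans_eq ?_) (abs_nonneg _) zero_le_one
              · rw [abs_of_pos (sk_pos r)]; exact sk_le_one r
              · rw [show 0 - (r - τ) - (0 - r) = τ by ring]
        _ = 5 * |τ| := by ring
    · rw [Set.indicator_of_notMem hr]
      have h2 : 2 < |r| := by
        by_contra h
        exact hr (Set.mem_Icc.2 (abs_le.1 (not_lt.1 h)))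
      have h3 : 1 ≤ |r - τ| := by linarith [abs_sub_abs_le_abs_sub r τ]
      rw [wt, wt, tent_zero (by rwa [zero_sub, abs_neg]), tent_zero (by
        rw [zero_sub, abs_neg]; linarith)]
      simp
  refine (integral_mono_of_nonneg (Eventually.of_forall fun r => abs_nonneg _)
    ((integrable_indicator_iff measurableSet_Icc).2 ?_) (Eventually.of_forall hb)).trans_eq ?_
  · exact continuousOn_const.integrableOn_Icc
  · rw [integral_indicator measurableSet_Icc, setIntegral_const, Real.volume_real_Icc]
    norm_num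
    ring

variable (U U' : ℝ → (H →L[ℂ] H))

/-- The mean of `U' r * U (-r)` with the weight at `s`. -/
noncomputable def avD (s : ℝ) (w : H) : H := ∫ r, (wt s r : ℂ) • U' r (U (-r) w)

variable {U U'}

lemma integrable_avD (hU : IsFlow U) (hU' : IsFlow U') (s : ℝ) (w : H) :
    Integrable fun r => (wt s r : ℂ) • U' r (U (-r) w) := by
  refine ((integrable_wt s).norm.mul_const ‖w‖).mono'
    ((Complex.continuous_ofReal.comp (continuous_wt s)).smul (hU'.continuous_apply continuous_id
      (hU.continuous_apply continuous_neg continuous_const))).aestronglyMeasurable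
    (Eventually.of_forall fun r => ?_)
  rw [norm_smul, Complex.norm_real, hU'.norm_apply, hU.norm_apply]

lemma norm_avD_sub (hU : IsFlow U) (hU' : IsFlow U') {k k' : ℝ → ℝ} (hk : Integrable k)
    (hk' : Integrable k') (hc : Continuous k) (hc' : Continuous k') (w : H) :
    ‖(∫ r, (k r : ℂ) • U' r (U (-r) w)) - ∫ r, (k' r : ℂ) • U' r (U (-r) w)‖ ≤
      (∫ r, |k r - k' r|) * ‖w‖ := by
  have hi : ∀ {k : ℝ → ℝ}, Integrable k → Continuous k →
      Integrable fun r => (k r : ℂ) • U' r (U (-r) w) := fun {k} hk hc => by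
    refine (hk.norm.mul_const ‖w‖).mono'
      ((Complex.continuous_ofReal.comp hc).smul (hU'.continuous_apply continuous_id
        (hU.continuous_apply continuous_neg continuous_const))).aestronglyMeasurable
      (Eventually.of_forall fun r => ?_)
    rw [norm_smul, Complex.norm_real, hU'.norm_apply, hU.norm_apply]
  rw [← integral_sub (hi hk hc) (hi hk' hc'), ← integral_mul_const]
  refine norm_integral_le_of_norm_le ((hk.sub hk').abs.mul_const _) (Eventually.of_forall fun r => ?_)
  rw [← sub_smul, norm_smul, ← Complex.ofReal_sub, Complex.norm_real, hU'.norm_apply,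
    hU.norm_apply]
  rfl

lemma avD_near (hU : IsFlow U) (hU' : IsFlow U') (s : ℝ) (w : H) :
    ‖avD U U' s w - avD U U' 0 w‖ ≤ |s| * ‖w‖ := by
  refine (norm_avD_sub hU hU' (integrable_wt s) (integrable_wt 0) (continuous_wt s)
    (continuous_wt 0) w).trans (mul_le_mul_of_nonneg_right ?_ (norm_nonneg w))
  calc ∫ r, |wt s r - wt 0 r| ≤ ∫ r, sk r * |s| := by
        refine integral_mono ((integrable_wt s).sub (integrable_wt 0)).abs
          (integrable_sk.mul_const _) fun r => ?_
        rw [wt, wt, ← mul_sub, abs_mul, abs_of_pos (sk_pos r)]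
        refine mul_le_mul_of_nonneg_left ((abs_tent_sub _ _).trans_eq ?_) (sk_pos r).le
        rw [show s - r - (0 - r) = s by ring]
    _ = |s| := by rw [integral_mul_const, integral_sk, one_mul]

lemma avD_equivariant (hU : IsFlow U) (hU' : IsFlow U') {τ : ℝ} (hτ : |τ| ≤ 1) (w : H) :
    ‖U' τ (avD U U' 0 (U (-τ) w)) - avD U U' 0 w‖ ≤ 20 * |τ| * ‖w‖ := by
  have e : U' τ (avD U U' 0 (U (-τ) w)) = ∫ r, (wt 0 (r - τ) : ℂ) • U' r (U (-r) w) := by
    rw [avD, ← (U' τ).integral_comp_comm (integrable_avD hU hU' 0 _),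
      ← integral_sub_right_eq_self (fun r => U' τ ((wt 0 r : ℂ) • U' r (U (-r) (U (-τ) w)))) τ]
    refine integral_congr_ae (Eventually.of_forall fun r => ?_)
    simp only [map_smul, hU.comp, hU'.comp]
    ring_nf
  rw [e, avD]
  refine (norm_avD_sub hU hU' ((integrable_wt 0).comp_sub_right τ) (integrable_wt 0)
    ((continuous_wt 0).comp (continuous_id.sub continuous_const)) (continuous_wt 0) w).trans ?_
  exact mul_le_mul_of_nonneg_right (integral_translate hτ) (norm_nonneg w)

/-- AVERAGE, quantitatively. -/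
theorem mean_le : ∃ C : ℝ, 0 ≤ C ∧ ∀ (H : Type) [NormedAddCommGroup H] [InnerProductSpace ℂ H]
    [CompleteSpace H] (U U' : ℝ → (H →L[ℂ] H)) (g d : ℝ), IsFlow U → IsFlow U' → 0 ≤ g →
    FreqLe U U' g → 0 < d → d ≤ 1 / 2 → ∀ t, |t| ≤ d → ∀ v,
      ∫ s in (-d)..d, ‖U' t (U (-t) (U s v)) - U s v‖ ^ 2 ≤
        C * (g ^ 2 / d + d ^ 2) * (2 * d) * ‖v‖ ^ 2 := by
  set c₀ := ∫ r, wt 0 r with hc₀
  have hc0 : 0 < c₀ := wt_zero_pos
  refine ⟨1600 / c₀ ^ 2, by positivity, ?_⟩
  intro H _ _ _ U U' g d hU hU' hg hK hd hd2 t ht v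
  let K : Parseval.Kernel H :=
    { φ := sk
      A := fun r => U' r - U r
      φ_cont := continuous_sk
      φ_nonneg := fun r => (sk_pos r).le
      φ_int := integrable_sk
      A_cont := fun w => (hU'.cont w).sub (hU.cont w)
      A_le := fun r w => (norm_sub_le _ _).trans
        ((add_le_add (hU'.norm_apply r w).le (hU.norm_apply r w).le).trans_eq (two_mul _).symm)
      g := g
      g_nonneg := hg
      bound := hK }
  set z : ℝ → H := fun u => (tent u : ℂ) • U u v with hz
  have hzc : Continuous z := (Complex.continuous_ofReal.comp continuous_tent).smul (hU.cont v)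
  have hzn : ∀ u, ‖z u‖ ≤ ‖v‖ := fun u => by
    rw [hz, norm_smul, Complex.norm_real, Real.norm_of_nonneg (tent_nonneg u), hU.norm_apply]
    exact mul_le_of_le_one_left (norm_nonneg v) (tent_le_one u)
  have hline := K.line_le hzc fun u hu => by simp [hz, tent_zero hu]
  have hzint : ∫ u in (-1 : ℝ)..1, ‖z u‖ ^ 2 ≤ 2 * ‖v‖ ^ 2 := by
    refine (intervalIntegral.integral_mono_on (g := fun _ => ‖v‖ ^ 2) (by norm_num)
      ((hzc.norm.pow 2).intervalIntegrable _ _) intervalIntegrable_const fun u _ =>
        pow_le_pow_left₀ (norm_nonneg _) (hzn u) 2).trans_eq ?_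
    rw [intervalIntegral.integral_const, smul_eq_mul]; norm_num
  set E : ℝ → H := fun u => avD U U' 0 (U u v) - (c₀ : ℂ) • U u v with hE
  have hlineq : ∀ u, K.line z u = avD U U' u (U u v) - ((∫ r, wt u r : ℝ) : ℂ) • U u v := by
    intro u
    have i2 : Integrable fun r => (wt u r : ℂ) • U u v := (integrable_wt u).ofReal.smul_const _
    rw [avD, ← integral_complex_ofReal, ← integral_smul_const,
      ← integral_sub (integrable_avD hU hU' u (U u v)) i2]
    refine integral_congr_ae (Eventually.of_forall fun r => ?_)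
    simp only [K, hz, wt, sub_apply, map_smul, smul_sub, smul_smul, hU.comp, Complex.ofReal_mul]
    rw [add_sub_cancel, neg_add_eq_sub]
  have hEn : ∀ u, ‖E u‖ ≤ ‖K.line z u‖ + 2 * |u| * ‖v‖ := by
    intro u
    have e : E u = K.line z u - (avD U U' u (U u v) - avD U U' 0 (U u v)) +
        (((∫ r, wt u r : ℝ) : ℂ) - (c₀ : ℂ)) • U u v := by
      rw [hlineq, hE, sub_smul]; abel_nf
    have h1 := avD_near hU hU' u (U u v)
    have h2 : |(∫ r, wt u r) - c₀| ≤ |u| := by
      rw [hc₀, ← integral_sub (integrable_wt u) (integrable_wt 0)]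
      refine (abs_integral_le_integral_abs).trans ((integral_mono
        ((integrable_wt u).sub (integrable_wt 0)).abs (integrable_sk.mul_const |u|)
        fun r => ?_).trans_eq (by rw [integral_mul_const, integral_sk, one_mul]))
      show |wt u r - wt 0 r| ≤ _
      simp only [wt]
      rw [← mul_sub, abs_mul, abs_of_pos (sk_pos r)]
      refine mul_le_mul_of_nonneg_left ((abs_tent_sub _ _).trans_eq ?_) (sk_pos r).le
      rw [show u - r - (0 - r) = u by ring]
    rw [hU.norm_apply] at h1
    rw [e]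
    refine (norm_add_le _ _).trans ((add_le_add (norm_sub_le _ _) le_rfl).trans ?_)
    rw [norm_smul, ← Complex.ofReal_sub, Complex.norm_real, Real.norm_eq_abs, hU.norm_apply]
    nlinarith [mul_le_mul_of_nonneg_right h2 (norm_nonneg v)]
  have hEc : Continuous E := by
    suffices hA : Continuous (avD U U' 0) by
      rw [hE]; exact (hA.comp (hU.cont v)).sub ((hU.cont v).const_smul _)
    refine LipschitzWith.continuous (K := (∫ r, |wt 0 r|).toNNReal)
      (LipschitzWith.of_dist_le_mul fun w w' => ?_)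
    rw [dist_eq_norm, dist_eq_norm, Real.coe_toNNReal _ (integral_nonneg fun r => abs_nonneg _),
      avD, avD, ← integral_sub (integrable_avD hU hU' 0 w) (integrable_avD hU hU' 0 w'),
      ← integral_mul_const]
    refine norm_integral_le_of_norm_le ((integrable_wt 0).abs.mul_const _)
      (Eventually.of_forall fun r => ?_)
    rw [← smul_sub, ← map_sub, ← map_sub, norm_smul, Complex.norm_real, Real.norm_eq_abs,
      hU'.norm_apply, hU.norm_apply]
  have hlc : Continuous (K.line z) := K.continuous_line hzc hzn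
  have hEint : ∫ u in (-(2 * d))..(2 * d), ‖E u‖ ^ 2 ≤ (16 * g ^ 2 + 128 * d ^ 3) * ‖v‖ ^ 2 := by
    calc ∫ u in (-(2 * d))..(2 * d), ‖E u‖ ^ 2
        ≤ ∫ u in (-(2 * d))..(2 * d), (2 * ‖K.line z u‖ ^ 2 + 32 * d ^ 2 * ‖v‖ ^ 2) := by
          refine intervalIntegral.integral_mono_on (by linarith)
            ((hEc.norm.pow 2).intervalIntegrable _ _)
            ((((hlc.norm.pow 2).const_mul 2).add continuous_const).intervalIntegrable _ _)
            fun u hu => ?_
          have h1 := hEn u
          have h2 : |u| ≤ 2 * d := abs_le.2 ⟨hu.1, hu.2⟩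
          have h3 := pow_le_pow_left₀ (norm_nonneg _) (h1.trans (add_le_add le_rfl
            (mul_le_mul_of_nonneg_right (mul_le_mul_of_nonneg_left h2 zero_le_two)
              (norm_nonneg v)))) 2
          nlinarith [sq_nonneg (‖K.line z u‖ - 2 * (2 * d) * ‖v‖)]
      _ = 2 * (∫ u in (-(2 * d))..(2 * d), ‖K.line z u‖ ^ 2) + 128 * d ^ 3 * ‖v‖ ^ 2 := by
          have i1 : IntervalIntegrable (fun u => 2 * ‖K.line z u‖ ^ 2) volume (-(2 * d)) (2 * d) :=
            ((hlc.norm.pow 2).const_mul 2).intervalIntegrable _ _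
          rw [intervalIntegral.integral_add i1 intervalIntegrable_const,
            intervalIntegral.integral_const_mul,
            intervalIntegral.integral_const, smul_eq_mul]
          ring
      _ ≤ _ := by
          have h1 : ∫ u in (-(2 * d))..(2 * d), ‖K.line z u‖ ^ 2 ≤
              4 * g ^ 2 * (2 * ‖v‖ ^ 2) :=
            (intervalIntegral.integral_mono_interval (by linarith) (by linarith) (by linarith)
              (Eventually.of_forall fun u => sq_nonneg _)
              ((hlc.norm.pow 2).intervalIntegrable _ _)).trans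
              (hline.trans (mul_le_mul_of_nonneg_left hzint (by positivity)))
          linarith
  have hpt : ∀ s ∈ Icc (-d) d, c₀ ^ 2 * ‖U' t (U (-t) (U s v)) - U s v‖ ^ 2 ≤
      3 * ‖E (s - t)‖ ^ 2 + 3 * ‖E s‖ ^ 2 + 1200 * d ^ 2 * ‖v‖ ^ 2 := by
    intro s _
    set w := U s v with hw
    have hw' : U (-t) w = U (s - t) v := by rw [hw, hU.comp, neg_add_eq_sub]
    have e : (c₀ : ℂ) • (U' t (U (-t) w) - w) = -U' t (E (s - t)) +
        (U' t (avD U U' 0 (U (-t) w)) - avD U U' 0 w) + E s := by
      simp only [hE, ← hw', map_sub, map_smul, smul_sub, ← hw]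
      abel
    have h1 : c₀ * ‖U' t (U (-t) w) - w‖ ≤ ‖E (s - t)‖ + 20 * d * ‖v‖ + ‖E s‖ := by
      have hn := congrArg norm e
      rw [norm_smul, Complex.norm_real, Real.norm_of_nonneg hc0.le] at hn
      rw [hn]
      refine (norm_add₃_le).trans (add_le_add (add_le_add ?_ ?_) le_rfl)
      · rw [norm_neg, hU'.norm_apply]
      · refine (avD_equivariant hU hU' (ht.trans (by linarith)) w).trans ?_
        rw [hw, hU.norm_apply]
        exact mul_le_mul_of_nonneg_right (by linarith) (norm_nonneg v)
    have h2 := pow_le_pow_left₀ (by positivity) h1 2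
    nlinarith [sq_nonneg (‖E (s - t)‖ - 20 * d * ‖v‖), sq_nonneg (‖E (s - t)‖ - ‖E s‖),
      sq_nonneg (20 * d * ‖v‖ - ‖E s‖)]
  have hint : c₀ ^ 2 * ∫ s in (-d)..d, ‖U' t (U (-t) (U s v)) - U s v‖ ^ 2 ≤
      (96 * g ^ 2 + 3168 * d ^ 3) * ‖v‖ ^ 2 := by
    have hc1 : Continuous fun s => U' t (U (-t) (U s v)) - U s v :=
      (((U' t).continuous.comp (U (-t)).continuous).comp (hU.cont v)).sub (hU.cont v)
    have hc2 : Continuous fun s => ‖E (s - t)‖ ^ 2 :=
      ((hEc.comp (continuous_id.sub continuous_const)).norm.pow 2)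
    have b1 : ∫ s in (-d)..d, ‖E (s - t)‖ ^ 2 ≤ (16 * g ^ 2 + 128 * d ^ 3) * ‖v‖ ^ 2 := by
      rw [intervalIntegral.integral_comp_sub_right (fun u => ‖E u‖ ^ 2)]
      have := abs_le.1 ht
      exact (intervalIntegral.integral_mono_interval (by linarith) (by linarith) (by linarith)
        (Eventually.of_forall fun u => sq_nonneg _)
        ((hEc.norm.pow 2).intervalIntegrable _ _)).trans hEint
    have b2 : ∫ s in (-d)..d, ‖E s‖ ^ 2 ≤ (16 * g ^ 2 + 128 * d ^ 3) * ‖v‖ ^ 2 :=
      (intervalIntegral.integral_mono_interval (by linarith) (by linarith) (by linarith)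
        (Eventually.of_forall fun u => sq_nonneg _)
        ((hEc.norm.pow 2).intervalIntegrable _ _)).trans hEint
    rw [← intervalIntegral.integral_const_mul]
    refine (intervalIntegral.integral_mono_on
      (g := fun s => 3 * ‖E (s - t)‖ ^ 2 + 3 * ‖E s‖ ^ 2 + 1200 * d ^ 2 * ‖v‖ ^ 2) (by linarith)
      (((hc1.norm.pow 2).const_mul _).intervalIntegrable _ _)
      ((((hc2.const_mul 3).add ((hEc.norm.pow 2).const_mul 3)).add
        continuous_const).intervalIntegrable _ _) hpt).trans ?_
    have j1 : IntervalIntegrable (fun s => 3 * ‖E (s - t)‖ ^ 2) volume (-d) d :=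
      (hc2.const_mul 3).intervalIntegrable _ _
    have j2 : IntervalIntegrable (fun s => 3 * ‖E s‖ ^ 2) volume (-d) d :=
      ((hEc.norm.pow 2).const_mul 3).intervalIntegrable _ _
    have j3 : IntervalIntegrable (fun s => 3 * ‖E (s - t)‖ ^ 2 + 3 * ‖E s‖ ^ 2) volume (-d) d :=
      j1.add j2
    rw [intervalIntegral.integral_add j3 intervalIntegrable_const,
      intervalIntegral.integral_add j1 j2,
      intervalIntegral.integral_const_mul, intervalIntegral.integral_const_mul,
      intervalIntegral.integral_const, smul_eq_mul]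
    nlinarith
  calc ∫ s in (-d)..d, ‖U' t (U (-t) (U s v)) - U s v‖ ^ 2
      ≤ (96 * g ^ 2 + 3168 * d ^ 3) * ‖v‖ ^ 2 / c₀ ^ 2 := by
        rw [le_div_iff₀ (by positivity), mul_comm]; exact hint
    _ ≤ _ := by
        rw [div_le_iff₀ (by positivity)]
        field_simp
        nlinarith [mul_nonneg (sq_nonneg g) (sq_nonneg ‖v‖),
          mul_nonneg (pow_nonneg hd.le 3) (sq_nonneg ‖v‖)]

end Vale.Agent.P096.Three.Flow.Mean
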