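import Vale.Agent.P096.Three.Flow.Clip
import Vale.Agent.P096.Three.Flow.Mean
import Vale.Agent.P132.Tomita.Main
import Vale.Agent.P132.Integral

/-!
P096, type III, the flow part: the modular data of two close algebras with a common vector and
common groups are close, and so the modular groups are close in mean square on short windows.
-/

open scoped InnerProductSpace ComplexConjugate Real
open Filter Topology MeasureTheory
open Vale.Agent.P096.Full.Reduce
open Vale.Agent.P132.Tomita (CycSep Modular opR opT fT fU kS pK qK saVec contour wgt)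

namespace Vale.Agent.P096.Three.Flow

variable {H : Type} [NormedAddCommGroup H] [InnerProductSpace ℂ H] [CompleteSpace H]

/-- Two algebras with one cyclic separating unit vector, common groups with mirrors in both
commutants, a common centre, and near commutants. -/
structure Close (H : Type) [NormedAddCommGroup H] [InnerProductSpace ℂ H] [CompleteSpace H] where
  /-- The first algebra. -/
  M : VonNeumannAlgebra H
  /-- The second algebra. -/
  N : VonNeumannAlgebra H
  /-- The vector. -/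
  ξ : H
  cycM : CycSep M ξ
  cycN : CycSep N ξ
  /-- The groups. -/
  Γ : Groups H
  memM : ∀ g ∈ Γ.carrier, g ∈ M
  memN : ∀ g ∈ Γ.carrier, g ∈ N
  /-- The mirrors. -/
  r : (H →L[ℂ] H) → (H →L[ℂ] H)
  r_memM : ∀ g ∈ Γ.carrier, r g ∈ M.commutant
  r_memN : ∀ g ∈ Γ.carrier, r g ∈ N.commutant
  r_unitary : ∀ g ∈ Γ.carrier, r g ∈ unitary (H →L[ℂ] H)
  r_ξ : ∀ g ∈ Γ.carrier, r g ξ = star g ξ
  centre : ∀ z, (z ∈ M ∧ z ∈ M.commutant) ↔ (z ∈ N ∧ z ∈ N.commutant)
  centM : ∀ x ∈ M, ∃ z ∈ M, z ∈ M.commutant ∧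
    ∀ v, Tendsto (fun m => avg Γ m (fun g => g * x * star g) v) atTop (𝓝 (z v))
  centN : ∀ x ∈ N, ∃ z ∈ N, z ∈ N.commutant ∧
    ∀ v, Tendsto (fun m => avg Γ m (fun g => g * x * star g) v) atTop (𝓝 (z v))
  centM' : ∀ x ∈ M.commutant, ∃ z ∈ M, z ∈ M.commutant ∧
    ∀ v, Tendsto (fun m => avg Γ m (fun g => r g * x * star (r g)) v) atTop (𝓝 (z v))
  centN' : ∀ x ∈ N.commutant, ∃ z ∈ N, z ∈ N.commutant ∧
    ∀ v, Tendsto (fun m => avg Γ m (fun g => r g * x * star (r g)) v) atTop (𝓝 (z v))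
  /-- The defect. -/
  γ : ℝ
  γ_nonneg : 0 ≤ γ
  near : ∀ y ∈ N.commutant, ∃ d ∈ M.commutant, ‖y - d‖ ≤ γ * ‖y‖
  near' : ∀ y ∈ M.commutant, ∃ d ∈ N.commutant, ‖y - d‖ ≤ γ * ‖y‖

/-- Eigen contractions of both flows at a dense set of levels, asymptotically isometric. -/
def HasShifts (U U' : ℝ → (H →L[ℂ] H)) : Prop :=
  ∃ D : Set ℝ, Dense D ∧ ∀ q ∈ D, ∃ S : ℕ → (H →L[ℂ] H),
    (∀ j t, U t * S j = Complex.exp ((q * t : ℝ) * Complex.I) • (S j * U t)) ∧
    (∀ j t, U' t * S j = Complex.exp ((q * t : ℝ) * Complex.I) • (S j * U' t)) ∧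
    ∀ v, Tendsto (fun j => ‖S j v‖) atTop (𝓝 ‖v‖)

namespace Close

variable (P : Close H)

lemma sep' {c : H →L[ℂ] H} (hc : c ∈ P.M.commutant) (h : c P.ξ = 0) : c = 0 := by
  refine ContinuousLinearMap.ext fun v => congrFun (Continuous.ext_on P.cycM.cyclic c.continuous
    (0 : H →L[ℂ] H).continuous ?_) v
  rintro _ ⟨x, hx, rfl⟩
  rw [← mul_apply_eq_comp, ← VonNeumannAlgebra.mem_commutant_iff.1 hc x hx, mul_apply_eq_comp, h,
    map_zero, zero_apply]

lemma r_mul {g h : H →L[ℂ] H} (hg : g ∈ P.Γ.carrier) (hh : h ∈ P.Γ.carrier) :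
    P.r (g * h) = P.r g * P.r h := by
  refine sub_eq_zero.1 (P.sep' (sub_mem (P.r_memM _ (Groups.mul_carrier hg hh))
    (mul_mem (P.r_memM _ hg) (P.r_memM _ hh))) ?_)
  have hc : P.r g * star h = star h * P.r g :=
    (VonNeumannAlgebra.mem_commutant_iff.1 (P.r_memM _ hg) _ (star_mem (P.memM _ hh))).symm
  rw [sub_apply, P.r_ξ _ (Groups.mul_carrier hg hh), mul_apply_eq_comp, P.r_ξ _ hh,
    ← mul_apply_eq_comp (P.r g), hc, mul_apply_eq_comp, P.r_ξ _ hg, star_mul, mul_apply_eq_comp,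
    sub_self]

lemma fix_b {g : H →L[ℂ] H} (hg : g ∈ P.Γ.carrier) : g P.ξ = star (P.r g) P.ξ := by
  have hu := Unitary.mem_iff.1 (P.r_unitary g hg)
  have hgu := Unitary.mem_iff.1 (Groups.unitary_carrier hg)
  have hc : g * P.r g = P.r g * g :=
    VonNeumannAlgebra.mem_commutant_iff.1 (P.r_memM _ hg) g (P.memM _ hg)
  have e : P.r g (g P.ξ) = P.ξ := by
    rw [← mul_apply_eq_comp, ← hc, mul_apply_eq_comp, P.r_ξ g hg, ← mul_apply_eq_comp, hgu.2,
      one_apply_eq_self]
  conv_rhs => rw [← e]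
  rw [← mul_apply_eq_comp, hu.1, one_apply_eq_self]

lemma sideM : Clip.Side P.Γ P.ξ P.M id P.r where
  mem := P.memM
  memb := P.r_memM
  unit_a _ hg := Groups.unitary_carrier hg
  unit_b := P.r_unitary
  mul_a _ _ _ _ := rfl
  fix := P.r_ξ
  cent := P.centM

lemma sideN : Clip.Side P.Γ P.ξ P.N id P.r where
  mem := P.memN
  memb := P.r_memN
  unit_a _ hg := Groups.unitary_carrier hg
  unit_b := P.r_unitary
  mul_a _ _ _ _ := rfl
  fix := P.r_ξ
  cent := P.centN

lemma memb' {A : VonNeumannAlgebra H} {g : H →L[ℂ] H} (hg : g ∈ A) : g ∈ A.commutant.commutant := by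
  rwa [VonNeumannAlgebra.commutant_commutant]

lemma sideM' : Clip.Side P.Γ P.ξ P.M.commutant P.r id where
  mem := P.r_memM
  memb g hg := memb' (P.memM g hg)
  unit_a := P.r_unitary
  unit_b _ hg := Groups.unitary_carrier hg
  mul_a _ hg _ hh := P.r_mul hg hh
  fix _ hg := P.fix_b hg
  cent x hx := by
    obtain ⟨z, h1, h2, h3⟩ := P.centM' x hx
    exact ⟨z, h2, memb' h1, h3⟩

lemma sideN' : Clip.Side P.Γ P.ξ P.N.commutant P.r id where
  mem := P.r_memN
  memb g hg := memb' (P.memN g hg)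
  unit_a := P.r_unitary
  unit_b _ hg := Groups.unitary_carrier hg
  mul_a _ hg _ hh := P.r_mul hg hh
  fix _ hg := P.fix_b hg
  cent x hx := by
    obtain ⟨z, h1, h2, h3⟩ := P.centN' x hx
    exact ⟨z, h2, memb' h1, h3⟩

omit P in
lemma saNear {A B : VonNeumannAlgebra H} {γ : ℝ}
    (hn : ∀ y ∈ B, ∃ d ∈ A, ‖y - d‖ ≤ γ * ‖y‖) :
    ∀ y ∈ B, IsSelfAdjoint y → ∃ d ∈ A, IsSelfAdjoint d ∧ ‖y - d‖ ≤ γ * ‖y‖ := by
  intro y hy hys
  obtain ⟨d, hd, hdn⟩ := hn y hy
  refine ⟨(1 / 2 : ℂ) • (d + star d),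
    SMulMemClass.smul_mem (s := A.toStarSubalgebra) _ (add_mem hd (star_mem hd)),
    by rw [IsSelfAdjoint, star_smul, star_add, star_star, add_comm (star d)]; simp, ?_⟩
  have e : y - (1 / 2 : ℂ) • (d + star d) = (1 / 2 : ℂ) • ((y - d) + star (y - d)) := by
    rw [star_sub, hys.star_eq]; module
  rw [e, norm_smul]
  calc ‖(1 / 2 : ℂ)‖ * ‖(y - d) + star (y - d)‖ ≤ 1 / 2 * (‖y - d‖ + ‖y - d‖) := by
        refine mul_le_mul (by norm_num) ((norm_add_le _ _).trans (by rw [norm_star]))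
          (norm_nonneg _) (by norm_num)
    _ ≤ γ * ‖y‖ := by linarith

/-- The size of the defect of the vectors. -/
noncomputable def err (T : ℝ) : ℝ := T ^ 2 * P.γ + 3 / T

lemma im_kS {A B : VonNeumannAlgebra H} {K : ℝ}
    (h : ∀ x ∈ A, ∀ y ∈ B, IsSelfAdjoint x → IsSelfAdjoint y →
      |(⟪x P.ξ, y P.ξ⟫_ℂ).im| ≤ K * (‖x P.ξ‖ * ‖y P.ξ‖)) :
    ∀ u ∈ kS A P.ξ, ∀ w ∈ kS B P.ξ, |(⟪u, w⟫_ℂ).im| ≤ K * (‖u‖ * ‖w‖) := by
  intro u hu w hw
  have hc : ∀ w, IsClosed {u : H | |(⟪u, w⟫_ℂ).im| ≤ K * (‖u‖ * ‖w‖)} := fun w =>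
    isClosed_le (continuous_abs.comp (Complex.continuous_im.comp
      (continuous_id.inner continuous_const)))
      (continuous_const.mul (continuous_norm.mul continuous_const))
  have hc' : ∀ u, IsClosed {w : H | |(⟪u, w⟫_ℂ).im| ≤ K * (‖u‖ * ‖w‖)} := fun u =>
    isClosed_le (continuous_abs.comp (Complex.continuous_im.comp
      (continuous_const.inner continuous_id)))
      (continuous_const.mul (continuous_const.mul continuous_norm))
  refine closure_minimal ?_ (hc' u) hw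
  rintro _ ⟨y, hy, hys, rfl⟩
  refine closure_minimal ?_ (hc (y P.ξ)) hu
  rintro _ ⟨x, hx, hxs, rfl⟩
  exact h x hx y hy hxs hys

omit P in
lemma norm_qK_le_im {A B : VonNeumannAlgebra H} {ξ : H} {K : ℝ} (hK : 0 ≤ K)
    (h : ∀ u ∈ kS A ξ, ∀ w ∈ kS B ξ, |(⟪u, w⟫_ℂ).im| ≤ K * (‖u‖ * ‖w‖)) (v : H) :
    ‖qK A ξ (pK B ξ v)‖ ≤ K * ‖v‖ := by
  set w := pK B ξ v with hw
  set u := pK A ξ ((-Complex.I) • w) with hu
  have h1 := Vale.Agent.P132.Tomita.re_inner_qK_self A ξ w
  have e : qK A ξ w = Complex.I • u := rfl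
  rw [e, inner_smul_left, norm_smul, Complex.norm_I, one_mul] at h1
  have h2 := h u (Vale.Agent.P132.Tomita.pK_mem A ξ _) w (Vale.Agent.P132.Tomita.pK_mem B ξ v)
  simp only [Complex.mul_re, Complex.conj_I, Complex.neg_re, Complex.I_re, Complex.neg_im,
    Complex.I_im] at h1
  have h3 : ‖u‖ ^ 2 ≤ K * (‖u‖ * ‖v‖) :=
    (le_abs_self _).trans' (by linarith [le_abs_self ((⟪u, w⟫_ℂ).im)]) |>.trans
      (h2.trans (mul_le_mul_of_nonneg_left (mul_le_mul_of_nonneg_left
        (Vale.Agent.P132.Tomita.norm_pK_le B ξ v) (norm_nonneg _)) hK))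
  rw [e, norm_smul, Complex.norm_I, one_mul]
  rcases eq_or_lt_of_le (norm_nonneg u) with h0 | h0
  · rw [← h0]; positivity
  · nlinarith

/-- The operators `R` of the two algebras are close. -/
theorem norm_opR_sub {T : ℝ} (hT : 0 < T) :
    ‖opR P.M P.ξ - opR P.N P.ξ‖ ≤ 4 * P.err T := by
  open Vale.Agent.P132.Tomita in
  have hK : 0 ≤ P.err T := by
    have := P.γ_nonneg
    rw [Close.err]; positivity
  have hZ : ∀ {A B : VonNeumannAlgebra H}, (∀ z, (z ∈ A ∧ z ∈ A.commutant) ↔ (z ∈ B ∧ z ∈ B.commutant)) →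
      ∀ z, (z ∈ A ∧ z ∈ A.commutant) ↔ (z ∈ B.commutant ∧ z ∈ B.commutant.commutant) :=
    fun h z => by rw [h z, VonNeumannAlgebra.commutant_commutant, and_comm]
  have iMN := P.im_kS (A := P.M) (B := P.N.commutant) (K := P.err T) fun x hx y hy hxs hys =>
    Clip.im_le P.sideM P.sideN' P.γ_nonneg (saNear P.near) (hZ P.centre) hx hxs hy hys hT
  have iNM := P.im_kS (A := P.N) (B := P.M.commutant) (K := P.err T) fun x hx y hy hxs hys =>
    Clip.im_le P.sideN P.sideM' P.γ_nonneg (saNear P.near') (hZ fun z => (P.centre z).symm)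
      hx hxs hy hys hT
  have a1 : ∀ v, ‖qK P.M P.ξ v - qK P.M P.ξ (qK P.N P.ξ v)‖ ≤ P.err T * ‖v‖ := fun v => by
    rw [← qK_sub, ← P.cycN.pK_commutant]
    exact norm_qK_le_im hK iMN v
  have a2 : ∀ v, ‖qK P.N P.ξ v - qK P.N P.ξ (qK P.M P.ξ v)‖ ≤ P.err T * ‖v‖ := fun v => by
    rw [← qK_sub, ← P.cycM.pK_commutant]
    exact norm_qK_le_im hK iNM v
  have a3 : ∀ v, ‖qK P.N P.ξ v - qK P.M P.ξ (qK P.N P.ξ v)‖ ≤ P.err T * ‖v‖ := by
    intro v
    set w := qK P.N P.ξ v - qK P.M P.ξ (qK P.N P.ξ v) with hw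
    have h0 : qK P.M P.ξ w = 0 := by rw [hw, qK_sub, qK_idem, sub_self]
    have h1 : ‖w‖ ^ 2 = (⟪w, qK P.N P.ξ v⟫_ℂ).re := by
      have e : (⟪w, qK P.M P.ξ (qK P.N P.ξ v)⟫_ℂ).re = 0 := by
        rw [← qK_symm, h0, inner_zero_left, Complex.zero_re]
      rw [← @inner_self_eq_norm_sq ℂ]
      nth_rewrite 2 [hw]
      rw [inner_sub_right, RCLike.re_eq_complex_re, Complex.sub_re, e, sub_zero]
    have h2 := a2 w
    rw [h0, show qK P.N P.ξ 0 = 0 by simpa using qK_smul P.N P.ξ 0 (0 : H), sub_zero] at h2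
    rw [← qK_symm] at h1
    have h3 : ‖w‖ ^ 2 ≤ P.err T * ‖w‖ * ‖v‖ := by
      rw [h1]
      exact ((Complex.re_le_norm _).trans (norm_inner_le_norm _ _)).trans
        (mul_le_mul_of_nonneg_right h2 (norm_nonneg v))
    rcases eq_or_lt_of_le (norm_nonneg w) with h | h
    · rw [← h]; positivity
    · nlinarith
  have hq : ∀ v, ‖qK P.M P.ξ v - qK P.N P.ξ v‖ ≤ 2 * P.err T * ‖v‖ := fun v => by
    have := norm_sub_le_norm_sub_add_norm_sub (qK P.M P.ξ v) (qK P.M P.ξ (qK P.N P.ξ v))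
      (qK P.N P.ξ v)
    rw [norm_sub_rev (qK P.M P.ξ (qK P.N P.ξ v))] at this
    linarith [a1 v, a3 v]
  refine ContinuousLinearMap.opNorm_le_bound _ (by positivity) fun v => ?_
  have hp : ‖pK P.M P.ξ v - pK P.N P.ξ v‖ ≤ 2 * P.err T * ‖v‖ := by
    have := hq (Complex.I • v)
    rwa [qK_I_smul, qK_I_smul, ← smul_sub, norm_smul, norm_smul, Complex.norm_I, one_mul,
      one_mul] at this
  rw [sub_apply, opR_apply, opR_apply,
    show pK P.M P.ξ v + qK P.M P.ξ v - (pK P.N P.ξ v + qK P.N P.ξ v) =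
      (pK P.M P.ξ v - pK P.N P.ξ v) + (qK P.M P.ξ v - qK P.N P.ξ v) by abel]
  refine (norm_add_le _ _).trans ?_
  linarith [hq v, hp]

end Close

/-- Positive operators with close squares are close. -/
lemma norm_sub_le_sqrt {A B : H →L[ℂ] H} (hA : 0 ≤ A) (hB : 0 ≤ B) {η : ℝ}
    (h : ‖A * A - B * B‖ ≤ η) : ‖A - B‖ ≤ Real.sqrt η := by
  set c := Real.sqrt η with hc
  have hη : 0 ≤ η := (norm_nonneg _).trans h
  have one_side : ∀ {A B : H →L[ℂ] H}, 0 ≤ A → 0 ≤ B → ‖A * A - B * B‖ ≤ η →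
      A ≤ B + algebraMap ℝ (H →L[ℂ] H) c := by
    intro A B hA hB h
    have hc0 : 0 ≤ algebraMap ℝ (H →L[ℂ] H) c := algebraMap_nonneg _ (Real.sqrt_nonneg η)
    have hsa : IsSelfAdjoint (A * A - B * B) :=
      (IsSelfAdjoint.mul_self_nonneg hA.isSelfAdjoint).isSelfAdjoint.sub
        (IsSelfAdjoint.mul_self_nonneg hB.isSelfAdjoint).isSelfAdjoint
    have h1 : A * A ≤ B * B + algebraMap ℝ (H →L[ℂ] H) η := by
      rw [← sub_le_iff_le_add']
      exact hsa.le_algebraMap_norm_self.trans (algebraMap_mono _ h)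
    have h2 : B * B + algebraMap ℝ (H →L[ℂ] H) η ≤
        (B + algebraMap ℝ (H →L[ℂ] H) c) * (B + algebraMap ℝ (H →L[ℂ] H) c) := by
      have e : (B + algebraMap ℝ (H →L[ℂ] H) c) * (B + algebraMap ℝ (H →L[ℂ] H) c) =
          B * B + algebraMap ℝ (H →L[ℂ] H) η + (2 * c) • B := by
        simp only [Algebra.algebraMap_eq_smul_one, add_mul, mul_add, smul_mul_assoc, mul_smul_comm,
          one_mul, mul_one, smul_add, smul_smul]
        rw [hc, Real.mul_self_sqrt hη]
        module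
      rw [e]
      exact le_add_of_nonneg_right (smul_nonneg (by positivity) hB)
    have h3 := CFC.sqrt_le_sqrt _ _ (h1.trans h2)
    rwa [CFC.sqrt_mul_self A, CFC.sqrt_mul_self _ (add_nonneg hB hc0)] at h3
  have a := one_side hA hB h
  have b := one_side hB hA (by rwa [norm_sub_rev])
  have hsa : IsSelfAdjoint (A - B) := hA.isSelfAdjoint.sub hB.isSelfAdjoint
  rw [← cfc_id' ℝ (A - B) (ha := hsa)]
  refine norm_cfc_le (Real.sqrt_nonneg η) fun x hx => ?_
  rw [Real.norm_eq_abs, abs_le]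
  have u1 : A - B ≤ algebraMap ℝ (H →L[ℂ] H) c := sub_le_iff_le_add'.2 a
  have u2 : algebraMap ℝ (H →L[ℂ] H) (-c) ≤ A - B := by
    rw [map_neg, neg_le, neg_sub]; exact sub_le_iff_le_add'.2 b
  exact ⟨(algebraMap_le_iff_le_spectrum (ha := hsa)).1 u2 x hx,
    (le_algebraMap_iff_spectrum_le (ha := hsa)).1 u1 x hx⟩

/-- The Fourier integral of the kernel. -/
lemma integral_sk_fU (r : ℝ) : ∫ t, (Mean.sk t : ℂ) * fU t r = ((fT r * fT r : ℝ) : ℂ) := by
  by_cases hr : 0 < r ∧ r < 2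
  · obtain ⟨h0, h2⟩ := hr
    set l := VP132.lam r with hl
    have hF : Differentiable ℂ fun z : ℂ => Complex.exp ((l : ℂ) * z * Complex.I) :=
      Complex.differentiable_exp.comp ((differentiable_id.const_mul _).mul_const _)
    have hB : ∀ z : ℂ, |z.im| ≤ 1 / 2 →
        ‖Complex.exp ((l : ℂ) * z * Complex.I)‖ ≤ Real.exp |l| := fun z hz => by
      rw [Complex.norm_exp, Real.exp_le_exp]
      simp only [Complex.mul_re, Complex.mul_im, Complex.ofReal_re, Complex.ofReal_im, Complex.I_re,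
        Complex.I_im, zero_mul, mul_zero, mul_one, zero_sub, sub_zero, add_zero]
      refine (neg_le_abs _).trans ?_
      rw [abs_mul]
      exact mul_le_of_le_one_right (abs_nonneg _) (by linarith)
    have key := contour hF hB (φ := 0) (by simp [Real.pi_pos])
    simp only [zero_div, Complex.ofReal_zero, zero_mul, Complex.exp_zero, map_one, one_mul,
      mul_zero] at key
    have e : ∀ t : ℝ, (wgt 0 t : ℂ) *
        (Complex.exp ((l : ℂ) * ((t : ℂ) + ((-1 / 2 : ℝ) : ℂ) * Complex.I) * Complex.I) +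
          Complex.exp ((l : ℂ) * ((t : ℂ) + ((1 / 2 : ℝ) : ℂ) * Complex.I) * Complex.I)) =
        ((Real.cosh (l / 2) : ℝ) : ℂ) *
          ((Mean.sk t : ℂ) * Complex.exp (((t * l : ℝ) : ℂ) * Complex.I)) := by
      intro t
      have eA : (l : ℂ) * ((t : ℂ) + ((-1 / 2 : ℝ) : ℂ) * Complex.I) * Complex.I =
          ((t * l : ℝ) : ℂ) * Complex.I + ((l / 2 : ℝ) : ℂ) := by
        push_cast
        linear_combination (-1 / 2 : ℂ) * (l : ℂ) * Complex.I_mul_I
      have eB : (l : ℂ) * ((t : ℂ) + ((1 / 2 : ℝ) : ℂ) * Complex.I) * Complex.I =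
          ((t * l : ℝ) : ℂ) * Complex.I + ((-(l / 2) : ℝ) : ℂ) := by
        push_cast
        linear_combination (1 / 2 : ℂ) * (l : ℂ) * Complex.I_mul_I
      rw [eA, eB, Complex.exp_add, Complex.exp_add, ← Complex.ofReal_exp, ← Complex.ofReal_exp]
      simp only [wgt, Mean.sk, Real.cosh_eq (l / 2), zero_mul, neg_zero, Real.exp_zero]
      push_cast
      ring
    rw [integral_congr_ae (Eventually.of_forall e), integral_const_mul] at key
    have hcf : fT r * Real.cosh (l / 2) = 1 := by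
      have hsq : (fT r * Real.cosh (l / 2)) ^ 2 = 1 := by
        have ee : Real.exp (l / 2) * Real.exp (l / 2) = (2 - r) / r := by
          rw [← Real.exp_add, add_halves, hl, VP132.lam, Real.exp_sub,
            Real.exp_log (by linarith), Real.exp_log h0]
        have hi : Real.exp (-(l / 2)) * Real.exp (-(l / 2)) = r / (2 - r) := by
          rw [Real.exp_neg, ← mul_inv, ee, inv_div]
        have h1 : Real.exp (l / 2) * Real.exp (-(l / 2)) = 1 := by
          rw [← Real.exp_add, add_neg_cancel, Real.exp_zero]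
        rw [mul_pow, fT, Real.sq_sqrt (by nlinarith), Real.cosh_eq, div_pow, add_sq, sq, sq, ee, hi,
          mul_assoc 2, h1]
        have : 2 - r ≠ 0 := by linarith
        field_simp
        ring
      have h3 : 0 ≤ fT r * Real.cosh (l / 2) :=
        mul_nonneg (Real.sqrt_nonneg _) (Real.cosh_pos _).le
      nlinarith
    have e2 : (fun t => (Mean.sk t : ℂ) * fU t r) = fun t =>
        (fT r : ℂ) * ((Mean.sk t : ℂ) * Complex.exp (((t * l : ℝ) : ℂ) * Complex.I)) := by
      funext t; rw [fU, hl, VP132.lam]; ring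
    rw [e2, integral_const_mul, Complex.ofReal_mul]
    congr 1
    have hc : ((Real.cosh (l / 2) : ℝ) : ℂ) ≠ 0 := Complex.ofReal_ne_zero.2 (Real.cosh_pos _).ne'
    refine mul_left_cancel₀ hc (key.trans ?_)
    rw [← Complex.ofReal_mul, mul_comm, hcf, Complex.ofReal_one]
  · simp [fU, VP132.fT_eq_zero hr]

variable {M : VonNeumannAlgebra H} {ξ : H} {R : H →L[ℂ] H} {J : H ≃ₗᵢ⋆[ℂ] H}
  {U : ℝ → H →L[ℂ] H}

lemma isFlow_of_modular (hm : Modular M ξ R J U) : Mean.IsFlow U :=
  ⟨hm.U_zero, hm.U_add, hm.U_star, hm.U_cont⟩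

/-- `T` is the mean of the modular group with the weight `1 / cosh (π t)`. -/
theorem integral_sk_U (hm : Modular M ξ R J U) (v : H) :
    ∫ t, (Mean.sk t : ℂ) • U t v = opT R v := by
  have hn : IsStarNormal R := hm.R_sa.isStarNormal
  have hfU : Continuous fun p : ℝ × ℂ => fU p.1 p.2.re :=
    VP132.continuous_fU.comp (continuous_fst.prodMk (Complex.continuous_re.comp continuous_snd))
  let f : ℝ → ℂ → ℂ := fun t z => (Mean.sk t : ℂ) * fU t z.re
  have hf : Continuous (Function.uncurry f) :=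
    ((Complex.continuous_ofReal.comp Mean.continuous_sk).comp continuous_fst).mul hfU
  have hb : ∀ t, ∀ z, ‖f t z‖ ≤ Mean.sk t := fun t z => by
    rw [norm_mul, Complex.norm_real, Real.norm_of_nonneg (Mean.sk_pos t).le]
    exact mul_le_of_le_one_right (Mean.sk_pos t).le (VP132.norm_fU_le t _)
  have hop : ∀ t, cfc (f t) R = (Mean.sk t : ℂ) • (U t * opT R) := fun t => by
    rw [hm.U_T, ← cfc_const_mul (Mean.sk t : ℂ) (fun z : ℂ => fU t z.re) R
      (hfU.comp (Continuous.prodMk_right t)).continuousOn]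
  have hint : cfc (fun z => ∫ t, f t z) R = opT R * opT R := by
    have e : (fun z : ℂ => ∫ t, f t z) = fun z => ((fT z.re * fT z.re : ℝ) : ℂ) :=
      funext fun z => integral_sk_fU z.re
    rw [e, ← cfc_real_eq_complex (fun r => fT r * fT r) hm.R_sa, opT,
      cfc_mul _ _ R VP132.continuous_fT'.continuousOn VP132.continuous_fT'.continuousOn]
  have hop' : ∫ t, (Mean.sk t : ℂ) • (U t * opT R) = opT R * opT R := by
    rw [← hint, cfc_integral f Mean.sk R hf.continuousOn
      (Eventually.of_forall fun t z _ => hb t z) Mean.integrable_sk.hasFiniteIntegral]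
    exact integral_congr_ae (Eventually.of_forall fun t => (hop t).symm)
  have hiop : Integrable fun t => (Mean.sk t : ℂ) • (U t * opT R) := by
    refine (integrable_cfc f Mean.sk R hf.continuousOn
      (Eventually.of_forall fun t z _ => hb t z) Mean.integrable_sk.hasFiniteIntegral).congr
      (Eventually.of_forall hop)
  have hU := isFlow_of_modular hm
  have hiv : ∀ w, Integrable fun t => (Mean.sk t : ℂ) • U t w := fun w =>
    (Mean.integrable_sk.mul_const ‖w‖).mono'
      ((Complex.continuous_ofReal.comp Mean.continuous_sk).smul (hU.cont w)).aestronglyMeasurable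
      (Eventually.of_forall fun t => by
        rw [norm_smul, Complex.norm_real, Real.norm_of_nonneg (Mean.sk_pos t).le, hU.norm_apply])
  have lhs_cont : Continuous fun v => ∫ t, (Mean.sk t : ℂ) • U t v := by
    refine LipschitzWith.continuous (K := 1) (LipschitzWith.of_dist_le_mul fun v w => ?_)
    rw [dist_eq_norm, dist_eq_norm, NNReal.coe_one, one_mul, ← integral_sub (hiv v) (hiv w)]
    refine (norm_integral_le_of_norm_le (Mean.integrable_sk.mul_const ‖v - w‖)
      (Eventually.of_forall fun t => ?_)).trans ?_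
    · rw [← smul_sub, ← map_sub, norm_smul, Complex.norm_real,
        Real.norm_of_nonneg (Mean.sk_pos t).le, hU.norm_apply]
    · rw [integral_mul_const, Mean.integral_sk, one_mul]
  refine congrFun (Continuous.ext_on hm.dense_T lhs_cont (opT R).continuous ?_) v
  rintro _ ⟨w, rfl⟩
  calc ∫ t, (Mean.sk t : ℂ) • U t (opT R w)
      = ∫ t, ((Mean.sk t : ℂ) • (U t * opT R)) w := rfl
    _ = (∫ t, (Mean.sk t : ℂ) • (U t * opT R)) w :=
        (ContinuousLinearMap.integral_apply hiop w).symm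
    _ = opT R (opT R w) := by rw [hop']; rfl

/-- Close operators `T` and shifts give closeness at every single frequency. -/
theorem freqLe_of_shifts {N : VonNeumannAlgebra H} {R' : H →L[ℂ] H} {J' : H ≃ₗᵢ⋆[ℂ] H}
    {U' : ℝ → H →L[ℂ] H} (hm : Modular M ξ R J U) (hm' : Modular N ξ R' J' U')
    (hs : HasShifts U U') {g : ℝ} (hg : ‖opT R' - opT R‖ ≤ g) : Mean.FreqLe U U' g := by
  obtain ⟨D, hD, hS⟩ := hs
  have hU := isFlow_of_modular hm
  have hU' := isFlow_of_modular hm'
  intro q v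
  have hcont : Continuous fun q : ℝ =>
      ‖∫ r, (Mean.sk r : ℂ) • Complex.exp ((q * r : ℝ) * Complex.I) • (U' r v - U r v)‖ := by
    refine (continuous_of_dominated (bound := fun r => Mean.sk r * (2 * ‖v‖))
      (F := fun (q : ℝ) (r : ℝ) =>
        (Mean.sk r : ℂ) • Complex.exp ((q * r : ℝ) * Complex.I) • (U' r v - U r v))
      (fun q => ((Complex.continuous_ofReal.comp Mean.continuous_sk).smul
        ((by fun_prop : Continuous fun r : ℝ => Complex.exp ((q * r : ℝ) * Complex.I)).smul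
          ((hU'.cont v).sub (hU.cont v)))).aestronglyMeasurable)
      (fun q => Eventually.of_forall fun r => ?_) (Mean.integrable_sk.mul_const _)
      (Eventually.of_forall fun r => ?_)).norm
    · rw [norm_smul, norm_smul, Complex.norm_real, Real.norm_of_nonneg (Mean.sk_pos r).le,
        Complex.norm_exp_ofReal_mul_I, one_mul]
      refine mul_le_mul_of_nonneg_left ((norm_sub_le _ _).trans ?_) (Mean.sk_pos r).le
      rw [hU'.norm_apply, hU.norm_apply, two_mul]
    · exact continuous_const.smul ((by fun_prop : Continuous fun q : ℝ =>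
        Complex.exp ((q * r : ℝ) * Complex.I)).smul continuous_const)
  refine closure_minimal (fun p hp => ?_) (isClosed_le hcont continuous_const) (hD q)
  obtain ⟨S, hSU, hSU', hSn⟩ := hS p hp
  set w := ∫ r, (Mean.sk r : ℂ) • Complex.exp ((p * r : ℝ) * Complex.I) • (U' r v - U r v) with hw
  have hle : ∀ j, ‖S j w‖ ≤ g * ‖S j v‖ := by
    intro j
    have e : S j w = opT R' (S j v) - opT R (S j v) := by
      have i1 : ∀ {V : ℝ → H →L[ℂ] H}, Mean.IsFlow V → ∀ x : H,
          Integrable fun r => (Mean.sk r : ℂ) • V r x := fun {V} hV x =>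
        (Mean.integrable_sk.mul_const ‖x‖).mono'
          ((Complex.continuous_ofReal.comp Mean.continuous_sk).smul (hV.cont x)).aestronglyMeasurable
          (Eventually.of_forall fun t => by
            rw [norm_smul, Complex.norm_real, Real.norm_of_nonneg (Mean.sk_pos t).le,
              hV.norm_apply])
      have i0 : Integrable fun r =>
          (Mean.sk r : ℂ) • Complex.exp ((p * r : ℝ) * Complex.I) • (U' r v - U r v) := by
        refine (Mean.integrable_sk.mul_const (2 * ‖v‖)).mono'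
          ((Complex.continuous_ofReal.comp Mean.continuous_sk).smul
            ((by fun_prop : Continuous fun r : ℝ => Complex.exp ((p * r : ℝ) * Complex.I)).smul
              ((hU'.cont v).sub (hU.cont v)))).aestronglyMeasurable
          (Eventually.of_forall fun r => ?_)
        rw [norm_smul, norm_smul, Complex.norm_real, Real.norm_of_nonneg (Mean.sk_pos r).le,
          Complex.norm_exp_ofReal_mul_I, one_mul]
        refine mul_le_mul_of_nonneg_left ((norm_sub_le _ _).trans ?_) (Mean.sk_pos r).le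
        rw [hU'.norm_apply, hU.norm_apply, two_mul]
      rw [hw, ← (S j).integral_comp_comm i0, ← integral_sk_U hm, ← integral_sk_U hm',
        ← integral_sub (i1 hU' _) (i1 hU _)]
      refine integral_congr_ae (Eventually.of_forall fun r => ?_)
      have e1 : ∀ {V : ℝ → H →L[ℂ] H},
          (∀ j t, V t * S j = Complex.exp ((p * t : ℝ) * Complex.I) • (S j * V t)) →
          Complex.exp ((p * r : ℝ) * Complex.I) • S j (V r v) = V r (S j v) := fun {V} h => by
        rw [← mul_apply_eq_comp (V r), h, smul_apply, mul_apply_eq_comp]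
      show S j _ = _
      simp only [map_smul, map_sub, smul_sub, e1 hSU, e1 hSU']
    rw [e, ← sub_apply]
    exact ContinuousLinearMap.le_of_opNorm_le _ hg _
  exact le_of_tendsto_of_tendsto' (hSn w) ((hSn v).const_mul g) hle

/-- MEAN: close pairs with shifts have modular groups close in mean square on a short window. -/
theorem meanLe_of_close : ∀ η : ℝ, 0 < η → ∃ γ₀ d : ℝ, 0 < γ₀ ∧ 0 < d ∧
    ∀ (H : Type) [NormedAddCommGroup H] [InnerProductSpace ℂ H] [CompleteSpace H] (P : Close H)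
      (J J' : H ≃ₗᵢ⋆[ℂ] H) (U U' : ℝ → H →L[ℂ] H),
      Modular P.M P.ξ (opR P.M P.ξ) J U → Modular P.N P.ξ (opR P.N P.ξ) J' U' →
      HasShifts U U' → P.γ ≤ γ₀ → ∀ t, |t| ≤ d → ∀ v,
        ∫ s in (-d)..d, ‖U' t (U (-t) (U s v)) - U s v‖ ^ 2 ≤ η * (2 * d) * ‖v‖ ^ 2 := by
  intro η hη
  obtain ⟨C, hC, hmean⟩ := Mean.mean_le
  obtain ⟨d, hd, hd2, hdC⟩ : ∃ d : ℝ, 0 < d ∧ d ≤ 1 / 2 ∧ C * d ^ 2 ≤ η / 2 := by
    refine ⟨min (1 / 2) (η / (2 * (C + 1))), lt_min (by norm_num) (by positivity),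
      min_le_left _ _, ?_⟩
    have h1 := min_le_left (1 / 2 : ℝ) (η / (2 * (C + 1)))
    have h2 := min_le_right (1 / 2 : ℝ) (η / (2 * (C + 1)))
    have h0 : 0 ≤ min (1 / 2 : ℝ) (η / (2 * (C + 1))) := le_min (by norm_num) (by positivity)
    set d := min (1 / 2 : ℝ) (η / (2 * (C + 1))) with hdef
    rw [le_div_iff₀ (by positivity)] at h2
    nlinarith [mul_le_mul_of_nonneg_left h1 h0]
  set g2 : ℝ := η * d / (2 * (C + 1)) with hg2
  have hg20 : 0 < g2 := by positivity
  set T : ℝ := 240 / g2 with hT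
  have hT0 : 0 < T := by positivity
  refine ⟨g2 / (80 * T ^ 2), d, by positivity, hd, ?_⟩
  intro H _ _ _ P J J' U U' hm hm' hs hγ t ht v
  have hR := P.norm_opR_sub hT0
  have herr : 4 * P.err T ≤ g2 / 10 := by
    have e1 : T ^ 2 * P.γ ≤ g2 / 80 := by
      have := mul_le_mul_of_nonneg_left hγ (sq_nonneg T)
      rwa [show T ^ 2 * (g2 / (80 * T ^ 2)) = g2 / 80 by field_simp] at this
    have e2 : 3 / T = g2 / 80 := by rw [hT]; field_simp; ring
    rw [Close.err]
    linarith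
  have hT2 : ‖opT (opR P.N P.ξ) * opT (opR P.N P.ξ) -
      opT (opR P.M P.ξ) * opT (opR P.M P.ξ)‖ ≤ g2 := by
    open Vale.Agent.P132.Tomita in
    have e := fun A : VonNeumannAlgebra H => tK_sq A P.ξ
    simp only [tK] at e
    rw [e, e]
    set a := opR P.N P.ξ
    set b := opR P.M P.ξ
    have hb : ∀ A : VonNeumannAlgebra H, ‖opR A P.ξ‖ ≤ 2 := fun A => by
      refine ContinuousLinearMap.opNorm_le_bound _ zero_le_two fun w => ?_
      rw [opR_apply]
      refine (norm_add_le _ _).trans ?_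
      linarith [norm_pK_le A P.ξ w, norm_qK_le A P.ξ w]
    have : a * (2 - a) - b * (2 - b) = (2 : ℂ) • (a - b) - (a * (a - b) + (a - b) * b) := by
      rw [two_smul]; noncomm_ring
    rw [this]
    refine (norm_sub_le _ _).trans ?_
    rw [norm_smul, Complex.norm_ofNat]
    have hab : ‖a - b‖ ≤ g2 / 10 := by rw [norm_sub_rev]; exact hR.trans herr
    have h1 : ‖a * (a - b) + (a - b) * b‖ ≤ 2 * (g2 / 10) + g2 / 10 * 2 := by
      refine (norm_add_le _ _).trans (add_le_add ((norm_mul_le _ _).trans ?_)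
        ((norm_mul_le _ _).trans ?_))
      · exact mul_le_mul (hb _) hab (norm_nonneg _) zero_le_two
      · exact mul_le_mul hab (hb _) (norm_nonneg _) (by positivity)
    linarith
  have hpos : ∀ A : VonNeumannAlgebra H, 0 ≤ opT (opR A P.ξ) := fun A =>
    cfc_nonneg fun r _ => Real.sqrt_nonneg _
  have hfreq := freqLe_of_shifts hm hm' hs (norm_sub_le_sqrt (hpos _) (hpos _) hT2)
  refine (hmean H U U' _ d (isFlow_of_modular hm) (isFlow_of_modular hm') (Real.sqrt_nonneg _)
    hfreq hd hd2 t ht v).trans ?_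
  rw [Real.sq_sqrt hg20.le]
  refine mul_le_mul_of_nonneg_right (mul_le_mul_of_nonneg_right ?_ (by positivity)) (sq_nonneg _)
  have : C * (g2 / d) ≤ η / 2 := by
    rw [hg2, div_div, ← mul_div_assoc, div_le_iff₀ (by positivity)]
    nlinarith [mul_pos hη hd]
  linarith

end Vale.Agent.P096.Three.Flow
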