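import Vale.Agent.P096.Three.Flow.Defs

/-!
P096, type III, flow: the vectors of the centre and the commutative algebra acting on them.
-/

open scoped InnerProductSpace ComplexConjugate
open Filter Topology
open Vale.Agent.P096.Full.Reduce

namespace Vale.Agent.P096.Three.Flow

variable {H : Type} [NormedAddCommGroup H] [InnerProductSpace ℂ H] [CompleteSpace H]

lemma unitary_norm {u : H →L[ℂ] H} (hu : u ∈ unitary (H →L[ℂ] H)) (v : H) : ‖u v‖ = ‖v‖ :=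
  Unitary.norm_map ⟨u, hu⟩ v

lemma unitary_inner {u : H →L[ℂ] H} (hu : u ∈ unitary (H →L[ℂ] H)) (v w : H) :
    ⟪u v, u w⟫_ℂ = ⟪v, w⟫_ℂ := by
  rw [← ContinuousLinearMap.adjoint_inner_right, ← mul_apply_eq_comp,
    ← ContinuousLinearMap.star_eq_adjoint, (Unitary.mem_iff.1 hu).1, one_apply_eq_self]

lemma inner_star (T : H →L[ℂ] H) (v w : H) : ⟪star T v, w⟫_ℂ = ⟪v, T w⟫_ℂ := by
  rw [ContinuousLinearMap.star_eq_adjoint, ContinuousLinearMap.adjoint_inner_left]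

lemma inner_star' (T : H →L[ℂ] H) (v w : H) : ⟪v, star T w⟫_ℂ = ⟪T v, w⟫_ℂ := by
  rw [ContinuousLinearMap.star_eq_adjoint, ContinuousLinearMap.adjoint_inner_right]

lemma star_apply_of_fix {u : H →L[ℂ] H} (hu : u ∈ unitary (H →L[ℂ] H)) {v : H} (h : u v = v) :
    star u v = v := by
  conv_lhs => rw [← h]
  rw [← mul_apply_eq_comp, (Unitary.mem_iff.1 hu).1, one_apply_eq_self]

/-- `V` and `star V` move every vector equally far. -/
lemma norm_star_sub {u : H →L[ℂ] H} (hu : u ∈ unitary (H →L[ℂ] H)) (v : H) :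
    ‖star u v - v‖ = ‖u v - v‖ := by
  rw [← unitary_norm hu (star u v - v), map_sub, ← mul_apply_eq_comp,
    (Unitary.mem_iff.1 hu).2, one_apply_eq_self, norm_sub_rev]

namespace Setting

variable (S : Setting H)

lemma sep {z : H →L[ℂ] H} (hz : z ∈ S.M.commutant) (h : z S.ξ = 0) : z = 0 := by
  ext w
  refine congrFun (DenseRange.equalizer (f := fun x : S.M => (x : H →L[ℂ] H) S.ξ) ?_ z.continuous
    (0 : H →L[ℂ] H).continuous (funext fun x => ?_)) w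
  · rw [DenseRange]
    convert S.dense_ξ using 1
    ext v; simp
  obtain ⟨x, hx⟩ := x
  simp only [Function.comp_apply]
  rw [← mul_apply_eq_comp z x, ← (VonNeumannAlgebra.mem_commutant_iff.1 hz x hx),
    mul_apply_eq_comp, h, map_zero, zero_apply]

lemma smul_memM {x : H →L[ℂ] H} (c : ℂ) (hx : x ∈ S.M) : c • x ∈ S.M :=
  SMulMemClass.smul_mem (s := S.M.toStarSubalgebra) c hx

lemma one_Z : (1 : H →L[ℂ] H) ∈ S.Z := ⟨one_mem _, one_mem _⟩

lemma add_Z {a b : H →L[ℂ] H} (ha : a ∈ S.Z) (hb : b ∈ S.Z) : a + b ∈ S.Z :=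
  ⟨add_mem ha.1 hb.1, add_mem ha.2 hb.2⟩

lemma smul_Z {a : H →L[ℂ] H} (c : ℂ) (ha : a ∈ S.Z) : c • a ∈ S.Z :=
  ⟨S.smul_memM c ha.1, SMulMemClass.smul_mem (s := S.M.commutant.toStarSubalgebra) c ha.2⟩

lemma sub_Z {a b : H →L[ℂ] H} (ha : a ∈ S.Z) (hb : b ∈ S.Z) : a - b ∈ S.Z :=
  ⟨sub_mem ha.1 hb.1, sub_mem ha.2 hb.2⟩

lemma mul_Z {a b : H →L[ℂ] H} (ha : a ∈ S.Z) (hb : b ∈ S.Z) : a * b ∈ S.Z :=
  ⟨mul_mem ha.1 hb.1, mul_mem ha.2 hb.2⟩

lemma star_Z {a : H →L[ℂ] H} (ha : a ∈ S.Z) : star a ∈ S.Z :=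
  ⟨star_mem ha.1, star_mem ha.2⟩

lemma comm_Z {a x : H →L[ℂ] H} (ha : a ∈ S.Z) (hx : x ∈ S.M) : a * x = x * a :=
  (VonNeumannAlgebra.mem_commutant_iff.1 ha.2 x hx).symm

/-- The images of `ξ` under the centre, as a subspace. -/
def Z₀ : Submodule ℂ H where
  carrier := (fun z : H →L[ℂ] H => z S.ξ) '' S.Z
  add_mem' := by
    rintro _ _ ⟨a, ha, rfl⟩ ⟨b, hb, rfl⟩
    exact ⟨a + b, S.add_Z ha hb, rfl⟩
  zero_mem' := ⟨0, ⟨zero_mem _, zero_mem _⟩, rfl⟩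
  smul_mem' := by
    rintro c _ ⟨a, ha, rfl⟩
    exact ⟨c • a, S.smul_Z c ha, rfl⟩

lemma K_eq : S.K = S.Z₀.topologicalClosure := by
  rw [K]
  congr 1
  exact le_antisymm (Submodule.span_le.2 fun v hv => hv) Submodule.subset_span

lemma K_approx {v : H} (hv : v ∈ S.K) :
    ∃ z : ℕ → (H →L[ℂ] H), (∀ n, z n ∈ S.Z) ∧ Tendsto (fun n => z n S.ξ) atTop (𝓝 v) := by
  rw [K_eq] at hv
  obtain ⟨w, hw, hlim⟩ := mem_closure_iff_seq_limit.1 hv
  choose z hz hzw using hw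
  exact ⟨z, hz, hlim.congr fun n => (hzw n).symm⟩

lemma ξ_mem : S.ξ ∈ S.K := by
  rw [K_eq]
  exact S.Z₀.le_topologicalClosure ⟨1, S.one_Z, rfl⟩

lemma Z_mem {z : H →L[ℂ] H} (hz : z ∈ S.Z) : z S.ξ ∈ S.K := by
  rw [K_eq]
  exact S.Z₀.le_topologicalClosure ⟨z, hz, rfl⟩

/-- An operator commuting with the centre is determined on `S.K` by its value at `ξ`. -/
lemma fix_K {T : H →L[ℂ] H} (hT : ∀ z ∈ S.Z, T * z = z * T) (hξ : T S.ξ = S.ξ) {v : H}
    (hv : v ∈ S.K) : T v = v := by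
  obtain ⟨z, hz, hlim⟩ := S.K_approx hv
  refine tendsto_nhds_unique (((T.continuous.tendsto _).comp hlim).congr fun n => ?_) hlim
  rw [Function.comp_apply, ← mul_apply_eq_comp, hT _ (hz n), mul_apply_eq_comp, hξ]

lemma Z_K {a : H →L[ℂ] H} (ha : a ∈ S.Z) {v : H} (hv : v ∈ S.K) : a v ∈ S.K := by
  obtain ⟨z, hz, hlim⟩ := S.K_approx hv
  refine (show IsClosed (S.K : Set H) by rw [K_eq]; exact S.Z₀.isClosed_topologicalClosure).mem_of_tendsto ((a.continuous.tendsto _).comp hlim) (Eventually.of_forall fun n => ?_)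
  rw [Function.comp_apply, ← mul_apply_eq_comp]; exact S.Z_mem (S.mul_Z ha (hz n))

lemma P_mem (v : H) : S.P v ∈ S.K := S.K.starProjection_apply_mem v

lemma P_of_mem {v : H} (hv : v ∈ S.K) : S.P v = v := S.K.starProjection_eq_self_iff.2 hv

lemma inner_P {v : H} (hv : v ∈ S.K) (w : H) : ⟪v, S.P w⟫_ℂ = ⟪v, w⟫_ℂ := by
  rw [P, ← S.K.inner_starProjection_left_eq_right, ← P, S.P_of_mem hv]

lemma norm_P_le (v : H) : ‖S.P v‖ ≤ ‖v‖ :=
  ((S.P).le_opNorm v).trans (mul_le_of_le_one_left (norm_nonneg _) S.K.starProjection_norm_le)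

lemma P_Z {a : H →L[ℂ] H} (ha : a ∈ S.Z) : S.P * a = a * S.P := by
  ext v
  rw [mul_apply_eq_comp, mul_apply_eq_comp]
  refine S.K.eq_starProjection_of_mem_of_inner_eq_zero (S.Z_K ha (S.P_mem v)) fun w hw => ?_
  rw [← map_sub, ← inner_star']
  exact S.K.starProjection_inner_eq_zero v _ (S.Z_K (S.star_Z ha) hw)

lemma U_K (t : ℝ) {v : H} (hv : v ∈ S.K) : S.U t v = v :=
  S.fix_K (fun z hz => S.U_z t z hz.1 hz.2) (S.U_ξ t) hv

lemma r_K {g : H →L[ℂ] H} (hg : g ∈ S.Γ.carrier) {v : H} (hv : v ∈ S.K) :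
    S.r g v = star g v := by
  obtain ⟨z, hz, hlim⟩ := S.K_approx hv
  refine tendsto_nhds_unique (((S.r g).continuous.tendsto _).comp hlim)
    ((((star g : H →L[ℂ] H).continuous.tendsto _).comp hlim).congr fun n => ?_)
  have h1 := VonNeumannAlgebra.mem_commutant_iff.1 (S.r_mem g hg) (z n) (hz n).1
  rw [Function.comp_apply, Function.comp_apply, ← mul_apply_eq_comp, ← mul_apply_eq_comp,
    ← S.comm_Z (hz n) (star_mem (S.memM g hg)), mul_apply_eq_comp, ← S.r_ξ g hg,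
    ← mul_apply_eq_comp, h1, mul_apply_eq_comp]

/-- The operators commuting with the projection on `S.K` and with the centre. -/
structure Cp (T : H →L[ℂ] H) : Prop where
  comm_P : S.P * T = T * S.P
  comm_Z : ∀ z ∈ S.Z, z * T = T * z

variable {S}

namespace Cp

variable {A B : H →L[ℂ] H}

lemma mem (hA : S.Cp A) {v : H} (hv : v ∈ S.K) : A v ∈ S.K := by
  have : S.P (A v) = A v := by
    rw [← mul_apply_eq_comp, hA.comm_P, mul_apply_eq_comp, S.P_of_mem hv]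
  exact this ▸ S.P_mem _

lemma one : S.Cp 1 := ⟨by rw [mul_one, one_mul], fun z _ => by rw [mul_one, one_mul]⟩

lemma add (hA : S.Cp A) (hB : S.Cp B) : S.Cp (A + B) :=
  ⟨by rw [mul_add, add_mul, hA.comm_P, hB.comm_P],
    fun z hz => by rw [mul_add, add_mul, hA.comm_Z z hz, hB.comm_Z z hz]⟩

lemma smul (hA : S.Cp A) (c : ℂ) : S.Cp (c • A) :=
  ⟨by rw [mul_smul_comm, smul_mul_assoc, hA.comm_P],
    fun z hz => by rw [mul_smul_comm, smul_mul_assoc, hA.comm_Z z hz]⟩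

lemma sub (hA : S.Cp A) (hB : S.Cp B) : S.Cp (A - B) :=
  ⟨by rw [mul_sub, sub_mul, hA.comm_P, hB.comm_P],
    fun z hz => by rw [mul_sub, sub_mul, hA.comm_Z z hz, hB.comm_Z z hz]⟩

lemma mul (hA : S.Cp A) (hB : S.Cp B) : S.Cp (A * B) :=
  ⟨by rw [← mul_assoc, hA.comm_P, mul_assoc, hB.comm_P, mul_assoc],
    fun z hz => by rw [← mul_assoc, hA.comm_Z z hz, mul_assoc, hB.comm_Z z hz, mul_assoc]⟩

lemma star' (hA : S.Cp A) : S.Cp (star A) := by
  have hP : star S.P = S.P := isStarProjection_starProjection.isSelfAdjoint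
  refine ⟨?_, fun z hz => ?_⟩
  · have := congrArg star hA.comm_P
    rw [star_mul, star_mul, hP] at this
    exact this.symm
  · have := congrArg star (hA.comm_Z (star z) (S.star_Z hz))
    rw [star_mul, star_mul, star_star] at this
    exact this.symm

lemma cfc_real (hA : S.Cp A) (f : ℝ → ℝ) : S.Cp (cfc f A) :=
  ⟨((show Commute A S.P from hA.comm_P.symm).cfc_real f).eq.symm,
    fun z hz => ((show Commute A z from (hA.comm_Z z hz).symm).cfc_real f).eq.symm⟩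

/-- The adjoint on the vectors of the centre. -/
lemma tendsto_star (hA : S.Cp A) {z : ℕ → (H →L[ℂ] H)} (hz : ∀ n, z n ∈ S.Z)
    (h : Tendsto (fun n => z n S.ξ) atTop (𝓝 (A S.ξ))) :
    Tendsto (fun n => star (z n) S.ξ) atTop (𝓝 (star A S.ξ)) := by
  have hnorm : ∀ a ∈ S.Z, ‖star a S.ξ‖ = ‖a S.ξ‖ := fun a ha => by
    have e : ⟪star a S.ξ, star a S.ξ⟫_ℂ = ⟪a S.ξ, a S.ξ⟫_ℂ := by
      rw [inner_star, ← mul_apply_eq_comp a, S.comm_Z ha (star_mem ha.1), mul_apply_eq_comp,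
        inner_star']
    rw [inner_self_eq_norm_sq_to_K, inner_self_eq_norm_sq_to_K] at e
    exact (sq_eq_sq₀ (norm_nonneg _) (norm_nonneg _)).1 (by exact_mod_cast e)
  have hc : CauchySeq fun n => star (z n) S.ξ := by
    refine Metric.cauchySeq_iff.2 fun ε hε => ?_
    obtain ⟨N, hN⟩ := Metric.cauchySeq_iff.1 h.cauchySeq ε hε
    refine ⟨N, fun m hm n hn => ?_⟩
    rw [dist_eq_norm, ← sub_apply, ← star_sub, hnorm _ (S.sub_Z (hz m) (hz n)), sub_apply,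
      ← dist_eq_norm]
    exact hN m hm n hn
  obtain ⟨η, hη⟩ := cauchySeq_tendsto_of_complete hc
  have hηK : η ∈ S.K := by
    refine (show IsClosed (S.K : Set H) by rw [K_eq]; exact S.Z₀.isClosed_topologicalClosure).mem_of_tendsto hη (Eventually.of_forall fun n => S.Z_mem (S.star_Z (hz n)))
  have hd : star A S.ξ - η ∈ S.K := sub_mem (hA.star'.mem S.ξ_mem) hηK
  obtain ⟨w, hw, hwlim⟩ := S.K_approx hd
  have e : ∀ n, ⟪w n S.ξ, star A S.ξ⟫_ℂ = ⟪w n S.ξ, η⟫_ℂ := fun n => by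
    have h1 : Tendsto (fun k => ⟪z k S.ξ, star (w n) S.ξ⟫_ℂ) atTop
        (𝓝 ⟪A S.ξ, star (w n) S.ξ⟫_ℂ) := h.inner tendsto_const_nhds
    have h2 : Tendsto (fun k => ⟪w n S.ξ, star (z k) S.ξ⟫_ℂ) atTop (𝓝 ⟪w n S.ξ, η⟫_ℂ) :=
      tendsto_const_nhds.inner hη
    have h3 : ∀ k, ⟪z k S.ξ, star (w n) S.ξ⟫_ℂ = ⟪w n S.ξ, star (z k) S.ξ⟫_ℂ := fun k => by
      rw [inner_star', inner_star', ← mul_apply_eq_comp, ← mul_apply_eq_comp,
        S.comm_Z (hw n) (hz k).1]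
    rw [tendsto_nhds_unique h2 (h1.congr h3), inner_star', ← mul_apply_eq_comp, inner_star',
      ← mul_apply_eq_comp, hA.comm_Z _ (hw n)]
  have h4 : Tendsto (fun n => ⟪w n S.ξ, star A S.ξ - η⟫_ℂ) atTop
      (𝓝 ⟪star A S.ξ - η, star A S.ξ - η⟫_ℂ) := hwlim.inner tendsto_const_nhds
  have h5 := tendsto_nhds_unique h4 (tendsto_const_nhds.congr fun n => by
    rw [inner_sub_right, e n, sub_self])
  rw [inner_self_eq_zero, sub_eq_zero] at h5
  rwa [h5]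

/-- On the vectors of the centre all these operators commute. -/
theorem comm_K (hA : S.Cp A) (hB : S.Cp B) {v : H} (hv : v ∈ S.K) : A (B v) = B (A v) := by
  obtain ⟨a, ha, halim⟩ := S.K_approx (hA.mem S.ξ_mem)
  obtain ⟨b, hb, hblim⟩ := S.K_approx (hB.mem S.ξ_mem)
  have hξ : A (B S.ξ) = B (A S.ξ) := by
    have h1 : Tendsto (fun n => A (b n S.ξ)) atTop (𝓝 (A (B S.ξ))) :=
      (A.continuous.tendsto _).comp hblim
    have hd : A (B S.ξ) - B (A S.ξ) ∈ S.K :=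
      sub_mem (hA.mem (hB.mem S.ξ_mem)) (hB.mem (hA.mem S.ξ_mem))
    obtain ⟨w, hw, hwlim⟩ := S.K_approx hd
    have e : ∀ k, ⟪w k S.ξ, A (B S.ξ)⟫_ℂ = ⟪w k S.ξ, B (A S.ξ)⟫_ℂ := fun k => by
      have p1 : Tendsto (fun n => ⟪w k S.ξ, A (b n S.ξ)⟫_ℂ) atTop (𝓝 ⟪w k S.ξ, A (B S.ξ)⟫_ℂ) :=
        tendsto_const_nhds.inner h1
      have p2 : Tendsto (fun n => ⟪star (b n) S.ξ, star (w k) (A S.ξ)⟫_ℂ) atTop
          (𝓝 ⟪star B S.ξ, star (w k) (A S.ξ)⟫_ℂ) :=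
        (hB.tendsto_star hb hblim).inner tendsto_const_nhds
      have p3 : ∀ n, ⟪w k S.ξ, A (b n S.ξ)⟫_ℂ = ⟪star (b n) S.ξ, star (w k) (A S.ξ)⟫_ℂ := fun n => by
        rw [← mul_apply_eq_comp A, ← hA.comm_Z _ (hb n), mul_apply_eq_comp, inner_star,
          ← inner_star' (w k), ← mul_apply_eq_comp (star (w k)), ← mul_apply_eq_comp (b n),
          S.comm_Z (S.star_Z (hw k)) (hb n).1]
      rw [tendsto_nhds_unique p1 (p2.congr fun n => (p3 n).symm), inner_star,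
        ← mul_apply_eq_comp B, ← hB.comm_Z _ (S.star_Z (hw k)), mul_apply_eq_comp, inner_star']
    have q : Tendsto (fun k => ⟪w k S.ξ, A (B S.ξ) - B (A S.ξ)⟫_ℂ) atTop
        (𝓝 ⟪A (B S.ξ) - B (A S.ξ), A (B S.ξ) - B (A S.ξ)⟫_ℂ) := hwlim.inner tendsto_const_nhds
    have := tendsto_nhds_unique q (tendsto_const_nhds.congr fun k => by
      rw [inner_sub_right, e k, sub_self])
    rwa [inner_self_eq_zero, sub_eq_zero] at this
  obtain ⟨z, hz, hlim⟩ := S.K_approx hv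
  refine tendsto_nhds_unique ((((A * B).continuous).tendsto _).comp hlim)
    (((((B * A).continuous).tendsto _).comp hlim).congr fun n => ?_)
  simp only [Function.comp_apply, ← mul_apply_eq_comp]
  rw [mul_assoc A, ← hB.comm_Z _ (hz n), ← mul_assoc, ← hA.comm_Z _ (hz n), mul_assoc B,
    ← hA.comm_Z _ (hz n), ← mul_assoc B, ← hB.comm_Z _ (hz n)]
  simp only [mul_apply_eq_comp, hξ]

end Cp

variable (S)

/-- The compression to `S.K`. -/
noncomputable def comp (c : H →L[ℂ] H) : H →L[ℂ] H := S.P * c * S.P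

lemma comp_cp {c : H →L[ℂ] H} (hc : ∀ z ∈ S.Z, z * c = c * z) : S.Cp (S.comp c) := by
  have hPP : S.P * S.P = S.P := S.K.isIdempotentElem_starProjection.eq
  refine ⟨?_, fun z hz => ?_⟩
  · simp only [comp, ← mul_assoc, hPP]
    rw [mul_assoc _ S.P S.P, hPP]
  · simp only [comp, ← mul_assoc]
    rw [← S.P_Z hz, mul_assoc S.P z c, hc z hz, ← mul_assoc, mul_assoc _ z, ← S.P_Z hz, ← mul_assoc]

lemma comp_apply (c : H →L[ℂ] H) {v : H} (hv : v ∈ S.K) : S.comp c v = S.P (c v) := by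
  rw [comp, mul_apply_eq_comp, mul_apply_eq_comp, S.P_of_mem hv]

end Setting

end Vale.Agent.P096.Three.Flow
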