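import Vale.Agent.P096.Three.Flow.Gap

/-!
P096, type III, flow: from the small bound on `S.K` for short times to the operator norm at all times.
The bound is additive along the cocycle and GAP restores it; slots turn it into a column bound, and
columns `g x g⋆ (a + δ) ^ (-1/2)` turn that into `‖(V - 1) x ξ‖ ≤ ε ‖x ξ‖`.
-/

open scoped InnerProductSpace
open Filter Topology
open Vale.Agent.P096.Full.Reduce

namespace Vale.Agent.P096.Three.Flow

variable {H : Type} [NormedAddCommGroup H] [InnerProductSpace ℂ H] [CompleteSpace H]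

omit [CompleteSpace H] in
/-- Polynomials are continuous for strong convergence of bounded sequences. -/
lemma tendsto_pow_apply {a : ℕ → H →L[ℂ] H} {z : H →L[ℂ] H} {B : ℝ} (hB : ∀ n, ‖a n‖ ≤ B)
    (h : ∀ v, Tendsto (fun n => a n v) atTop (𝓝 (z v))) (k : ℕ) (v : H) :
    Tendsto (fun n => (a n ^ k) v) atTop (𝓝 ((z ^ k) v)) := by
  induction k with
  | zero => simp
  | succ k ih =>
    have h1 : Tendsto (fun n => a n ((a n ^ k) v) - a n ((z ^ k) v)) atTop (𝓝 0) := by
      refine squeeze_zero_norm (fun n => ?_)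
        (a := fun n => B * ‖(a n ^ k) v - (z ^ k) v‖)
        (by simpa only [sub_self, norm_zero, mul_zero] using
          ((ih.sub_const ((z ^ k) v)).norm.const_mul B))
      rw [← map_sub]
      exact ((a n).le_opNorm _).trans (mul_le_mul_of_nonneg_right (hB n) (norm_nonneg _))
    have h2 := h1.add (h ((z ^ k) v))
    simp only [sub_add_cancel, zero_add] at h2
    simpa [pow_succ', mul_apply_eq_comp] using h2

/-- Continuous functions are continuous for strong convergence of bounded self-adjoint sequences. -/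
lemma tendsto_cfc_apply {a : ℕ → H →L[ℂ] H} {z : H →L[ℂ] H} (ha : ∀ n, IsSelfAdjoint (a n))
    (hz : IsSelfAdjoint z) {B : ℝ} (hB : ∀ n, ‖a n‖ ≤ B) (hzB : ‖z‖ ≤ B)
    (h : ∀ v, Tendsto (fun n => a n v) atTop (𝓝 (z v))) {f : ℝ → ℝ} (hf : Continuous f) (v : H) :
    Tendsto (fun n => cfc f (a n) v) atTop (𝓝 (cfc f z v)) := by
  rcases subsingleton_or_nontrivial H with hs | hs
  · simp [Subsingleton.elim _ (0 : H)]
  refine Metric.tendsto_atTop.2 fun ε hε => ?_
  obtain ⟨p, hp⟩ := exists_polynomial_near_of_continuousOn (-B) B f hf.continuousOn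
    (ε / (4 * (‖v‖ + 1))) (by positivity)
  have hd : ∀ T : H →L[ℂ] H, IsSelfAdjoint T → ‖T‖ ≤ B →
      ‖cfc f T v - (Polynomial.aeval T p) v‖ ≤ ε / 4 := fun T hT hTB => by
    rw [← cfc_polynomial p T, ← sub_apply, ← cfc_sub f _ T]
    have hn : ‖cfc (fun t => f t - p.eval t) T‖ ≤ ε / (4 * (‖v‖ + 1)) := by
      refine norm_cfc_le (by positivity) fun t ht => ?_
      have := (spectrum.norm_le_norm_of_mem ht).trans hTB
      rw [Real.norm_eq_abs, abs_le] at this
      rw [Real.norm_eq_abs, abs_sub_comm]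
      exact (hp t this).le
    refine ((ContinuousLinearMap.le_opNorm _ v).trans
      (mul_le_mul_of_nonneg_right hn (norm_nonneg v))).trans ?_
    rw [div_mul_eq_mul_div, div_le_div_iff₀ (by positivity) (by norm_num)]
    nlinarith [norm_nonneg v]
  have hpl : Tendsto (fun n => (Polynomial.aeval (a n) p) v) atTop
      (𝓝 ((Polynomial.aeval z p) v)) := by
    simp only [Polynomial.aeval_eq_sum_range, sum_apply, smul_apply]
    exact tendsto_finsetSum _ fun k _ => (tendsto_pow_apply hB h k v).const_smul _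
  obtain ⟨N, hN⟩ := Metric.tendsto_atTop.1 hpl (ε / 4) (by positivity)
  refine ⟨N, fun n hn => ?_⟩
  have h3 := hN n hn
  rw [dist_eq_norm] at h3 ⊢
  have h4 := hd z hz hzB
  calc ‖cfc f (a n) v - cfc f z v‖
      = ‖(cfc f (a n) v - (Polynomial.aeval (a n) p) v)
        + ((Polynomial.aeval (a n) p) v - (Polynomial.aeval z p) v)
        + ((Polynomial.aeval z p) v - cfc f z v)‖ := by congr 1; abel
    _ ≤ ε / 4 + ‖(Polynomial.aeval (a n) p) v - (Polynomial.aeval z p) v‖ + ε / 4 :=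
        norm_add₃_le.trans (add_le_add (add_le_add (hd _ (ha n) (hB n)) le_rfl)
          (by rw [norm_sub_rev]; exact h4))
    _ < ε := by linarith

namespace Setting

variable {S : Setting H} {γ : ℝ} {V : H →L[ℂ] H}

lemma cfc_mem_M {a : H →L[ℂ] H} (ha : a ∈ S.M) (f : ℝ → ℝ) : cfc f a ∈ S.M := by
  have : cfc f a ∈ Set.centralizer (Set.centralizer (S.M : Set (H →L[ℂ] H))) := fun c hc =>
    ((show Commute a c from hc a ha).cfc_real f).eq.symm
  rwa [S.M.centralizer_centralizer] at this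

lemma cfc_mem_Z {a : H →L[ℂ] H} (ha : a ∈ S.Z) (f : ℝ → ℝ) : cfc f a ∈ S.Z :=
  ⟨cfc_mem_M ha.1 f, VonNeumannAlgebra.mem_commutant_iff.2 fun x hx =>
    ((show Commute a x from S.comm_Z ha hx).cfc_real f).eq.symm⟩

/-- Slots may be taken to be contractions. -/
lemma slots_contract (h : S.Move γ V) (hs : S.HasSlots V) (n : ℕ) :
    ∃ (s : ℕ → Fin n → (H →L[ℂ] H)) (p : ℕ → (H →L[ℂ] H)),
      (∀ j i, s j i ∈ S.M) ∧ (∀ j i, V * s j i = s j i * V) ∧ (∀ j i, ‖s j i‖ ≤ 1) ∧
      (∀ j i, star (s j i) * s j i = p j) ∧ (∀ j i k, i ≠ k → star (s j i) * s j k = 0) ∧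
      ∀ v, Tendsto (fun j => p j v) atTop (𝓝 v) := by
  obtain ⟨s, p, hsM, hsV, hsp, hso, hp⟩ := hs n
  rcases Nat.eq_zero_or_pos n with hn | hn
  · subst hn
    exact ⟨s, p, hsM, hsV, fun _ i => i.elim0, hsp, hso, hp⟩
  obtain ⟨B, hB⟩ := banach_steinhaus (g := p) fun v => by
    obtain ⟨C, hC⟩ := (hp v).norm.bddAbove_range
    exact ⟨C, fun j => hC ⟨j, rfl⟩⟩
  have hp0 : ∀ j, 0 ≤ p j := fun j => hsp j ⟨0, hn⟩ ▸ star_mul_self_nonneg _
  set f : ℝ → ℝ := fun t => (Real.sqrt (max t 1))⁻¹ with hf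
  have hfc : Continuous f :=
    Continuous.inv₀ (by fun_prop) fun t => (Real.sqrt_pos.2 (lt_max_of_lt_right one_pos)).ne'
  set c : ℕ → H →L[ℂ] H := fun j => cfc f (p j) with hc
  have hcs : ∀ j, star (c j) = c j := fun j => (cfc_predicate f (p j) : IsSelfAdjoint _).star_eq
  have hV' : ∀ j i, V * star (s j i) = star (s j i) * V := fun j i => by
    have h1 := congrArg star (hsV j i)
    rw [star_mul, star_mul] at h1
    obtain ⟨u1, u2⟩ := Unitary.mem_iff.1 h.unit
    calc V * star (s j i) = V * (star (s j i) * star V) * V := by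
          rw [mul_assoc, mul_assoc, u1, mul_one]
      _ = star (s j i) * V := by rw [h1, ← mul_assoc, u2, one_mul]
  have hVp : ∀ j, Commute (p j) V := fun j => by
    rw [← hsp j ⟨0, hn⟩]
    exact (Commute.mul_left (hV' j _).symm (hsV j _).symm)
  have key : ∀ j i k, star (s j i * c j) * (s j k * c j) = c j * (star (s j i) * s j k) * c j :=
    fun j i k => by rw [star_mul, hcs]; simp only [mul_assoc]
  have hq : ∀ j, c j * p j * c j = cfc (fun t : ℝ => t / max t 1) (p j) := fun j => by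
    have hsa : IsSelfAdjoint (p j) := (hp0 j).isSelfAdjoint
    conv_lhs => arg 1; arg 2; rw [← cfc_id' ℝ (p j)]
    simp only [hc]
    rw [← cfc_mul f (fun t => t) (p j) hfc.continuousOn continuousOn_id,
      ← cfc_mul (fun t => f t * t) f (p j) (hfc.continuousOn.mul continuousOn_id) hfc.continuousOn]
    congr 1
    funext t
    simp only [hf]
    rw [mul_comm _ t, mul_assoc, ← mul_inv, Real.mul_self_sqrt (le_max_of_le_right zero_le_one),
      div_eq_mul_inv]
  refine ⟨fun j i => s j i * c j, fun j => c j * p j * c j,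
    fun j i => mul_mem (hsM j i) (cfc_mem_M (hsp j i ▸ mul_mem (star_mem (hsM j i)) (hsM j i)) f),
    fun j i => by rw [← mul_assoc, hsV, mul_assoc, mul_assoc, ((hVp j).cfc_real f).eq.symm],
    fun j i => ?_, fun j i => by rw [key, hsp],
    fun j i k hik => by rw [key, hso j i k hik, mul_zero, zero_mul], fun v => ?_⟩
  · refine (sq_le_one_iff₀ (norm_nonneg _)).1 ?_
    rw [sq, ← CStarRing.norm_star_mul_self, key, hsp, hq]
    refine norm_cfc_le zero_le_one fun t ht => ?_
    have ht0 : 0 ≤ t := spectrum_nonneg_of_nonneg (hp0 j) ht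
    rw [Real.norm_eq_abs, abs_of_nonneg (by positivity),
      div_le_one (lt_max_of_lt_right one_pos)]
    exact le_max_left _ _
  · simp only [hq]
    have hdc : Continuous fun t : ℝ => t / max t 1 :=
      continuous_id.div (by fun_prop) fun t => (lt_max_of_lt_right one_pos).ne'
    have h1 := tendsto_cfc_apply (fun j => (hp0 j).isSelfAdjoint) (IsSelfAdjoint.one _)
      (B := max B 1) (fun j => (hB j).trans (le_max_left _ _))
      (ContinuousLinearMap.norm_id_le.trans (le_max_right _ _))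
      (z := (1 : H →L[ℂ] H)) (fun v => by simpa using hp v) hdc v
    simpa [cfc_apply_one] using h1

/-- Slots turn a bound on contractions into a bound on columns. -/
lemma column_bound {ε : ℝ} (h : S.Move γ V) (hB : S.Bd V ε) (hs : S.HasSlots V) {ι : Type*} [Fintype ι]
    {y : ι → H →L[ℂ] H} (hy : ∀ i, y i ∈ S.M) (hn : ∀ u, ∑ i, ‖y i u‖ ^ 2 ≤ ‖u‖ ^ 2)
    {v : H} (hv : v ∈ S.K) : ∑ i, ‖V (y i v) - y i v‖ ^ 2 ≤ (ε * ‖v‖) ^ 2 := by
  obtain ⟨s, p, hsM, hsV, hpn, hsp, hso, hp⟩ := slots_contract h hs (Fintype.card ι)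
  set e := Fintype.equivFin ι
  have key : ∀ (j : ℕ) (w : ι → H),
      ‖∑ i, s j (e i) (w i)‖ ^ 2 = ∑ i, ‖s j (e i) (w i)‖ ^ 2 := fun j w => by
    have h1 : ∀ i k, k ≠ i → ⟪s j (e i) (w i), s j (e k) (w k)⟫_ℂ = 0 := fun i k hki => by
      rw [← inner_star' (s j (e i)), ← mul_apply_eq_comp,
        hso j _ _ (e.injective.ne hki.symm), zero_apply, inner_zero_right]
    simp only [← inner_self_eq_norm_sq (𝕜 := ℂ), sum_inner, inner_sum, map_sum]
    refine Finset.sum_congr rfl fun i _ => ?_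
    rw [Finset.sum_eq_single i (fun k _ hk => by
      rw [← inner_conj_symm, h1 i k hk]; simp) (fun h => absurd (Finset.mem_univ i) h)]
  have hyn : ∀ j, ‖∑ i, s j (e i) * y i‖ ≤ 1 := fun j => by
    refine ContinuousLinearMap.opNorm_le_bound _ zero_le_one fun u => ?_
    refine (sq_le_sq₀ (norm_nonneg _) (by positivity)).1 ?_
    simp only [sum_apply, mul_apply_eq_comp, one_mul, key j fun i => y i u]
    exact (Finset.sum_le_sum fun i _ => pow_le_pow_left₀ (norm_nonneg _)
      (((s j (e i)).le_opNorm _).trans (mul_le_of_le_one_left (norm_nonneg _) (hpn j (e i)))) 2).trans (hn u)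
  have hb : ∀ j, ∑ i, ‖s j (e i) (V (y i v) - y i v)‖ ^ 2 ≤ (ε * ‖v‖) ^ 2 := fun j => by
    have hM : (∑ i, s j (e i) * y i) ∈ S.M := sum_mem fun i _ => mul_mem (hsM j _) (hy i)
    have h1 := pow_le_pow_left₀ (norm_nonneg _) (hB _ hM (hyn j) v hv) 2
    rw [← key j fun i => V (y i v) - y i v]
    refine le_of_eq_of_le ?_ h1
    have hVs : ∀ i u, V (s j i u) = s j i (V u) := fun i u => by
      rw [← mul_apply_eq_comp, hsV, mul_apply_eq_comp]
    simp only [sum_apply, mul_apply_eq_comp, map_sum, hVs, map_sub, Finset.sum_sub_distrib]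
  have hlim : Tendsto (fun j => ∑ i, ‖s j (e i) (V (y i v) - y i v)‖ ^ 2) atTop
      (𝓝 (∑ i, ‖V (y i v) - y i v‖ ^ 2)) := by
    refine tendsto_finsetSum _ fun i _ => ?_
    have h1 : ∀ j, ‖s j (e i) (V (y i v) - y i v)‖ ^ 2
        = (⟪V (y i v) - y i v, p j (V (y i v) - y i v)⟫_ℂ).re := fun j => by
      rw [← hsp j (e i), re_inner_star_mul]
    simp only [h1]
    have h2 := ((Complex.continuous_re.comp (innerSL ℂ (V (y i v) - y i v)).continuous).tendsto _).comp
      (hp (V (y i v) - y i v))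
    refine (h2.congr fun j => rfl).trans (le_of_eq ?_)
    congr 1
    exact inner_self_eq_norm_sq (𝕜 := ℂ) _
  exact le_of_tendsto' hlim hb

/-- The key estimate at one vector `x ξ`. -/
lemma norm_apply_le {ε : ℝ} (hε : 0 ≤ ε) (h : S.Move γ V) (hB : S.Bd V ε) (hs : S.HasSlots V)
    {x : H →L[ℂ] H} (hx : x ∈ S.M) : ‖V (x S.ξ) - x S.ξ‖ ≤ ε * ‖x S.ξ‖ := by
  set b : H →L[ℂ] H := star x * x with hbdef
  have hbM : b ∈ S.M := mul_mem (star_mem hx) hx
  set a : ℕ → H →L[ℂ] H := fun m => avg S.Γ m (fun g => g * b * star g) with hadef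
  obtain ⟨z, hz1, hz2, hlim⟩ := S.central b hbM
  have hasa : ∀ m, IsSelfAdjoint (a m) := fun m => by
    simp only [hadef, avg, IsSelfAdjoint, star_smul, star_sum, star_mul, star_star, star_inv₀,
      star_natCast, hbdef, mul_assoc]
  have hb : ∀ m, ∀ g ∈ S.Γ.G m, ‖g * b * star g‖ ≤ ‖b‖ := fun m g hg => by
    have hgu := norm_le_one (S.Γ.mem_unitary m g hg)
    refine (norm_mul_le _ _).trans ?_
    rw [norm_star]
    exact (mul_le_of_le_one_right (norm_nonneg _) hgu).trans
      ((norm_mul_le _ _).trans (mul_le_of_le_one_left (norm_nonneg _) hgu))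
  have han : ∀ m, ‖a m‖ ≤ ‖b‖ := fun m => norm_avg_le (hb m)
  have hzn : ‖z‖ ≤ ‖b‖ := z.opNorm_le_bound (norm_nonneg _) fun u =>
    le_of_tendsto' (hlim u).norm fun m =>
      ((a m).le_opNorm u).trans (mul_le_mul_of_nonneg_right (han m) (norm_nonneg _))
  have hzpos : z.IsPositive := by
    refine (ContinuousLinearMap.isPositive_iff_complex z).2 fun u => ?_
    have hl : Tendsto (fun m => ⟪a m u, u⟫_ℂ) atTop (𝓝 ⟪z u, u⟫_ℂ) :=
      (hlim u).inner tendsto_const_nhds
    have hp : ∀ m, (⟪a m u, u⟫_ℂ).im = 0 ∧ 0 ≤ (⟪a m u, u⟫_ℂ).re := fun m => by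
      have hpos : 0 ≤ a m := by
        simp only [hadef, avg, ← Complex.ofReal_natCast, ← Complex.ofReal_inv, Complex.coe_smul]
        exact smul_nonneg (by positivity) (Finset.sum_nonneg fun g _ =>
          star_right_conjugate_nonneg (star_mul_self_nonneg x) g)
      have h2 := (ContinuousLinearMap.isPositive_iff_complex _).1
        ((ContinuousLinearMap.nonneg_iff_isPositive _).1 hpos) u
      refine ⟨?_, h2.2⟩
      have h3 := congrArg Complex.im h2.1
      simpa using h3.symm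
    have him : (⟪z u, u⟫_ℂ).im = 0 := tendsto_nhds_unique
      ((Complex.continuous_im.tendsto _).comp hl) (tendsto_const_nhds.congr fun m => (hp m).1.symm)
    refine ⟨Complex.ext rfl him.symm, ?_⟩
    exact ge_of_tendsto' ((Complex.continuous_re.tendsto _).comp hl) fun m => (hp m).2
  refine le_of_forall_pos_le_add fun η hη => ?_
  obtain ⟨δ, hδ, hδη⟩ : ∃ δ : ℝ, 0 < δ ∧ ε * Real.sqrt δ ≤ η := by
    refine ⟨(η / (ε + 1)) ^ 2, by positivity, ?_⟩
    rw [Real.sqrt_sq (by positivity), mul_div_assoc', div_le_iff₀ (by positivity)]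
    nlinarith
  set f : ℝ → ℝ := fun t => (Real.sqrt (max t 0 + δ))⁻¹ with hf
  set f' : ℝ → ℝ := fun t => Real.sqrt (max t 0 + δ) with hf'
  have hpos : ∀ t : ℝ, 0 < Real.sqrt (max t 0 + δ) := fun t =>
    Real.sqrt_pos.2 (by have := le_max_right t 0; linarith)
  have hfc : Continuous f := Continuous.inv₀ (by fun_prop) fun t => (hpos t).ne'
  have hf'c : Continuous f' := by fun_prop
  set c : ℕ → H →L[ℂ] H := fun m => cfc f (a m) with hcdef
  set v : H := cfc f' z S.ξ with hv
  have hvK : v ∈ S.K := S.Z_mem (cfc_mem_Z ⟨hz1, hz2⟩ f')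
  -- columns
  have step : ∀ m, ‖V (x (c m v)) - x (c m v)‖ ≤ ε * ‖v‖ := fun m => by
    have hne : (S.Γ.G m).Nonempty := ⟨1, S.Γ.one_mem m⟩
    have hk : (0 : ℝ) < (S.Γ.G m).card := by exact_mod_cast hne.card_pos
    set k : ℝ := (Real.sqrt (S.Γ.G m).card)⁻¹ with hkdef
    have haM : a m ∈ S.M := S.smul_memM _ (sum_mem fun g hg =>
      mul_mem (mul_mem (S.memM g ⟨m, hg⟩) hbM) (star_mem (S.memM g ⟨m, hg⟩)))
    have hcM : c m ∈ S.M := cfc_mem_M haM f
    have hcg : ∀ g ∈ S.Γ.G m, g * c m = c m * g := fun g hg => by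
      have hu := Unitary.mem_iff.1 (S.Γ.mem_unitary m g hg)
      have hga : g * a m * star g = a m := by
        simp only [hadef]
        conv_rhs => rw [← avg_shift hg]
        simp only [avg, mul_smul_comm, smul_mul_assoc, Finset.mul_sum, Finset.sum_mul, star_mul,
          mul_assoc]
      have hc : Commute (a m) g := by
        show a m * g = g * a m
        conv_lhs => rw [← hga]
        rw [mul_assoc, hu.1, mul_one]
      exact ((hc.cfc_real f).eq).symm
    let y : {g // g ∈ S.Γ.G m} → H →L[ℂ] H := fun g => (k : ℂ) • ((g : H →L[ℂ] H) * x * star (g : H →L[ℂ] H) * c m)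
    have hy : ∀ g, y g ∈ S.M := fun g => S.smul_memM _
      (mul_mem (mul_mem (mul_mem (S.memM _ ⟨m, g.2⟩) hx) (star_mem (S.memM _ ⟨m, g.2⟩))) hcM)
    have hk2 : k ^ 2 = ((S.Γ.G m).card : ℝ)⁻¹ := by
      rw [hkdef, inv_pow, Real.sq_sqrt hk.le]
    have hsum : ∀ u, ∑ g, ‖y g u‖ ^ 2 = (⟪c m u, a m (c m u)⟫_ℂ).re := fun u => by
      have e : ∀ g : {g // g ∈ S.Γ.G m}, ‖y g u‖ ^ 2
          = k ^ 2 * (⟪c m u, ((g : H →L[ℂ] H) * b * star (g : H →L[ℂ] H)) (c m u)⟫_ℂ).re := fun g => by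
        have hgu := S.Γ.mem_unitary m _ g.2
        simp only [y, smul_apply, norm_smul, Complex.norm_real, Real.norm_eq_abs, mul_pow, sq_abs,
          mul_apply_eq_comp, unitary_norm hgu, hbdef]
        rw [← re_inner_star_mul]
        simp only [mul_apply_eq_comp, ← inner_star' (star (g : H →L[ℂ] H)), star_star]
      rw [Finset.sum_congr rfl fun g _ => e g, ← Finset.mul_sum, hk2]
      simp only [hadef, avg, smul_apply, sum_apply, inner_smul_right, inner_sum]
      rw [← Complex.ofReal_natCast, ← Complex.ofReal_inv, Complex.re_ofReal_mul, Complex.re_sum]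
      congr 1
      exact Finset.sum_coe_sort (S.Γ.G m)
        fun g => (⟪c m u, (g * b * star g) (c m u)⟫_ℂ).re
    have hn : ∀ u, ∑ g, ‖y g u‖ ^ 2 ≤ ‖u‖ ^ 2 := fun u => by
      rw [hsum u]
      have hcs : star (c m) = c m := (cfc_predicate f (a m) : IsSelfAdjoint _).star_eq
      rw [← inner_star', hcs, ← mul_apply_eq_comp (a m), ← mul_apply_eq_comp]
      have hle : c m * (a m * c m) ≤ 1 := by
        have hcm := (hasa m)
        rw [show a m * c m = cfc (fun t => t * f t) (a m) by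
            rw [cfc_mul (fun t => t) f (a m) continuousOn_id hfc.continuousOn, cfc_id' ℝ (a m)],
          show c m = cfc f (a m) from rfl, ← cfc_mul f (fun t => t * f t) (a m) hfc.continuousOn
            (continuousOn_id.mul hfc.continuousOn)]
        refine cfc_le_one _ _ fun t _ => ?_
        simp only [hf]
        rw [← mul_assoc, mul_comm _ t, mul_assoc, ← mul_inv, Real.mul_self_sqrt
          (by have := le_max_right t 0; linarith), ← div_eq_mul_inv,
          div_le_one (by have := le_max_right t 0; linarith)]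
        linarith [le_max_left t 0]
      have h1 := ((ContinuousLinearMap.le_def _ _).1 hle).inner_nonneg_right u
      rw [sub_apply, one_apply_eq_self, inner_sub_right] at h1
      have h2 := (Complex.le_def.1 h1).1
      have h3 : (⟪u, u⟫_ℂ).re = ‖u‖ ^ 2 := inner_self_eq_norm_sq (𝕜 := ℂ) u
      simp only [Complex.zero_re, Complex.sub_re, h3] at h2
      linarith
    have hcol := column_bound h hB hs hy hn hvK
    have e : ∀ g : {g // g ∈ S.Γ.G m},
        ‖V (y g v) - y g v‖ ^ 2 = k ^ 2 * ‖V (x (c m v)) - x (c m v)‖ ^ 2 := fun g => by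
      have hgc : (g : H →L[ℂ] H) ∈ S.Γ.carrier := ⟨m, g.2⟩
      have hgu := S.Γ.mem_unitary m _ g.2
      have hr : ∀ T ∈ S.M, ∀ u, T (S.r g u) = S.r g (T u) := fun T hT u => by
        rw [← mul_apply_eq_comp, commute_of_mem hT (S.r_mem _ hgc), mul_apply_eq_comp]
      have hcs' : star (g : H →L[ℂ] H) * c m = c m * star (g : H →L[ℂ] H) :=
        (hcg _ (S.Γ.star_mem m _ g.2))
      have e1 : y g v = (k : ℂ) • (g : H →L[ℂ] H) (S.r g (x (c m v))) := by
        simp only [y, smul_apply]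
        rw [mul_assoc ((g : H →L[ℂ] H) * x), hcs', mul_apply_eq_comp, mul_apply_eq_comp,
          mul_apply_eq_comp, ← S.r_K hgc hvK, hr _ hcM, hr _ hx]
      have e2 : V ((g : H →L[ℂ] H) (S.r g (x (c m v))))
          = (g : H →L[ℂ] H) (S.r g (V (x (c m v)))) := by
        rw [← mul_apply_eq_comp V, h.comm_g _ hgc, mul_apply_eq_comp, ← mul_apply_eq_comp V,
          h.comm_r _ hgc, mul_apply_eq_comp]
      rw [e1, map_smul, e2, ← smul_sub, ← map_sub, ← map_sub, norm_smul, unitary_norm hgu,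
        unitary_norm (S.r_unitary _ hgc), Complex.norm_real, Real.norm_eq_abs, mul_pow, sq_abs]
    rw [Finset.sum_congr rfl fun g _ => e g, Finset.sum_const, Finset.card_univ,
      Fintype.card_coe, nsmul_eq_mul, ← mul_assoc, hk2, mul_inv_cancel₀ hk.ne', one_mul] at hcol
    exact (sq_le_sq₀ (norm_nonneg _) (mul_nonneg hε (norm_nonneg _))).1 hcol
  -- the limit
  have hcv : Tendsto (fun m => c m v) atTop (𝓝 S.ξ) := by
    have h1 := tendsto_cfc_apply hasa hzpos.isSelfAdjoint han hzn hlim hfc v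
    have e : cfc f z v = S.ξ := by
      rw [hv, ← mul_apply_eq_comp, ← cfc_mul f f' z hfc.continuousOn hf'c.continuousOn]
      rw [show (fun t => f t * f' t) = fun _ => (1 : ℝ) from funext fun t =>
        inv_mul_cancel₀ (hpos t).ne', cfc_const_one ℝ z hzpos.isSelfAdjoint, one_apply_eq_self]
    rwa [e] at h1
  have hlim2 : ‖V (x S.ξ) - x S.ξ‖ ≤ ε * ‖v‖ :=
    le_of_tendsto' (((((V.comp x) - x).continuous.tendsto _).comp hcv).norm) step
  have hvn : ‖v‖ ≤ ‖x S.ξ‖ + Real.sqrt δ := by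
    refine le_of_sq_le_sq ?_ (by positivity)
    have hds : star (cfc f' z) = cfc f' z := (cfc_predicate f' z : IsSelfAdjoint _).star_eq
    have hzs := (ContinuousLinearMap.nonneg_iff_isPositive _).2 hzpos
    have hzsa := hzpos.isSelfAdjoint
    have hd : cfc f' z * cfc f' z = z + algebraMap ℝ (H →L[ℂ] H) δ := by
      rw [← cfc_mul f' f' z hf'c.continuousOn hf'c.continuousOn, cfc_congr (g := fun t => t + δ)
        fun t ht => ?_, cfc_add_const δ (fun t => t) z, cfc_id' ℝ z]
      have ht0 : 0 ≤ t := spectrum_nonneg_of_nonneg hzs ht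
      simp only [hf', max_eq_left ht0]
      exact Real.mul_self_sqrt (by linarith)
    have hzξ : (⟪S.ξ, z S.ξ⟫_ℂ).re = ‖x S.ξ‖ ^ 2 := by
      have e : ∀ m, ⟪S.ξ, a m S.ξ⟫_ℂ = ⟪S.ξ, b S.ξ⟫_ℂ := fun m => by
        have e1 : ∀ g ∈ S.Γ.G m, ⟪S.ξ, (g * b * star g) S.ξ⟫_ℂ = ⟪S.ξ, b S.ξ⟫_ℂ := fun g hg => by
          have hgc : g ∈ S.Γ.carrier := ⟨m, hg⟩
          rw [mul_apply_eq_comp, mul_apply_eq_comp, ← inner_star g, ← S.r_ξ g hgc,
            ← mul_apply_eq_comp b, commute_of_mem hbM (S.r_mem g hgc), mul_apply_eq_comp,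
            unitary_inner (S.r_unitary g hgc)]
        simp only [hadef, avg, smul_apply, sum_apply, inner_smul_right, inner_sum]
        rw [Finset.sum_congr rfl e1, Finset.sum_const, nsmul_eq_mul, ← mul_assoc,
          inv_mul_cancel₀ (card_ne m), one_mul]
      have h5 := tendsto_nhds_unique (tendsto_const_nhds.inner (hlim S.ξ))
        (tendsto_const_nhds.congr fun m => (e m).symm)
      rw [h5, re_inner_star_mul]
    calc ‖v‖ ^ 2 = (⟪S.ξ, (cfc f' z * cfc f' z) S.ξ⟫_ℂ).re := by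
          rw [hv, ← re_inner_star_mul, hds]
      _ = ‖x S.ξ‖ ^ 2 + δ := by
          rw [hd, add_apply, inner_add_right, Complex.add_re, hzξ]
          congr 1
          simp [Algebra.algebraMap_eq_smul_one, inner_smul_right_eq_smul,
            inner_self_eq_norm_sq_to_K, S.norm_ξ]
      _ ≤ (‖x S.ξ‖ + Real.sqrt δ) ^ 2 := by
          nlinarith [Real.sq_sqrt hδ.le, norm_nonneg (x S.ξ), Real.sqrt_nonneg δ]
  nlinarith [mul_le_mul_of_nonneg_left hvn hε]

/-- A bound on `S.K` is a bound in operator norm. -/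
theorem norm_le_of_bd {ε : ℝ} (hε : 0 ≤ ε) (h : S.Move γ V) (hB : S.Bd V ε) (hs : S.HasSlots V) :
    ‖V - 1‖ ≤ ε := by
  refine ContinuousLinearMap.opNorm_le_bound _ hε fun w => ?_
  refine S.dense_ξ.induction (P := fun w => ‖(V - 1) w‖ ≤ ε * ‖w‖) ?_
    (isClosed_le (by fun_prop) (by fun_prop)) w
  rintro _ ⟨x, hx, rfl⟩
  simpa using norm_apply_le hε h hB hs hx

end Setting

/-- The bound on `S.K` adds up along the cocycle. -/
lemma Family.bd_add (F : Family H) {s t a b : ℝ} (hs : F.S.Bd (F.D s) a) (ht : F.S.Bd (F.D t) b) :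
    F.S.Bd (F.D (s + t)) (a + b) := by
  intro x hx hx1 v hv
  set y : H →L[ℂ] H := F.S.U (-s) * x * F.S.U s with hy
  have hyM : y ∈ F.S.M := by simpa [hy] using F.S.U_mem (-s) x hx
  have hU : ∀ r, F.S.U r ∈ unitary (H →L[ℂ] H) := fun r => Unitary.mem_iff.2
    ⟨by rw [F.S.U_star, ← F.S.U_add, neg_add_cancel, F.S.U_zero],
      by rw [F.S.U_star, ← F.S.U_add, add_neg_cancel, F.S.U_zero]⟩
  have hy1 : ‖y‖ ≤ 1 := by
    refine (norm_mul_le _ _).trans (mul_le_one₀ ((norm_mul_le _ _).trans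
      (mul_le_one₀ (norm_le_one (hU _)) (norm_nonneg _) hx1)) (norm_nonneg _)
      (norm_le_one (hU _)))
  have hyv : y v = F.S.U (-s) (x v) := by
    rw [hy, mul_apply_eq_comp, mul_apply_eq_comp, F.S.U_K s hv]
  have hxv : x v = F.S.U s (y v) := by
    rw [hyv, ← mul_apply_eq_comp, ← F.S.U_add, add_neg_cancel, F.S.U_zero, one_apply_eq_self]
  have e : F.D (s + t) (x v) - x v
      = F.D s (F.S.U s (F.D t (y v) - y v)) + (F.D s (x v) - x v) := by
    rw [F.cocycle, mul_apply_eq_comp, mul_apply_eq_comp, mul_apply_eq_comp, ← hyv, map_sub,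
      map_sub, ← hxv]
    abel
  rw [e, add_mul, add_comm (a * ‖v‖)]
  refine (norm_add_le _ _).trans (add_le_add ?_ (hs x hx hx1 v hv))
  rw [unitary_norm (F.move s).unit, unitary_norm (hU s)]
  exact ht y hyM hy1 v hv

/-- GROW and GAP give FLOW. -/
theorem flowSpec_of (hgrow : GrowSpec) (hgap : GapSpec) : FlowSpec := by
  obtain ⟨C₁, η, γ₁, hC₁, hη, hγ₁, h₁⟩ := hgrow
  obtain ⟨C₂, ε₀, γ₂, hC₂, hε₀, hγ₂, h₂⟩ := hgap
  refine ⟨C₂, η, min (min γ₁ γ₂) (min ((ε₀ / (C₁ + 1)) ^ 2) (ε₀ / (2 * C₂ + 1))), hC₂, hη,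
    by positivity, ?_⟩
  intro H _ _ _ F d hd hγ hM t
  have hγ12 := hγ.trans (min_le_left _ _)
  have hsmall : 2 * C₂ * F.γ ≤ ε₀ := by
    have h3 := hγ.trans ((min_le_right _ _).trans (min_le_right _ _))
    rw [le_div_iff₀ (by positivity)] at h3
    nlinarith [F.γ_nonneg]
  have hsmall₁ : C₁ * Real.sqrt F.γ ≤ ε₀ := by
    have h3 : Real.sqrt F.γ ≤ ε₀ / (C₁ + 1) :=
      (Real.sqrt_le_left (by positivity)).2 (hγ.trans ((min_le_right _ _).trans (min_le_left _ _)))
    rw [le_div_iff₀ (by positivity)] at h3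
    nlinarith [Real.sqrt_nonneg F.γ]
  have main : ∀ n : ℕ, ∀ t, |t| ≤ (n + 1) * d → F.S.Bd (F.D t) (C₂ * F.γ) := by
    intro n
    induction n with
    | zero =>
      intro t ht x hx hx1 v hv
      refine h₂ H F.S F.γ (F.D t) F.γ_nonneg (hγ12.trans (min_le_right _ _)) (F.move t) ?_ x hx hx1 v hv
      exact fun x hx hx1 v hv => (h₁ H F d hd (hγ12.trans (min_le_left _ _)) hM t (by simpa using ht)
        x hx hx1 v hv).trans (mul_le_mul_of_nonneg_right hsmall₁ (norm_nonneg _))
    | succ n ih =>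
      intro t ht x hx hx1 v hv
      obtain ⟨s, hs, hts⟩ : ∃ s, |s| ≤ d ∧ |t - s| ≤ (n + 1) * d := by
        have hn : d ≤ (n + 1 : ℝ) * d := le_mul_of_one_le_left hd.le (by simp)
        push_cast at ht
        rcases le_or_gt |t| d with h | h
        · exact ⟨t, h, by simp; positivity⟩
        rcases le_or_gt 0 t with h0 | h0
        · rw [abs_of_nonneg h0] at ht h
          exact ⟨d, by rw [abs_of_pos hd], by rw [abs_of_nonneg (by linarith)]; linarith⟩
        · rw [abs_of_neg h0] at ht h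
          exact ⟨-d, by rw [abs_neg, abs_of_pos hd],
            by rw [abs_of_nonpos (by linarith)]; linarith⟩
      have hb := F.bd_add (ih s (hs.trans (le_mul_of_one_le_left hd.le (by simp)))) (ih (t - s) hts)
      rw [add_sub_cancel] at hb
      have hb' : F.S.Bd (F.D t) ε₀ := fun x hx hx1 v hv =>
        (hb x hx hx1 v hv).trans (mul_le_mul_of_nonneg_right (by linarith) (norm_nonneg _))
      exact h₂ H F.S F.γ (F.D t) F.γ_nonneg (hγ12.trans (min_le_right _ _)) (F.move t) hb'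
        x hx hx1 v hv
  obtain ⟨n, hn⟩ := exists_nat_ge (|t| / d)
  rw [div_le_iff₀ hd] at hn
  have := F.γ_nonneg
  exact Setting.norm_le_of_bd (by positivity) (F.move t) (main n t (by linarith)) (F.slots t)

end Vale.Agent.P096.Three.Flow
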