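import Vale.Agent.P096.Three.Flow.Grow
import Vale.Agent.P096.Three.Flow.Norm
import Vale.Agent.P096.Three.Flow.Mean

/-!
P096, type III, flow: two flows close at every single frequency of the kernel `1 / cosh (π r)`, whose
cocycle is a family of moves of defect `γ` with slots, differ at all times by at most a multiple of `γ`.
-/

open MeasureTheory

namespace Vale.Agent.P096.Three.Flow

/-- FLOW. -/
theorem flowSpec : FlowSpec := flowSpec_of growSpec gapSpec

lemma Setting.isFlow {H : Type} [NormedAddCommGroup H] [InnerProductSpace ℂ H] [CompleteSpace H]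
    (S : Setting H) : Mean.IsFlow S.U :=
  ⟨S.U_zero, S.U_add, S.U_star, S.U_cont⟩

/-- The flow part. -/
theorem flow_close : ∃ C γ₀ g₀ : ℝ, 0 ≤ C ∧ 0 < γ₀ ∧ 0 < g₀ ∧
    ∀ (H : Type) [NormedAddCommGroup H] [InnerProductSpace ℂ H] [CompleteSpace H] (F : Family H)
      (U' : ℝ → (H →L[ℂ] H)) (g : ℝ), Mean.IsFlow U' → (∀ t, F.D t = U' t * F.S.U (-t)) →
      0 ≤ g → g ≤ g₀ → Mean.FreqLe F.S.U U' g → F.γ ≤ γ₀ → ∀ t, ‖U' t - F.S.U t‖ ≤ C * F.γ := by
  obtain ⟨C, η, γ₀, hC, hη, hγ₀, hflow⟩ := flowSpec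
  obtain ⟨Cm, hCm, hmean⟩ := Mean.mean_le
  set d : ℝ := min (1 / 2) (Real.sqrt (η / (2 * (Cm + 1)))) with hd
  have hd0 : 0 < d := lt_min (by norm_num) (by positivity)
  refine ⟨C, γ₀, Real.sqrt (d * η / (2 * (Cm + 1))), hC, hγ₀, by positivity, ?_⟩
  intro H _ _ _ F U' g hU' hD hg hgle hK hγ t
  have hM : F.MeanLe d η := by
    intro s hs v
    have e : ∀ r, F.D s (F.S.U r v) = U' s (F.S.U (-s) (F.S.U r v)) := fun r => by rw [hD]; rfl
    simp only [e]
    refine (hmean H F.S.U U' g d F.S.isFlow hU' hg hK hd0 (min_le_left _ _) s hs v).trans ?_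
    refine mul_le_mul_of_nonneg_right (mul_le_mul_of_nonneg_right ?_ (by positivity)) (sq_nonneg _)
    have h1 : g ^ 2 / d ≤ η / (2 * (Cm + 1)) := by
      rw [div_le_iff₀ hd0]
      refine (pow_le_pow_left₀ hg hgle 2).trans_eq ?_
      rw [Real.sq_sqrt (by positivity)]
      ring
    have h2 : d ^ 2 ≤ η / (2 * (Cm + 1)) := by
      refine (pow_le_pow_left₀ hd0.le (min_le_right _ _) 2).trans_eq ?_
      rw [Real.sq_sqrt (by positivity)]
    calc Cm * (g ^ 2 / d + d ^ 2) ≤ (Cm + 1) * (η / (2 * (Cm + 1)) + η / (2 * (Cm + 1))) :=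
          mul_le_mul (by linarith) (add_le_add h1 h2) (by positivity) (by linarith)
      _ = η := by field_simp; ring
  have h := hflow H F d hd0 hγ hM t
  have hu : F.S.U t ∈ unitary (H →L[ℂ] H) := F.S.U_unitary t
  have e : U' t - F.S.U t = (F.D t - 1) * F.S.U t := by
    rw [hD, sub_mul, one_mul, mul_assoc, ← F.S.U_add, neg_add_cancel, F.S.U_zero, mul_one]
  rw [e]
  exact (norm_mul_le _ _).trans
    ((mul_le_of_le_one_right (norm_nonneg _) (Vale.Agent.P096.Full.Reduce.norm_le_one hu)).trans h)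

end Vale.Agent.P096.Three.Flow
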