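import Vale.Agent.P096.Full.Reduce.Group

/-!
P096, type III, the flow part: interfaces. See notes/helper5/P096/TYPE_III.md.

A `Setting` is an algebra with a flow `U` fixing a cyclic unit vector `ξ`, finite groups in the fixed
points with mirrors in the commutant, and averages over the groups tending into the centre.
A `Move` is a unitary with the same symmetries carrying the algebra near itself; the ones of interest
are `U' t * U (-t)`, where `U'` is the flow of a close algebra with the same vector.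
-/

open scoped InnerProductSpace
open Filter Topology
open Vale.Agent.P096.Full.Reduce

namespace Vale.Agent.P096.Three.Flow

variable {H : Type} [NormedAddCommGroup H] [InnerProductSpace ℂ H] [CompleteSpace H]

/-- An algebra with a flow, groups in its fixed points and central averages. -/
structure Setting (H : Type) [NormedAddCommGroup H] [InnerProductSpace ℂ H] [CompleteSpace H] where
  /-- The algebra. -/
  M : VonNeumannAlgebra H
  /-- The vector. -/
  ξ : H
  norm_ξ : ‖ξ‖ = 1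
  dense_ξ : Dense {v : H | ∃ x ∈ M, x ξ = v}
  /-- The flow. -/
  U : ℝ → (H →L[ℂ] H)
  U_zero : U 0 = 1
  U_add : ∀ s t, U (s + t) = U s * U t
  U_star : ∀ t, star (U t) = U (-t)
  U_cont : ∀ v, Continuous fun t => U t v
  U_ξ : ∀ t, U t ξ = ξ
  U_mem : ∀ t, ∀ x ∈ M, U t * x * U (-t) ∈ M
  /-- The groups. -/
  Γ : Groups H
  memM : ∀ g ∈ Γ.carrier, g ∈ M
  /-- The mirrors of the groups in the commutant. -/
  r : (H →L[ℂ] H) → (H →L[ℂ] H)
  r_mem : ∀ g ∈ Γ.carrier, r g ∈ M.commutant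
  r_unitary : ∀ g ∈ Γ.carrier, r g ∈ unitary (H →L[ℂ] H)
  r_ξ : ∀ g ∈ Γ.carrier, r g ξ = star g ξ
  U_g : ∀ t, ∀ g ∈ Γ.carrier, U t * g = g * U t
  U_z : ∀ t, ∀ z ∈ M, z ∈ M.commutant → U t * z = z * U t
  central : ∀ x ∈ M, ∃ z ∈ M, z ∈ M.commutant ∧
    ∀ v, Tendsto (fun m => avg Γ m (fun g => g * x * star g) v) atTop (𝓝 (z v))

namespace Setting

variable (S : Setting H)

/-- The central elements. -/
def Z : Set (H →L[ℂ] H) := {z | z ∈ S.M ∧ z ∈ S.M.commutant}

/-- The vectors of the centre at `ξ`. -/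
def K : Submodule ℂ H :=
  (Submodule.span ℂ ((fun z : H →L[ℂ] H => z S.ξ) '' S.Z)).topologicalClosure

instance : CompleteSpace S.K :=
  (Submodule.span ℂ ((fun z : H →L[ℂ] H => z S.ξ) '' S.Z)).isClosed_topologicalClosure.completeSpace_coe

/-- The projection on `S.K`. -/
noncomputable def P : H →L[ℂ] H := S.K.starProjection

/-- A conjugate under the flow. -/
def sigma (t : ℝ) (x : H →L[ℂ] H) : H →L[ℂ] H := S.U t * x * S.U (-t)

/-- A unitary with the symmetries of the setting carrying `M` near itself. -/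
structure Move (γ : ℝ) (V : H →L[ℂ] H) : Prop where
  unit : V ∈ unitary (H →L[ℂ] H)
  fix : V S.ξ = S.ξ
  comm_g : ∀ g ∈ S.Γ.carrier, V * g = g * V
  comm_r : ∀ g ∈ S.Γ.carrier, V * S.r g = S.r g * V
  comm_z : ∀ z ∈ S.Z, V * z = z * V
  near : ∀ x ∈ S.M, ∃ m ∈ S.M, ‖V * x * star V - m‖ ≤ γ * ‖x‖
  near' : ∀ x ∈ S.M, ∃ m ∈ S.M, ‖star V * x * V - m‖ ≤ γ * ‖x‖

/-- `V` moves the contractions of `M` by at most `ε` on `S.K`. -/
def Bd (V : H →L[ℂ] H) (ε : ℝ) : Prop :=
  ∀ x ∈ S.M, ‖x‖ ≤ 1 → ∀ v ∈ S.K, ‖V (x v) - x v‖ ≤ ε * ‖v‖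

/-- Finitely many partial isometries of `M` commuting with `V`, with one common initial projection
as near the identity as we wish. -/
def HasSlots (V : H →L[ℂ] H) : Prop :=
  ∀ n : ℕ, ∃ (s : ℕ → Fin n → (H →L[ℂ] H)) (p : ℕ → (H →L[ℂ] H)),
    (∀ j i, s j i ∈ S.M) ∧ (∀ j i, V * s j i = s j i * V) ∧
    (∀ j i, star (s j i) * s j i = p j) ∧ (∀ j i k, i ≠ k → star (s j i) * s j k = 0) ∧
    ∀ v, Tendsto (fun j => p j v) atTop (𝓝 v)

end Setting

/-- A setting with a family of moves: the cocycle of a second flow. -/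
structure Family (H : Type) [NormedAddCommGroup H] [InnerProductSpace ℂ H] [CompleteSpace H] where
  /-- The setting. -/
  S : Setting H
  /-- The moves. -/
  D : ℝ → (H →L[ℂ] H)
  /-- The defect. -/
  γ : ℝ
  γ_nonneg : 0 ≤ γ
  move : ∀ t, S.Move γ (D t)
  cocycle : ∀ s t, D (s + t) = D s * (S.U s * D t * S.U (-s))
  cont : ∀ v, Continuous fun t => D t v
  slots : ∀ t, S.HasSlots (D t)

/-- AVERAGE: on windows of length `2 d` the flow is moved by at most `η` in mean square, for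
times up to `d`. -/
def Family.MeanLe (F : Family H) (d η : ℝ) : Prop :=
  ∀ t, |t| ≤ d → ∀ v, ∫ s in (-d)..d, ‖F.D t (F.S.U s v) - F.S.U s v‖ ^ 2 ≤ η * (2 * d) * ‖v‖ ^ 2

/-- GROW: a small mean gives a bound of the size of the root of the defect, for times up to the
window. The constants do not depend on the window. -/
def GrowSpec : Prop :=
  ∃ C η γ₀ : ℝ, 0 ≤ C ∧ 0 < η ∧ 0 < γ₀ ∧
    ∀ (H : Type) [NormedAddCommGroup H] [InnerProductSpace ℂ H] [CompleteSpace H] (F : Family H)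
      (d : ℝ), 0 < d → F.γ ≤ γ₀ → F.MeanLe d η → ∀ t, |t| ≤ d → F.S.Bd (F.D t) (C * Real.sqrt F.γ)

/-- GAP: a bound below `ε₀` is a bound of the size of the defect. -/
def GapSpec : Prop :=
  ∃ C ε₀ γ₀ : ℝ, 0 ≤ C ∧ 0 < ε₀ ∧ 0 < γ₀ ∧
    ∀ (H : Type) [NormedAddCommGroup H] [InnerProductSpace ℂ H] [CompleteSpace H] (S : Setting H)
      (γ : ℝ) (V : H →L[ℂ] H), 0 ≤ γ → γ ≤ γ₀ → S.Move γ V → S.Bd V ε₀ →
        S.Bd V (C * γ)

/-- FLOW: a small mean gives a small bound at all times, in operator norm. -/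
def FlowSpec : Prop :=
  ∃ C η γ₀ : ℝ, 0 ≤ C ∧ 0 < η ∧ 0 < γ₀ ∧
    ∀ (H : Type) [NormedAddCommGroup H] [InnerProductSpace ℂ H] [CompleteSpace H] (F : Family H)
      (d : ℝ), 0 < d → F.γ ≤ γ₀ → F.MeanLe d η → ∀ t, ‖F.D t - 1‖ ≤ C * F.γ

end Vale.Agent.P096.Three.Flow
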