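import Vale.Agent.P096.Three.Index
import Vale.Agent.P096.Three.Flow.Defs

/-!
P096, type III, flow: on the stabilisation every component-wise operator commutes with slots, products
of matrix units of far sites whose second weight tends to zero.
-/

open scoped InnerProductSpace Matrix
open Filter Topology

namespace Vale.Agent.P096.Three.Flow

variable {H : Type} [NormedAddCommGroup H] [InnerProductSpace ℂ H] [CompleteSpace H]

/-- The matrices of the sites lie in the stabilised algebra. -/
lemma lsite_mem_amb (M : VonNeumannAlgebra H) (n : ℕ) (a : Matrix (Fin 2) (Fin 2) ℂ) :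
    lsite n a ∈ amb M := by
  change lsite (H := H) n a ∈ StarSubalgebra.centralizer ℂ
    (ten '' (M.commutant : Set (H →L[ℂ] H)) ∪
      Set.range fun p : ℕ × Matrix (Fin 2) (Fin 2) ℂ => Cent.rightSite (siteW p.1) p.1 p.2)
  rw [StarSubalgebra.mem_centralizer_iff]
  rintro _ (⟨y, -, rfl⟩ | ⟨⟨m, b⟩, rfl⟩)
  · rw [Cent.star_ten]
    exact ⟨(Cent.ten_siteOp y n _).eq, (Cent.ten_siteOp (star y) n _).eq⟩
  · rw [Cent.star_rightSite]
    exact ⟨(Cent.leftSite_rightSite (w := siteW) (fun k => Cent.famW_sq _) n m a b).eq.symm,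
      (Cent.leftSite_rightSite (w := siteW) (fun k => Cent.famW_sq _) n m a bᴴ).eq.symm⟩

/-- A vector at rest at a site is moved by the second diagonal unit by the second weight. -/
lemma norm_lsite_one_one {n : ℕ} {v : AmbH H} (hv : Cent.AtRest n v) :
    ‖lsite n (Matrix.single (1 : Fin 2) (1 : Fin 2) (1 : ℂ)) v‖ = siteW n 1 * ‖v‖ := by
  set e := lsite (H := H) n (Matrix.single (1 : Fin 2) (1 : Fin 2) (1 : ℂ)) with he
  have h1 : star e * e = e := by
    rw [he, lsite, Cent.star_leftSite,
      Cent.leftSite_mul (w := siteW n) (Cent.famW_sq _),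
      Matrix.conjTranspose_single, star_one, Matrix.single_mul_single_same, one_mul]
  have h2 : ⟪v, e v⟫_ℂ = ((siteW n 1 ^ 2 : ℝ) : ℂ) * ⟪v, v⟫_ℂ := by
    rw [he, lsite, Cent.leftSite, Cent.inner_siteOp_atRest hv]
    congr 1
    simp [Cent.siteBasis, Cent.leftMat, Matrix.mul_apply, Fin.sum_univ_four, sq]
  have h3 : ‖e v‖ ^ 2 = (siteW n 1 * ‖v‖) ^ 2 := by
    rw [← @inner_self_eq_norm_sq ℂ, ← ContinuousLinearMap.adjoint_inner_right,
      ← ContinuousLinearMap.star_eq_adjoint, ← mul_apply_eq_comp, h1, h2,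
      inner_self_eq_norm_sq_to_K]
    simp [← Complex.ofReal_pow, mul_pow]
  exact (sq_eq_sq₀ (norm_nonneg _)
    (mul_nonneg (Cent.famW_pos _ _).le (norm_nonneg _))).1 h3

/-- Slots. -/
theorem hasSlots_ten {M : VonNeumannAlgebra H} (S : Setting (AmbH H)) (hM : S.M = amb M)
    (x : H →L[ℂ] H) : S.HasSlots (ten x) := by
  intro n
  have hfam : ∀ j : ℕ, ∃ i, Cent.famW i 1 ≤ 1 / ((j : ℝ) + 1) := by
    intro j
    obtain ⟨i, hi⟩ := Cent.famW_levels (1 / (2 * ((j : ℝ) + 1))) (by positivity)
      (1 / (2 * ((j : ℝ) + 1))) (by positivity)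
    refine ⟨i, ?_⟩
    have h0 := Cent.famW_pos i 0
    have h1 := (abs_lt.1 hi).2
    have h2 : Cent.famW i 1 / Cent.famW i 0 ≤ 1 / ((j : ℝ) + 1) := by
      have : 1 / (2 * ((j : ℝ) + 1)) + 1 / (2 * ((j : ℝ) + 1)) = 1 / ((j : ℝ) + 1) := by
        field_simp; ring
      linarith
    refine le_trans ?_ h2
    rw [le_div_iff₀ h0]
    exact mul_le_of_le_one_right (Cent.famW_pos i 1).le
      (by nlinarith [Cent.famW_sq i, sq_nonneg (Cent.famW i 1)])
  choose fam hfam using hfam
  let site : ℕ → ℕ → ℕ := fun j k => Nat.pair (fam j) (j + k)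
  let unit : ℕ → ℕ → Fin 2 → Fin 2 → (AmbH H →L[ℂ] AmbH H) := fun j k a b =>
    lsite (site j k) (Matrix.single a b (1 : ℂ))
  have hsite : ∀ j k l, k ≠ l → site j k ≠ site j l := fun j k l h e => by
    have := (Nat.pair_eq_pair.1 e).2
    omega
  have hmul : ∀ j k a b c d, unit j k a b * unit j k c d =
      lsite (site j k) (Matrix.single a b (1 : ℂ) * Matrix.single c d 1) := fun j k a b c d =>
    Cent.leftSite_mul (Cent.famW_sq _) _ _ _
  have hstar : ∀ j k a b, star (unit j k a b) = unit j k b a := fun j k a b => by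
    simp only [unit, lsite, Cent.star_leftSite, Matrix.conjTranspose_single, star_one]
  have hcomm : ∀ j k l a b c d, k ≠ l → Commute (unit j k a b) (unit j l c d) :=
    fun j k l a b c d h => Cent.siteOp_comm (hsite j k l h) _ _
  let p : ℕ → ℕ → (AmbH H →L[ℂ] AmbH H) := fun j m => Nat.rec 1 (fun k q => q * unit j k 0 0) m
  have hps : ∀ j m, p j (m + 1) = p j m * unit j m 0 0 := fun j m => rfl
  have hpc : ∀ j m (T : AmbH H →L[ℂ] AmbH H), (∀ k < m, Commute T (unit j k 0 0)) →
      Commute T (p j m) := fun j m T h => by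
    induction m with
    | zero => exact Commute.one_right T
    | succ m ih => exact (ih fun k hk => h k (by omega)).mul_right (h m (by omega))
  have hqq : ∀ j k, unit j k 0 0 * unit j k 0 0 = unit j k 0 0 := fun j k => by
    rw [hmul, Matrix.single_mul_single_same, one_mul]
  have hp : ∀ j m, star (p j m) = p j m ∧ p j m * p j m = p j m ∧
      ∀ k < m, p j m * unit j k 0 0 = p j m := fun j m => by
    induction m with
    | zero => exact ⟨star_one _, one_mul _, fun k hk => absurd hk (by omega)⟩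
    | succ m ih =>
      have hc : Commute (unit j m 0 0) (p j m) :=
        hpc j m _ fun k hk => hcomm j m k 0 0 0 0 (by omega)
      refine ⟨?_, ?_, fun k hk => ?_⟩
      · rw [hps, star_mul, hstar, ih.1, hc.eq]
      · rw [hps, mul_assoc, ← mul_assoc (unit j m 0 0), hc.eq, mul_assoc (p j m) (unit j m 0 0),
          hqq, ← mul_assoc, ih.2.1]
      · rcases Nat.lt_succ_iff_lt_or_eq.1 hk with hk' | rfl
        · rw [hps, mul_assoc, (hcomm j m k 0 0 0 0 (by omega)).eq, ← mul_assoc, ih.2.2 k hk']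
        · rw [hps, mul_assoc, hqq]
  have hmem : ∀ j m, p j m ∈ S.M := fun j m => by
    induction m with
    | zero => exact one_mem _
    | succ m ih => rw [hps]; exact mul_mem ih (hM ▸ lsite_mem_amb M _ _)
  have hx : ∀ j k a b, Commute (ten x) (unit j k a b) := fun j k a b => Cent.ten_siteOp x _ _
  refine ⟨fun j i => unit j i 1 0 * p j n, fun j => p j n,
    fun j i => mul_mem (hM ▸ lsite_mem_amb M _ _) (hmem j n),
    fun j i => ((hx j i 1 0).mul_right (hpc j n _ fun k _ => hx j k 0 0)).eq,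
    fun j i => ?_, fun j i k hik => ?_, ?_⟩
  · rw [star_mul, (hp j n).1, hstar, mul_assoc, ← mul_assoc (unit j i 0 1), hmul,
      Matrix.single_mul_single_same, one_mul, ← mul_assoc]
    show p j n * unit j i 0 0 * p j n = p j n
    rw [(hp j n).2.2 i i.2, (hp j n).2.1]
  · have hik' : (i : ℕ) ≠ k := fun h => hik (Fin.ext h)
    rw [star_mul, (hp j n).1, hstar, mul_assoc, ← mul_assoc (unit j i 0 1),
      (hcomm j i k 0 1 1 0 hik').eq, mul_assoc (unit j k 1 0), ← mul_assoc (p j n)]
    have h0 : p j n * unit j k 1 0 = 0 := by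
      rw [← (hp j n).2.2 k k.2, mul_assoc, hmul,
        Matrix.single_mul_single_of_ne _ _ _ _ (by decide)]
      simp [lsite, Cent.leftSite, Cent.leftMat_zero, Cent.siteOp_zero]
    rw [h0, zero_mul]
  intro v
  have hnorm : ∀ j m, ‖p j m‖ ≤ 1 := fun j m => by
    rcases eq_or_ne (p j m) 0 with h | h
    · simp [h]
    · refine le_of_eq ?_
      have hn : 0 < ‖p j m‖ := norm_pos_iff.2 h
      have := CStarRing.norm_star_mul_self (x := p j m)
      rw [(hp j m).1, (hp j m).2.1] at this
      nlinarith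
  refine Metric.tendsto_atTop.2 fun ε hε => ?_
  obtain ⟨w, hw, hwv⟩ := Metric.mem_closure_iff.1
    (Cent.dense_locVecs (H := H) v) (ε / 4) (by positivity)
  rw [dist_eq_norm] at hwv
  obtain ⟨N₀, hN₀⟩ := eventually_atTop.1 (hw : ∀ᶠ m in atTop, Cent.AtRest m w)
  have hlim : Tendsto (fun j : ℕ => (n : ℝ) * (1 / ((j : ℝ) + 1) * ‖w‖)) atTop (𝓝 0) := by
    simpa using ((tendsto_one_div_add_atTop_nhds_zero_nat (𝕜 := ℝ)).mul_const ‖w‖).const_mul (n : ℝ)
  obtain ⟨N₁, hN₁⟩ := eventually_atTop.1 (hlim.eventually (gt_mem_nhds (show 0 < ε / 4 by positivity)))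
  refine ⟨max N₀ N₁, fun j hj => ?_⟩
  have hpw : ∀ m, ‖p j m w - w‖ ≤ m * (1 / ((j : ℝ) + 1) * ‖w‖) := fun m => by
    induction m with
    | zero =>
      show ‖(1 : AmbH H →L[ℂ] AmbH H) w - w‖ ≤ _
      simp
    | succ m ih =>
      have hr : Cent.AtRest (site j m) w := hN₀ _ (by
        have := Nat.right_le_pair (fam j) (j + m)
        simp only [site]; omega)
      have hq : ‖unit j m 0 0 w - w‖ ≤ 1 / ((j : ℝ) + 1) * ‖w‖ := by
        have e : unit j m 0 0 + unit j m 1 1 = 1 := by
          simp only [unit, lsite, Cent.leftSite]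
          rw [← Cent.siteOp_add, ← Matrix.add_mul, ← Matrix.mul_add, ← Cent.leftMat_add,
            show Matrix.single (0 : Fin 2) (0 : Fin 2) (1 : ℂ) + Matrix.single 1 1 1 = 1 by
              ext a b; fin_cases a <;> fin_cases b <;> simp [Matrix.single],
            Cent.leftMat_one, Matrix.mul_one, Cent.siteBasis_sq (w := siteW _) (Cent.famW_sq _), Cent.siteOp_one]
        have e' : unit j m 0 0 w - w = -(unit j m 1 1 w) := by
          have := DFunLike.congr_fun e w
          rw [add_apply, one_apply_eq_self] at this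
          exact sub_eq_iff_eq_add.2 (eq_neg_add_of_add_eq ((add_comm _ _).trans this))
        rw [e', norm_neg, norm_lsite_one_one hr]
        refine mul_le_mul_of_nonneg_right ?_ (norm_nonneg _)
        simpa [site, siteW, Cent.siteW] using hfam j
      rw [hps, mul_apply_eq_comp]
      calc ‖p j m (unit j m 0 0 w) - w‖
          = ‖p j m (unit j m 0 0 w - w) + (p j m w - w)‖ := by rw [map_sub]; congr 1; abel
        _ ≤ 1 / ((j : ℝ) + 1) * ‖w‖ + m * (1 / ((j : ℝ) + 1) * ‖w‖) := (norm_add_le _ _).trans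
            (add_le_add (((p j m).le_opNorm _).trans
              ((mul_le_of_le_one_left (norm_nonneg _) (hnorm j m)).trans hq)) ih)
        _ = _ := by push_cast; ring
  rw [dist_eq_norm]
  calc ‖p j n v - v‖ = ‖p j n (v - w) + (p j n w - w) - (v - w)‖ := by rw [map_sub]; congr 1; abel
    _ ≤ ‖p j n (v - w)‖ + ‖p j n w - w‖ + ‖v - w‖ :=
        (norm_sub_le _ _).trans (add_le_add (norm_add_le _ _) le_rfl)
    _ < ε := by
        have h1 := ((p j n).le_opNorm (v - w)).trans
          (mul_le_of_le_one_left (norm_nonneg _) (hnorm j n))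
        have h2 := hpw n
        have h3 := hN₁ j (le_trans (le_max_right _ _) hj)
        linarith

end Vale.Agent.P096.Three.Flow
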