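import Vale.Agent.P096.Three.Spec
import Vale.Agent.P096.Three.Pins
import Vale.Agent.P096.Three.Flow.Main
import Vale.Agent.P096.Three.Flow.Slots

/-!
P096, type III, flow: the flow part applied on the stabilisations.
-/

open scoped InnerProductSpace
open Filter Topology MeasureTheory
open TopologicalSpace (SeparableSpace)
open Vale.Agent.P132.TypeThree (StdData)

namespace Vale.Agent.P096.Three.Flow

/-- AMB MEAN: the modular groups of the stabilisations of a close fitting pair are close in mean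
square on short windows. -/
def AmbMeanSpec : Prop :=
  ∀ η : ℝ, 0 < η → ∃ δ d : ℝ, 0 < δ ∧ 0 < d ∧
    ∀ (H : Type) [NormedAddCommGroup H] [InnerProductSpace ℂ H] [CompleteSpace H] [SeparableSpace H]
      (M N : VonNeumannAlgebra H) (ξ : H) (P₂ : Pinned (amb M) (put0 ξ)) (R R' : H →L[ℂ] H)
      (J J' : H ≃ₗᵢ⋆[ℂ] H) (U U' : ℝ → H →L[ℂ] H) (γ : ℝ),
      StdData M ξ R J U → StdData N ξ R' J' U' → P₂.Fits (amb N) → 0 ≤ γ → γ < δ →
      Lit.IsClose H M N γ → ∀ t, |t| ≤ d → ∀ v : AmbH H,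
        ∫ s in (-d)..d, ‖ambU U' t (ambU U (-t) (ambU U s v)) - ambU U s v‖ ^ 2 ≤
          η * (2 * d) * ‖v‖ ^ 2

variable {H : Type} [NormedAddCommGroup H] [InnerProductSpace ℂ H] [CompleteSpace H]

lemma exists_near_smul {M N : VonNeumannAlgebra H} {γ : ℝ}
    (h : NearIncl (M : Set (H →L[ℂ] H)) N γ) {x : H →L[ℂ] H} (hx : x ∈ M) :
    ∃ y ∈ N, ‖x - y‖ ≤ γ * ‖x‖ := by
  rcases eq_or_ne x 0 with rfl | hx0
  · exact ⟨0, zero_mem _, by simp⟩
  have hn : 0 < ‖x‖ := norm_pos_iff.2 hx0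
  obtain ⟨y, hy, hxy⟩ := h (((‖x‖⁻¹ : ℝ) : ℂ) • x)
    (SMulMemClass.smul_mem (s := M.toStarSubalgebra) _ hx)
    (by rw [opSize, norm_smul, Complex.norm_real, norm_inv, norm_norm, inv_mul_cancel₀ hn.ne'])
  refine ⟨(‖x‖ : ℂ) • y, SMulMemClass.smul_mem (s := N.toStarSubalgebra) _ hy, ?_⟩
  have e : x - (‖x‖ : ℂ) • y = (‖x‖ : ℂ) • (((‖x‖⁻¹ : ℝ) : ℂ) • x - y) := by
    rw [smul_sub, smul_smul, ← Complex.ofReal_mul, mul_inv_cancel₀ hn.ne', Complex.ofReal_one,
      one_smul]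
  rw [e, norm_smul, Complex.norm_real, norm_norm, mul_comm γ]
  exact mul_le_mul_of_nonneg_left hxy hn.le

/-- The cocycle of two stabilised flows is the stabilised cocycle. -/
lemma ambU_mul_ambU (U U' : ℝ → H →L[ℂ] H) (t : ℝ) :
    ambU U' t * ambU U (-t) = ten (U' t * U (-t)) := by
  refine ContinuousLinearMap.ext fun f => lp.ext (funext fun i => ?_)
  simp only [ambU, mul_apply_eq_comp, Cent.diagOp_apply, Cent.ten_apply, map_smul, smul_smul,
    ← Complex.exp_add]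
  rw [show (((t * level i : ℝ) : ℂ) * Complex.I + ((-t * level i : ℝ) : ℂ) * Complex.I) = 0 by
    push_cast; ring, Complex.exp_zero, one_smul]

lemma norm_le_norm_ten (x : H →L[ℂ] H) : ‖x‖ ≤ ‖(ten x : AmbH H →L[ℂ] AmbH H)‖ := by
  refine ContinuousLinearMap.opNorm_le_bound _ (norm_nonneg _) fun v => ?_
  have h1 := (ten x).le_opNorm (lp.single 2 (0 : Idx) v)
  rwa [Cent.ten_single, lp.norm_single (by norm_num), lp.norm_single (by norm_num)] at h1

/-- The flow bridge, from the mean on the stabilisations. -/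
theorem flowBridge_of (hmean : AmbSpec → AmbMeanSpec) : FlowBridge := by
  intro hA hU
  obtain ⟨C, η, γ₀, hC, hη, hγ₀, hflow⟩ := flowSpec
  obtain ⟨δ, d, hδ, hd, hm⟩ := hmean hA η hη
  obtain ⟨Ca, hCa, hclose⟩ := hA.close
  refine ⟨min δ (min 1 γ₀ / (3 * Ca + 1)), C * (3 * Ca), lt_min hδ (by positivity),
    by positivity, ?_⟩
  intro H _ _ _ _ M N ξ P R R' J J' U U' γ hM hN hfit hγ hcl t
  obtain ⟨hγ1, hγ2⟩ := lt_min_iff.1 hγ
  have hγ0 : 0 ≤ γ := by
    obtain ⟨y, _, hy⟩ := hcl.1 0 (zero_mem _) (by simp [opSize])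
    exact (norm_nonneg _).trans hy
  obtain ⟨P₂, hP₂⟩ := hU H M ξ P hM.std
  have hfit₂ := hP₂ N hfit
  have hcl₂ := hclose H M N γ hcl
  obtain ⟨R₂, J₂, hM₂, -⟩ := hA.data H M ξ R J U hM
  obtain ⟨R₂', J₂', hN₂, -⟩ := hA.data H N ξ R' J' U' hN
  set γ₂ := Ca * γ with hγ₂
  rw [lt_div_iff₀ (by positivity)] at hγ2
  have hsmall : γ₂ ≤ 1 ∧ 3 * γ₂ ≤ γ₀ := by
    have h1 := min_le_left (1 : ℝ) γ₀
    have h2 := min_le_right (1 : ℝ) γ₀
    constructor <;> nlinarith
  have hγ₂0 : 0 ≤ γ₂ := mul_nonneg hCa hγ0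
  let V := ambU U
  let V' := ambU U'
  have hV : Mean.IsFlow V := ⟨hM₂.mod.U_zero, hM₂.mod.U_add, hM₂.mod.U_star, hM₂.mod.U_cont⟩
  have hV' : Mean.IsFlow V' := ⟨hN₂.mod.U_zero, hN₂.mod.U_add, hN₂.mod.U_star, hN₂.mod.U_cont⟩
  let S : Setting (AmbH H) :=
    { M := amb M
      ξ := put0 ξ
      norm_ξ := hM₂.std.1
      dense_ξ := hM₂.std.2.1
      U := V
      U_zero := hM₂.mod.U_zero
      U_add := hM₂.mod.U_add
      U_star := hM₂.mod.U_star
      U_cont := hM₂.mod.U_cont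
      U_ξ := hM₂.mod.U_xi
      U_mem := hM₂.mod.U_mem
      Γ := P₂.Γ
      memM := P₂.memM
      r := P₂.r
      r_mem := P₂.r_mem
      r_unitary := P₂.r_unitary
      r_ξ := P₂.r_ξ
      U_g := fun s g hg => P₂.U_comm_g P₂.fits_self hM₂ hg s
      U_z := fun s z hz hz' => U_comm_centre hM₂ hz hz' s
      central := P₂.central }
  have hu : ∀ {W : ℝ → AmbH H →L[ℂ] AmbH H}, Mean.IsFlow W → ∀ s,
      W s ∈ unitary (AmbH H →L[ℂ] AmbH H) := fun {W} hW s => Unitary.mem_iff.2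
    ⟨by rw [hW.star_eq, ← hW.add, neg_add_cancel, hW.zero],
      by rw [hW.star_eq, ← hW.add, add_neg_cancel, hW.zero]⟩
  have hn : ∀ {W : ℝ → AmbH H →L[ℂ] AmbH H}, Mean.IsFlow W → ∀ s (x : AmbH H →L[ℂ] AmbH H),
      ‖W s * x * W (-s)‖ = ‖x‖ := fun {W} hW s x => by
    rw [CStarRing.norm_mul_mem_unitary _ (hu hW _), CStarRing.norm_mem_unitary_mul _ (hu hW _)]
  have near : ∀ s, ∀ x ∈ amb M, ∃ m ∈ amb M,
      ‖V' s * (V (-s) * x * V (- -s)) * V' (-s) - m‖ ≤ 3 * γ₂ * ‖x‖ := by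
    intro s x hx
    obtain ⟨y, hy, hyn⟩ := exists_near_smul hcl₂.1 (hM₂.mod.U_mem (-s) x hx)
    obtain ⟨m, hm', hmn⟩ := exists_near_smul hcl₂.2 (hN₂.mod.U_mem s y hy)
    refine ⟨m, hm', ?_⟩
    rw [hn hV] at hyn
    change ‖V (-s) * x * V (- -s) - y‖ ≤ γ₂ * ‖x‖ at hyn
    rw [show ‖ambU U' s * y * ambU U' (-s)‖ = ‖y‖ from hn hV' s y] at hmn
    have hy2 : ‖y‖ ≤ 2 * ‖x‖ := by
      have := norm_le_insert (V (-s) * x * V (- -s)) y
      rw [hn hV] at this
      nlinarith [norm_nonneg x]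
    have e : V' s * (V (-s) * x * V (- -s)) * V' (-s) - m =
        V' s * (V (-s) * x * V (- -s) - y) * V' (-s) + (V' s * y * V' (-s) - m) := by
      simp only [mul_sub, sub_mul]; abel
    rw [e]
    refine (norm_add_le _ _).trans ?_
    rw [hn hV']
    calc _ ≤ γ₂ * ‖x‖ + γ₂ * (2 * ‖x‖) :=
          add_le_add hyn (hmn.trans (mul_le_mul_of_nonneg_left hy2 hγ₂0))
      _ = _ := by ring
  have near' : ∀ s, ∀ x ∈ amb M, ∃ m ∈ amb M,
      ‖V s * (V' (-s) * x * V' (- -s)) * V (-s) - m‖ ≤ 3 * γ₂ * ‖x‖ := by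
    intro s x hx
    obtain ⟨y, hy, hyn⟩ := exists_near_smul hcl₂.1 hx
    obtain ⟨m, hm', hmn⟩ := exists_near_smul hcl₂.2 (hN₂.mod.U_mem (-s) y hy)
    refine ⟨V s * m * V (-s), hM₂.mod.U_mem s m hm', ?_⟩
    change ‖x - y‖ ≤ γ₂ * ‖x‖ at hyn
    change ‖V' (-s) * y * V' (- -s) - m‖ ≤ γ₂ * ‖V' (-s) * y * V' (- -s)‖ at hmn
    rw [hn hV'] at hmn
    have hy2 : ‖y‖ ≤ 2 * ‖x‖ := by
      have := norm_le_insert x y
      nlinarith [norm_nonneg x]
    have e : V s * (V' (-s) * x * V' (- -s)) * V (-s) - V s * m * V (-s) =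
        V s * (V' (-s) * (x - y) * V' (- -s) + (V' (-s) * y * V' (- -s) - m)) * V (-s) := by
      simp only [mul_sub, sub_mul, mul_add, add_mul]; abel
    rw [e, hn hV]
    refine (norm_add_le _ _).trans ?_
    rw [hn hV']
    calc _ ≤ γ₂ * ‖x‖ + γ₂ * (2 * ‖x‖) :=
          add_le_add hyn (hmn.trans (mul_le_mul_of_nonneg_left hy2 hγ₂0))
      _ = _ := by ring
  have comm : ∀ s (a : AmbH H →L[ℂ] AmbH H), (∀ u, V u * a = a * V u) →
      (∀ u, V' u * a = a * V' u) → V' s * V (-s) * a = a * (V' s * V (-s)) := fun s a h1 h2 => by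
    rw [mul_assoc, h1, ← mul_assoc, h2, mul_assoc]
  let F : Family (AmbH H) :=
    { S := S
      D := fun s => V' s * V (-s)
      γ := 3 * γ₂
      γ_nonneg := by positivity
      move := fun s =>
        { unit := mul_mem (hu hV' s) (hu hV _)
          fix := by
            show V' s (V (-s) (put0 ξ)) = put0 ξ
            rw [hM₂.mod.U_xi, hN₂.mod.U_xi]
          comm_g := fun g hg => comm s g (fun u => P₂.U_comm_g P₂.fits_self hM₂ hg u)
            (fun u => P₂.U_comm_g hfit₂ hN₂ hg u)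
          comm_r := fun g hg => comm s _ (fun u => P₂.U_comm_r P₂.fits_self hM₂ hg u)
            (fun u => P₂.U_comm_r hfit₂ hN₂ hg u)
          comm_z := fun z hz => comm s z (fun u => U_comm_centre hM₂ hz.1 hz.2 u)
            (fun u => U_comm_centre hN₂ ((hfit₂.centre z).1 hz).1 ((hfit₂.centre z).1 hz).2 u)
          near := fun x hx => by
            obtain ⟨m, hm', h⟩ := near s x hx
            refine ⟨m, hm', le_of_eq_of_le ?_ h⟩
            rw [star_mul, hV.star_eq, hV'.star_eq]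
            simp only [mul_assoc]
          near' := fun x hx => by
            obtain ⟨m, hm', h⟩ := near' s x hx
            refine ⟨m, hm', le_of_eq_of_le ?_ h⟩
            rw [star_mul, hV.star_eq, hV'.star_eq, neg_neg]
            simp only [mul_assoc] }
      cocycle := fun a b => by
        show V' (a + b) * V (-(a + b)) = V' a * V (-a) * (V a * (V' b * V (-b)) * V (-a))
        rw [hV'.add, neg_add_rev, hV.add]
        simp only [mul_assoc]
        rw [← mul_assoc (V (-a)) (V a),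
          show V (-a) * V a = 1 by rw [← hV.add, neg_add_cancel, hV.zero], one_mul]
      cont := fun v => hV'.continuous_apply continuous_id
        (hV.continuous_apply continuous_neg continuous_const)
      slots := fun s => by
        show S.HasSlots (ambU U' s * ambU U (-s))
        rw [ambU_mul_ambU]
        exact hasSlots_ten S rfl _ }
  have hM' : F.MeanLe d η := hm H M N ξ P₂ R R' J J' U U' γ hM hN hfit₂ hγ0 hγ1 hcl
  have h := hflow (AmbH H) F d hd hsmall.2 hM' t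
  change ‖ambU U' t * ambU U (-t) - 1‖ ≤ C * (3 * γ₂) at h
  have e : ambU U' t * ambU U (-t) - 1 = ten (U' t * U (-t) - 1) := by
    rw [ambU_mul_ambU]
    exact ContinuousLinearMap.ext fun f => lp.ext (funext fun i => by simp)
  rw [e] at h
  calc ‖U' t * U (-t) - 1‖ ≤ C * (3 * γ₂) := (norm_le_norm_ten _).trans h
    _ = C * (3 * Ca) * γ := by rw [hγ₂]; ring

end Vale.Agent.P096.Three.Flow
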