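import Vale.Agent.P096.Full.Reduce.Moment
import Vale.Agent.P104.Continuous.Basic

/-!
P096, type III, the flow part: self-adjoint vectors of one algebra and of the commutant of a close
algebra have nearly real inner products (fourth moment of random sums of conjugates and one cut).
-/

open scoped InnerProductSpace ComplexConjugate
open Filter Topology
open Vale.Agent.P096.Full.Reduce

namespace Vale.Agent.P096.Three.Flow.Clip

variable {H : Type} [NormedAddCommGroup H] [InnerProductSpace ℂ H] [CompleteSpace H]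

/-- An algebra with the groups inside through `a`, their mirrors `b` in the commutant and means
tending into the centre. -/
structure Side (Γ : Groups H) (ξ : H) (A : VonNeumannAlgebra H) (a b : (H →L[ℂ] H) → (H →L[ℂ] H)) :
    Prop where
  mem : ∀ g ∈ Γ.carrier, a g ∈ A
  memb : ∀ g ∈ Γ.carrier, b g ∈ A.commutant
  unit_a : ∀ g ∈ Γ.carrier, a g ∈ unitary (H →L[ℂ] H)
  unit_b : ∀ g ∈ Γ.carrier, b g ∈ unitary (H →L[ℂ] H)
  mul_a : ∀ g ∈ Γ.carrier, ∀ h ∈ Γ.carrier, a (g * h) = a g * a h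
  fix : ∀ g ∈ Γ.carrier, b g ξ = star (a g) ξ
  cent : ∀ x ∈ A, ∃ z ∈ A, z ∈ A.commutant ∧
    ∀ v, Tendsto (fun m => avg Γ m (fun g => a g * x * star (a g)) v) atTop (𝓝 (z v))

variable {Γ : Groups H} {ξ : H} {A : VonNeumannAlgebra H} {a b : (H →L[ℂ] H) → (H →L[ℂ] H)}

namespace Side

variable (hA : Side Γ ξ A a b)
include hA

lemma comm_ab {g : H →L[ℂ] H} (hg : g ∈ Γ.carrier) {x : H →L[ℂ] H} (hx : x ∈ A) :
    x * b g = b g * x :=
  VonNeumannAlgebra.mem_commutant_iff.1 (hA.memb g hg) x hx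

/-- The mean of the conjugates in the sense of operators. -/
noncomputable def mid (_ : Side Γ ξ A a b) (m : ℕ) (x : H →L[ℂ] H) : H →L[ℂ] H :=
  avg Γ m fun g => a g * x * star (a g)

lemma mid_mem {x : H →L[ℂ] H} (hx : x ∈ A) (m : ℕ) : hA.mid m x ∈ A :=
  SMulMemClass.smul_mem (s := A.toStarSubalgebra) _ (sum_mem fun g hg =>
    show a g * x * star (a g) ∈ A from mul_mem (mul_mem (hA.mem g ⟨m, hg⟩) hx)
      (star_mem (hA.mem g ⟨m, hg⟩)))

lemma mid_comm {m : ℕ} {k : H →L[ℂ] H} (hk : k ∈ Γ.G m) (x : H →L[ℂ] H) :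
    a k * hA.mid m x = hA.mid m x * a k := by
  have hu := Unitary.mem_iff.1 (hA.unit_a k ⟨m, hk⟩)
  have e : a k * hA.mid m x * star (a k) = hA.mid m x := by
    conv_rhs => rw [mid, ← avg_shift hk]
    simp only [mid, avg, mul_smul_comm, smul_mul_assoc, Finset.mul_sum, Finset.sum_mul]
    congr 1
    refine Finset.sum_congr rfl fun g hg => ?_
    rw [hA.mul_a k ⟨m, hk⟩ g ⟨m, hg⟩, star_mul]
    simp only [mul_assoc]
  nth_rewrite 2 [← e]
  rw [mul_assoc _ _ (a k), hu.1, mul_one]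

/-- Conjugates of elements of `A` at a vector of the centre. -/
lemma conj_vec {g x z : H →L[ℂ] H} (hg : g ∈ Γ.carrier) (hx : x ∈ A) (hz : z ∈ A)
    (hz' : z ∈ A.commutant) :
    (a g * x * star (a g)) (z ξ) = (a g * b g) (x (z ξ)) := by
  have e : star (a g) * z = z * star (a g) :=
    VonNeumannAlgebra.mem_commutant_iff.1 hz' _ (star_mem (hA.mem g hg))
  rw [mul_apply_eq_comp, mul_apply_eq_comp, mul_apply_eq_comp,
    ← mul_apply_eq_comp (star (a g)) z, e, mul_apply_eq_comp, ← hA.fix g hg,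
    ← mul_apply_eq_comp z (b g), hA.comm_ab hg hz, mul_apply_eq_comp, ← mul_apply_eq_comp x (b g),
    hA.comm_ab hg hx, mul_apply_eq_comp]

lemma unit_ab {g : H →L[ℂ] H} (hg : g ∈ Γ.carrier) : a g * b g ∈ unitary (H →L[ℂ] H) :=
  mul_mem (hA.unit_a g hg) (hA.unit_b g hg)

lemma norm_conj_vec {g x z : H →L[ℂ] H} (hg : g ∈ Γ.carrier) (hx : x ∈ A) (hz : z ∈ A)
    (hz' : z ∈ A.commutant) : ‖(a g * x * star (a g)) (z ξ)‖ = ‖x (z ξ)‖ := by
  rw [hA.conj_vec hg hx hz hz', norm_unitary (hA.unit_ab hg)]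

/-- The fourth moment of a random sum of conjugates at a vector of the centre. -/
theorem rs_fourth {z : H →L[ℂ] H} (hz : z ∈ A) (hz' : z ∈ A.commutant) {x : H →L[ℂ] H}
    (hx : x ∈ A) (hxs : IsSelfAdjoint x) (m n : ℕ) :
    rs (Γ.G m) (fun g => a g * x * star (a g)) n (fun Z => ‖(Z * Z) (z ξ)‖ ^ 2) ≤
      (n : ℝ) ^ 2 * (‖hA.mid m (x * x) (z ξ)‖ ^ 2 +
        2 * (⟪x (z ξ), hA.mid m (x * x) (x (z ξ))⟫_ℂ).re) + n * (‖x‖ ^ 4 * ‖z ξ‖ ^ 2) := by
  set s := Γ.G m with hsdef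
  set y : (H →L[ℂ] H) → (H →L[ℂ] H) := fun g => a g * x * star (a g) with hy
  set v := z ξ with hv
  set B := hA.mid m (x * x) with hB
  have hs : s.Nonempty := ⟨1, Γ.one_mem m⟩
  have hysa : ∀ g, IsSelfAdjoint (y g) := fun g => hxs.conjugate (a g)
  have hyy : ∀ g ∈ s, y g * y g = a g * (x * x) * star (a g) := fun g hg => by
    simp only [hy, mul_assoc]
    rw [← mul_assoc (star (a g)) (a g), (Unitary.mem_iff.1 (hA.unit_a g ⟨m, hg⟩)).1, one_mul]
  have hmean : ((s.card : ℂ)⁻¹ • ∑ g ∈ s, y g * y g) = B := by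
    rw [hB, mid, avg, Finset.sum_congr rfl hyy]
  have mri : ∀ (u : (H →L[ℂ] H) → H) (w : H), mean s (fun g => (⟪u g, w⟫_ℂ).re) =
      (⟪(s.card : ℂ)⁻¹ • ∑ g ∈ s, u g, w⟫_ℂ).re := fun u w => by
    rw [mean, inner_smul_left, sum_inner, map_inv₀, map_natCast, ← Complex.ofReal_natCast,
      ← Complex.ofReal_inv, Complex.re_ofReal_mul, Complex.re_sum]
  have mrr : ∀ (u : (H →L[ℂ] H) → H) (w : H), mean s (fun g => (⟪w, u g⟫_ℂ).re) =
      (⟪w, (s.card : ℂ)⁻¹ • ∑ g ∈ s, u g⟫_ℂ).re := fun u w => by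
    rw [mean, inner_smul_right, inner_sum, ← Complex.ofReal_natCast, ← Complex.ofReal_inv,
      Complex.re_ofReal_mul, Complex.re_sum]
  have hsq : ∀ w, mean s (fun h => ‖y h w‖ ^ 2) = (⟪w, B w⟫_ℂ).re := fun w => by
    simp only [norm_sq_selfAdjoint (hysa _)]
    rw [mrr, ← sum_apply, ← smul_apply, hmean]
  set q := (⟪x v, B (x v)⟫_ℂ).re with hq
  have hQ : mean s (fun g => mean s fun h => ‖y h (y g v)‖ ^ 2) = q := by
    rw [mean_congr (v := fun _ => q) fun g hg => ?_, mean_const hs]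
    have e : B * (a g * b g) = (a g * b g) * B := by
      rw [← mul_assoc, hB, ← hA.mid_comm hg, mul_assoc,
        hA.comm_ab ⟨m, hg⟩ (hA.mid_mem (mul_mem hx hx) m), ← mul_assoc]
    rw [hsq]
    simp only [hy, hv]
    rw [hA.conj_vec ⟨m, hg⟩ hx hz hz', ← mul_apply_eq_comp B, e,
      mul_apply_eq_comp (a g * b g) B,
      inner_unitary (hA.unit_ab ⟨m, hg⟩)]
  have hyn : ∀ g ∈ s, ‖(y g * y g) v‖ ^ 2 ≤ ‖x‖ ^ 4 * ‖v‖ ^ 2 := fun g hg => by
    rw [hyy g hg, hv, hA.norm_conj_vec ⟨m, hg⟩ (mul_mem hx hx) hz hz']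
    have : ‖(x * x) (z ξ)‖ ≤ ‖x‖ * ‖x‖ * ‖z ξ‖ := ((x * x).le_opNorm _).trans
      (mul_le_mul_of_nonneg_right (norm_mul_le _ _) (norm_nonneg _))
    calc ‖(x * x) (z ξ)‖ ^ 2 ≤ (‖x‖ * ‖x‖ * ‖z ξ‖) ^ 2 := pow_le_pow_left₀ (norm_nonneg _) this 2
      _ = ‖x‖ ^ 4 * ‖z ξ‖ ^ 2 := by ring
  induction n with
  | zero => simp [rs]
  | succ n ih =>
    set F := fun Z : H →L[ℂ] H => ‖(Z * Z) v‖ ^ 2
    set c : (H →L[ℂ] H) → (H →L[ℂ] H) → ℝ := fun g Z => (⟪(Z * Z) v, (y g * y g) v⟫_ℂ).re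
    set d : (H →L[ℂ] H) → (H →L[ℂ] H) → ℝ := fun g Z => ‖Z (y g v)‖ ^ 2
    set d' : (H →L[ℂ] H) → (H →L[ℂ] H) → ℝ := fun g Z => ‖y g (Z v)‖ ^ 2
    have hstep : ∀ g ∈ s, rs s y n (fun Z => (F (Z + y g) + F (Z - y g)) / 2) ≤
        rs s y n F + 2 * (n * mean s fun h => c g (y h)) + ‖x‖ ^ 4 * ‖v‖ ^ 2 +
          (2 * (n * mean s fun h => d g (y h)) + 2 * (n * mean s fun h => d' g (y h))) := by
      intro g hg
      rw [← rs_quad hs (Q := c g) (by simp [c]) (fun p q => by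
          simp only [c, add_mul, mul_add, sub_mul, mul_sub, add_apply, sub_apply, inner_add_left,
            inner_sub_left, Complex.add_re, Complex.sub_re]
          ring) n,
        ← rs_quad hs (Q := d g) (by simp [d]) (fun p q => by
          simp only [d, add_apply, sub_apply]
          nlinarith [parallelogram_law_with_norm ℂ (p (y g v)) (q (y g v))]) n,
        ← rs_quad hs (Q := d' g) (by simp [d']) (fun p q => by
          simp only [d', add_apply, sub_apply, map_add, map_sub]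
          nlinarith [parallelogram_law_with_norm ℂ (y g (p v)) (y g (q v))]) n,
        ← rs_const hs n (‖x‖ ^ 4 * ‖v‖ ^ 2) (y := y), ← rs_const_mul, ← rs_const_mul,
        ← rs_const_mul, ← rs_add, ← rs_add, ← rs_add, ← rs_add]
      refine rs_mono (P := fun _ => True) trivial (fun _ _ _ _ => ⟨trivial, trivial⟩) n
        fun Z _ => ?_
      set p := (Z * Z) v + (y g * y g) v
      set r := Z (y g v) + y g (Z v)
      have e1 : ((Z + y g) * (Z + y g)) v = p + r := by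
        simp only [p, r, mul_apply_eq_comp, add_apply, map_add]; abel
      have e2 : ((Z - y g) * (Z - y g)) v = p - r := by
        simp only [p, r, mul_apply_eq_comp, sub_apply, map_sub]; abel
      simp only [F, e1, e2, c, d, d']
      have p1 := parallelogram_law_with_norm ℂ p r
      have p2 : ‖p‖ ^ 2 = ‖(Z * Z) v‖ ^ 2 + 2 * (⟪(Z * Z) v, (y g * y g) v⟫_ℂ).re +
          ‖(y g * y g) v‖ ^ 2 := @norm_add_sq ℂ _ _ _ _ _ _
      have p3 := parallelogram_law_with_norm ℂ (Z (y g v)) (y g (Z v))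
      have p4 := sq_nonneg ‖Z (y g v) - y g (Z v)‖
      nlinarith [hyn g hg]
    refine le_trans (mean_mono hstep) ?_
    simp only [mean_add, mean_const_mul, mean_const hs]
    have hc : (mean s fun g => mean s fun h => c g (y h)) = ‖B v‖ ^ 2 := by
      simp only [c]
      rw [mean_congr (v := fun g => (⟪B v, (y g * y g) v⟫_ℂ).re) fun g hg => ?_]
      · rw [mrr, ← sum_apply, ← smul_apply, hmean]
        exact inner_self_eq_norm_sq (𝕜 := ℂ) _
      · rw [mri, ← sum_apply, ← smul_apply, hmean]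
    have hd : (mean s fun g => mean s fun h => d g (y h)) = q := hQ
    have hd' : (mean s fun g => mean s fun h => d' g (y h)) = q := (mean_comm _).trans hQ
    rw [hc, hd, hd']
    push_cast
    nlinarith [ih, sq_nonneg ‖B v‖, (hQ ▸ mul_nonneg (inv_nonneg.2 (Nat.cast_nonneg _))
      (Finset.sum_nonneg fun g _ => mul_nonneg (inv_nonneg.2 (Nat.cast_nonneg _))
        (Finset.sum_nonneg fun h _ => sq_nonneg _)) : (0 : ℝ) ≤ q)]

/-- The mean square of a random sum of conjugates at a vector of the centre. -/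
lemma rs_second {z : H →L[ℂ] H} (hz : z ∈ A) (hz' : z ∈ A.commutant) {x : H →L[ℂ] H} (hx : x ∈ A)
    (m n : ℕ) :
    rs (Γ.G m) (fun g => a g * x * star (a g)) n (fun Z => ‖Z (z ξ)‖ ^ 2) =
      n * ‖x (z ξ)‖ ^ 2 := by
  have hs : (Γ.G m).Nonempty := ⟨1, Γ.one_mem m⟩
  rw [rs_quad hs (by simp) (fun p q => by
    simp only [add_apply, sub_apply]
    nlinarith [parallelogram_law_with_norm ℂ (p (z ξ)) (q (z ξ))]) n,
    mean_congr (v := fun _ => ‖x (z ξ)‖ ^ 2) fun g hg => by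
      rw [hA.norm_conj_vec ⟨m, hg⟩ hx hz hz'],
    mean_const hs]

/-- With a bounded mean of the square the fourth moment is at most five times the square. -/
lemma moments {z : H →L[ℂ] H} (hz : z ∈ A) (hz' : z ∈ A.commutant) {x : H →L[ℂ] H}
    (hx : x ∈ A) (hxs : IsSelfAdjoint x) {c : H →L[ℂ] H} (hc : ∀ v, ‖c v‖ ≤ ‖v‖)
    (hlim : ∀ v, Tendsto (fun m => hA.mid m (x * x) v) atTop (𝓝 (c v)))
    {n : ℕ} (hn : ‖x‖ ^ 4 ≤ n) :
    ‖x (z ξ)‖ ≤ ‖z ξ‖ ∧ ∀ᶠ m in atTop,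
      rs (Γ.G m) (fun g => a g * x * star (a g)) n (fun Z => ‖(Z * Z) (z ξ)‖ ^ 2) ≤
        5 * (n : ℝ) ^ 2 * ‖z ξ‖ ^ 2 := by
  set v := z ξ with hv
  have hx1 : ‖x v‖ ^ 2 ≤ ‖v‖ ^ 2 := by
    have t : Tendsto (fun m => (⟪v, hA.mid m (x * x) v⟫_ℂ).re) atTop (𝓝 ((⟪v, c v⟫_ℂ).re)) :=
      (Complex.continuous_re.tendsto _).comp (tendsto_const_nhds.inner (hlim v))
    have e : ∀ m, (⟪v, hA.mid m (x * x) v⟫_ℂ).re = ‖x v‖ ^ 2 := fun m => by
      have hr := hA.rs_second hz hz' hx m 1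
      simp only [rs, zero_add, zero_sub, neg_apply, norm_neg, add_self_div_two, Nat.cast_one,
        one_mul] at hr
      rw [← hr, mid, avg, smul_apply, sum_apply, inner_smul_right, inner_sum, mean,
        ← Complex.ofReal_natCast, ← Complex.ofReal_inv, Complex.re_ofReal_mul, Complex.re_sum]
      refine congrArg _ (Finset.sum_congr rfl fun g hg => ?_)
      rw [norm_sq_selfAdjoint (hxs.conjugate (a g))]
      congr 3
      simp only [mul_assoc]
      rw [← mul_assoc (star (a g)) (a g), (Unitary.mem_iff.1 (hA.unit_a g ⟨m, hg⟩)).1, one_mul]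
    rw [← tendsto_nhds_unique t (tendsto_const_nhds.congr fun m => (e m).symm)]
    refine (Complex.re_le_norm _).trans ((norm_inner_le_norm _ _).trans ?_)
    rw [sq]
    exact mul_le_mul_of_nonneg_left (hc v) (norm_nonneg _)
  have hx2 : ‖x v‖ ≤ ‖v‖ := by nlinarith [norm_nonneg (x v), norm_nonneg v]
  refine ⟨hx2, ?_⟩
  rcases eq_or_ne v 0 with h0 | h0
  · refine Eventually.of_forall fun m => (hA.rs_fourth hz hz' hx hxs m n).trans (le_of_eq ?_)
    simp [← hv, h0]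
  have t := ((hlim v).norm.pow 2).add (((Complex.continuous_re.tendsto _).comp
    ((tendsto_const_nhds (x := x v)).inner (hlim (x v)))).const_mul 2)
  have hlt : ‖c v‖ ^ 2 + 2 * (⟪x v, c (x v)⟫_ℂ).re < 4 * ‖v‖ ^ 2 := by
    have h1 : (⟪x v, c (x v)⟫_ℂ).re ≤ ‖x v‖ * ‖x v‖ := (Complex.re_le_norm _).trans
      ((norm_inner_le_norm _ _).trans (mul_le_mul_of_nonneg_left (hc _) (norm_nonneg _)))
    nlinarith [pow_le_pow_left₀ (norm_nonneg _) (hc v) 2, norm_pos_iff.2 h0, hx1]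
  filter_upwards [t.eventually (eventually_lt_nhds hlt)] with m hm
  refine (hA.rs_fourth hz hz' hx hxs m n).trans ?_
  simp only [Function.comp_apply] at hm
  have h4 : (n : ℝ) * (‖x‖ ^ 4 * ‖v‖ ^ 2) ≤ (n : ℝ) ^ 2 * ‖v‖ ^ 2 := by
    rw [sq (n : ℝ), mul_assoc]
    exact mul_le_mul_of_nonneg_left (mul_le_mul_of_nonneg_right hn (sq_nonneg _)) (Nat.cast_nonneg n)
  nlinarith [mul_le_mul_of_nonneg_left hm.le (sq_nonneg (n : ℝ))]

end Side

variable {B : VonNeumannAlgebra H}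

/-- A balanced pair: nearly real inner product. -/
lemma im_le_balanced (hA : Side Γ ξ A a b) (hB : Side Γ ξ B b a) {γ : ℝ} (hγ : 0 ≤ γ)
    (hn : ∀ y ∈ B, IsSelfAdjoint y → ∃ d ∈ A.commutant, IsSelfAdjoint d ∧ ‖y - d‖ ≤ γ * ‖y‖)
    {z : H →L[ℂ] H} (hzA : z ∈ A) (hzA' : z ∈ A.commutant) (hzB : z ∈ B) (hzB' : z ∈ B.commutant)
    {x y : H →L[ℂ] H} (hx : x ∈ A) (hxs : IsSelfAdjoint x) (hy : y ∈ B) (hys : IsSelfAdjoint y)
    {cx cy : H →L[ℂ] H} (hcx : ∀ v, ‖cx v‖ ≤ ‖v‖) (hcy : ∀ v, ‖cy v‖ ≤ ‖v‖)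
    (hlx : ∀ v, Tendsto (fun m => hA.mid m (x * x) v) atTop (𝓝 (cx v)))
    (hly : ∀ v, Tendsto (fun m => hB.mid m (y * y) v) atTop (𝓝 (cy v))) {T : ℝ} (hT : 0 < T) :
    (⟪x (z ξ), y (z ξ)⟫_ℂ).im ≤ (T ^ 2 * γ + 3 / T) * ‖z ξ‖ ^ 2 := by
  set v := z ξ with hv
  obtain ⟨n, hn'⟩ := exists_nat_ge (‖x‖ ^ 4 + ‖y‖ ^ 4 + 1)
  have hx4 : (0 : ℝ) ≤ ‖x‖ ^ 4 := by positivity
  have hy4 : (0 : ℝ) ≤ ‖y‖ ^ 4 := by positivity
  obtain ⟨hx2, ex⟩ := hA.moments hzA hzA' hx hxs hcx hlx (n := n) (by linarith)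
  obtain ⟨hy2, ey⟩ := hB.moments hzB hzB' hy hys hcy hly (n := n) (by linarith)
  obtain ⟨m, hmx, hmy⟩ := (ex.and ey).exists
  have hn0 : (0 : ℝ) < n := by linarith
  have hs : (Γ.G m).Nonempty := ⟨1, Γ.one_mem m⟩
  set r := Real.sqrt n with hr
  have hr0 : 0 < r := Real.sqrt_pos.2 hn0
  have hr2 : r ^ 2 = n := Real.sq_sqrt hn0.le
  let w : (H →L[ℂ] H) → (H →L[ℂ] H) × (H →L[ℂ] H) := fun g =>
    (a g * x * star (a g), b g * y * star (b g))
  let P : (H →L[ℂ] H) × (H →L[ℂ] H) → Prop := fun Z =>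
    Z.1 ∈ A ∧ IsSelfAdjoint Z.1 ∧ Z.2 ∈ B ∧ IsSelfAdjoint Z.2
  have hP : ∀ Z, P Z → ∀ g ∈ Γ.G m, P (Z + w g) ∧ P (Z - w g) := by
    intro Z ⟨a1, a2, a3, a4⟩ g hg
    have b1 : a g * x * star (a g) ∈ A :=
      mul_mem (mul_mem (hA.mem g ⟨m, hg⟩) hx) (star_mem (hA.mem g ⟨m, hg⟩))
    have b3 : b g * y * star (b g) ∈ B :=
      mul_mem (mul_mem (hB.mem g ⟨m, hg⟩) hy) (star_mem (hB.mem g ⟨m, hg⟩))
    exact ⟨⟨add_mem a1 b1, a2.add (hxs.conjugate _), add_mem a3 b3, a4.add (hys.conjugate _)⟩,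
      ⟨sub_mem a1 b1, a2.sub (hxs.conjugate _), sub_mem a3 b3, a4.sub (hys.conjugate _)⟩⟩
  have cut : ∀ Z, P Z → (⟪Z.1 v, Z.2 v⟫_ℂ).im ≤ T ^ 2 * γ * n * ‖v‖ ^ 2 +
      1 / (4 * T) * ((n : ℝ)⁻¹ * (‖(Z.1 * Z.1) v‖ ^ 2 + ‖(Z.2 * Z.2) v‖ ^ 2) +
        (‖Z.1 v‖ ^ 2 + ‖Z.2 v‖ ^ 2)) := by
    intro Z ⟨h1, h1s, h2, h2s⟩
    obtain ⟨X', hX', hX's, -, -, hXn, hXv, hXd⟩ :=
      exists_cut A h1 h1s (show 0 < T * r by positivity) v
    obtain ⟨Y', hY', hY's, -, -, hYn, -, hYd⟩ :=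
      exists_cut B h2 h2s (show 0 < T * r by positivity) v
    obtain ⟨d, hd, hds, hdn⟩ := hn Y' hY' hY's
    have hreal : (⟪X' v, d v⟫_ℂ).im = 0 := by
      have e : X' * d = d * X' := VonNeumannAlgebra.mem_commutant_iff.1 hd X' hX'
      have e2 : ⟪X' v, d v⟫_ℂ = ⟪d v, X' v⟫_ℂ := by
        conv_lhs => rw [← hX's.star_eq, ContinuousLinearMap.star_eq_adjoint,
          ContinuousLinearMap.adjoint_inner_left, ← mul_apply_eq_comp, e, mul_apply_eq_comp,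
          ← hds.star_eq, ContinuousLinearMap.star_eq_adjoint,
          ContinuousLinearMap.adjoint_inner_right]
      rw [← Complex.conj_eq_iff_im, inner_conj_symm, e2]
    have e : ⟪Z.1 v, Z.2 v⟫_ℂ = ⟪(Z.1 - X') v, Z.2 v⟫_ℂ + ⟪X' v, (Z.2 - Y') v⟫_ℂ +
        ⟪X' v, (Y' - d) v⟫_ℂ + ⟪X' v, d v⟫_ℂ := by
      simp only [sub_apply, inner_sub_left, inner_sub_right]; ring
    have k1 : (⟪(Z.1 - X') v, Z.2 v⟫_ℂ).im ≤
        1 / (4 * T) * ((n : ℝ)⁻¹ * ‖(Z.1 * Z.1) v‖ ^ 2 + ‖Z.2 v‖ ^ 2) := by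
      refine (Complex.im_le_norm _).trans ((norm_inner_le_norm _ _).trans
        ((mul_le_mul_of_nonneg_right hXd (norm_nonneg _)).trans ?_))
      rw [← hr2]
      field_simp
      nlinarith [sq_nonneg (‖(Z.1 * Z.1) v‖ - r * ‖Z.2 v‖)]
    have k2 : (⟪X' v, (Z.2 - Y') v⟫_ℂ).im ≤
        1 / (4 * T) * ((n : ℝ)⁻¹ * ‖(Z.2 * Z.2) v‖ ^ 2 + ‖Z.1 v‖ ^ 2) := by
      refine (Complex.im_le_norm _).trans ((norm_inner_le_norm _ _).trans
        ((mul_le_mul hXv hYd (norm_nonneg _) (norm_nonneg _)).trans ?_))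
      rw [← hr2]
      field_simp
      nlinarith [sq_nonneg (‖(Z.2 * Z.2) v‖ - r * ‖Z.1 v‖)]
    have k3 : (⟪X' v, (Y' - d) v⟫_ℂ).im ≤ T ^ 2 * γ * n * ‖v‖ ^ 2 := by
      refine (Complex.im_le_norm _).trans ((norm_inner_le_norm _ _).trans ?_)
      calc ‖X' v‖ * ‖(Y' - d) v‖ ≤ (T * r * ‖v‖) * (γ * (T * r) * ‖v‖) := by
            refine mul_le_mul ((X'.le_opNorm v).trans (mul_le_mul_of_nonneg_right ?_ (norm_nonneg v)))
              (((Y' - d).le_opNorm v).trans (mul_le_mul_of_nonneg_right (hdn.trans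
                (mul_le_mul_of_nonneg_left ?_ hγ)) (norm_nonneg v))) (norm_nonneg _)
              (by positivity)
            · linarith [mul_pos hT hr0]
            · linarith [mul_pos hT hr0]
        _ = T ^ 2 * γ * n * ‖v‖ ^ 2 := by rw [← hr2]; ring
    rw [e]
    simp only [Complex.add_im, hreal]
    linarith
  have key := rs_mono (y := w) (s := Γ.G m) (P := P)
    ⟨zero_mem _, .zero _, zero_mem _, .zero _⟩ hP n cut
  simp only [rs_add, rs_const hs, rs_const_mul] at key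
  have hl : rs (Γ.G m) w n (fun Z => (⟪Z.1 v, Z.2 v⟫_ℂ).im) = n * (⟪x v, y v⟫_ℂ).im := by
    rw [rs_quad hs (by simp) (fun p q => by
      simp only [Prod.fst_add, Prod.snd_add, Prod.fst_sub, Prod.snd_sub, add_apply, sub_apply,
        inner_add_left, inner_add_right, inner_sub_left, inner_sub_right, Complex.add_im,
        Complex.sub_im]
      ring) n]
    refine congrArg _ ((mean_congr fun g hg => ?_).trans (mean_const hs _))
    show (⟪(a g * x * star (a g)) v, (b g * y * star (b g)) v⟫_ℂ).im = _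
    have hc : b g * a g = a g * b g :=
      (VonNeumannAlgebra.mem_commutant_iff.1 (hA.memb g ⟨m, hg⟩) _ (hA.mem g ⟨m, hg⟩)).symm
    rw [hv, hA.conj_vec ⟨m, hg⟩ hx hzA hzA', hB.conj_vec ⟨m, hg⟩ hy hzB hzB', hc,
      inner_unitary (hA.unit_ab ⟨m, hg⟩)]
  have f1 := rs_comp (s := Γ.G m) (y := w) (AddMonoidHom.fst _ _) n
    (fun Z : H →L[ℂ] H => ‖(Z * Z) v‖ ^ 2)
  have f2 := rs_comp (s := Γ.G m) (y := w) (AddMonoidHom.snd _ _) n
    (fun Z : H →L[ℂ] H => ‖(Z * Z) v‖ ^ 2)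
  have g1 := rs_comp (s := Γ.G m) (y := w) (AddMonoidHom.fst _ _) n
    (fun Z : H →L[ℂ] H => ‖Z v‖ ^ 2)
  have g2 := rs_comp (s := Γ.G m) (y := w) (AddMonoidHom.snd _ _) n
    (fun Z : H →L[ℂ] H => ‖Z v‖ ^ 2)
  simp only [AddMonoidHom.coe_fst, AddMonoidHom.coe_snd, w] at f1 f2 g1 g2
  rw [hl, f1, f2, g1, g2, hA.rs_second hzA hzA' hx, hB.rs_second hzB hzB' hy] at key
  refine le_of_mul_le_mul_left (key.trans ?_) hn0
  have i1 := add_le_add hmx hmy
  rw [← hv] at i1 ⊢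
  have i2 : (n : ℝ)⁻¹ * (rs (Γ.G m) (fun g => a g * x * star (a g)) n (fun Z => ‖(Z * Z) v‖ ^ 2) +
      rs (Γ.G m) (fun g => b g * y * star (b g)) n (fun Z => ‖(Z * Z) v‖ ^ 2)) ≤
      10 * n * ‖v‖ ^ 2 := by
    rw [inv_mul_le_iff₀ hn0]
    exact i1.trans (le_of_eq (by ring))
  have i3 : (n : ℝ) * ‖x v‖ ^ 2 + n * ‖y v‖ ^ 2 ≤ 2 * n * ‖v‖ ^ 2 := by
    nlinarith [pow_le_pow_left₀ (norm_nonneg _) hx2 2, pow_le_pow_left₀ (norm_nonneg _) hy2 2]
  have h4T : 0 ≤ 1 / (4 * T) := by positivity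
  calc T ^ 2 * γ * n * ‖v‖ ^ 2 + 1 / (4 * T) * _ ≤
        T ^ 2 * γ * n * ‖v‖ ^ 2 + 1 / (4 * T) * (10 * n * ‖v‖ ^ 2 + 2 * n * ‖v‖ ^ 2) :=
        add_le_add le_rfl (mul_le_mul_of_nonneg_left (add_le_add i2 i3) h4T)
    _ = n * ((T ^ 2 * γ + 3 / T) * ‖v‖ ^ 2) := by field_simp; ring

/-- The weight by the mean of the square and its inverse. -/
lemma exists_weight (hA : Side Γ ξ A a b) {x : H →L[ℂ] H} (hx : x ∈ A) (hxs : IsSelfAdjoint x)
    {ε : ℝ} (hε : 0 < ε) :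
    ∃ p q c : H →L[ℂ] H, (p ∈ A ∧ p ∈ A.commutant ∧ 0 ≤ p) ∧ IsSelfAdjoint (x * q) ∧
      x * q ∈ A ∧ x * q * p = x ∧ ‖p ξ‖ ^ 2 ≤ ‖x ξ‖ ^ 2 + ε * ‖ξ‖ ^ 2 ∧
      (∀ v, ‖c v‖ ≤ ‖v‖) ∧
      ∀ v, Tendsto (fun m => hA.mid m (x * q * (x * q)) v) atTop (𝓝 (c v)) := by
  obtain ⟨c, hcA, hcA', hlim⟩ := hA.cent (x * x) (mul_mem hx hx)
  have hlim' : ∀ v, Tendsto (fun m => hA.mid m (x * x) v) atTop (𝓝 (c v)) := hlim
  have hsa : ∀ m, IsSelfAdjoint (hA.mid m (x * x)) := fun m => by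
    rw [IsSelfAdjoint, Side.mid, avg, star_smul, star_sum, star_inv₀, star_natCast]
    congr 1
    refine Finset.sum_congr rfl fun g _ => ?_
    simp only [star_mul, star_star, hxs.star_eq, mul_assoc]
  have hpos : 0 ≤ c := by
    rw [ContinuousLinearMap.nonneg_iff_isPositive, ContinuousLinearMap.isPositive_def']
    refine ⟨(ContinuousLinearMap.isSelfAdjoint_iff_isSymmetric).2 fun u v => ?_, fun v => ?_⟩
    · exact tendsto_nhds_unique ((hlim' u).inner tendsto_const_nhds)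
        ((tendsto_const_nhds.inner (hlim' v)).congr fun m =>
          ((ContinuousLinearMap.isSelfAdjoint_iff_isSymmetric).1 (hsa m) u v).symm)
    · refine ge_of_tendsto ((Complex.continuous_re.tendsto _).comp
        ((hlim' v).inner (tendsto_const_nhds (x := v)))) (Eventually.of_forall fun m => ?_)
      show 0 ≤ (⟪hA.mid m (x * x) v, v⟫_ℂ).re
      rw [Side.mid, avg, smul_apply, sum_apply, inner_smul_left, sum_inner, map_inv₀, map_natCast,
        ← Complex.ofReal_natCast, ← Complex.ofReal_inv, Complex.re_ofReal_mul, Complex.re_sum]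
      refine mul_nonneg (by positivity) (Finset.sum_nonneg fun g hg => ?_)
      rw [show a g * (x * x) * star (a g) = star (x * star (a g)) * (x * star (a g)) by
        simp only [star_mul, star_star, hxs.star_eq, mul_assoc], mul_apply_eq_comp,
        ContinuousLinearMap.star_eq_adjoint, ContinuousLinearMap.adjoint_inner_left]
      exact inner_self_nonneg (𝕜 := ℂ)
  set u : ℝ → ℝ := fun r => Real.sqrt (max r 0 + ε) with hu
  have hu0 : ∀ r, 0 < max r 0 + ε := fun r => by positivity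
  have huc : Continuous u := Real.continuous_sqrt.comp (by fun_prop)
  have hune : ∀ r, u r ≠ 0 := fun r => (Real.sqrt_pos.2 (hu0 r)).ne'
  have hui : Continuous fun r => (u r)⁻¹ := huc.inv₀ hune
  set p := cfc u c with hp
  set q := cfc (fun r => (u r)⁻¹) c with hq
  have hcomm : ∀ w : H →L[ℂ] H, w * c = c * w → ∀ f : ℝ → ℝ, w * cfc f c = cfc f c * w :=
    fun w hw f => ((show Commute c w from hw.symm).cfc_real f).eq.symm
  have hmemA : ∀ f : ℝ → ℝ, cfc f c ∈ A ∧ cfc f c ∈ A.commutant := fun f =>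
    ⟨cfc_mem hcA f, cfc_mem hcA' f⟩
  have hqp : q * p = 1 := by
    rw [hq, hp, ← cfc_mul _ _ c hui.continuousOn huc.continuousOn,
      ← cfc_const_one ℝ c (ha := hpos.isSelfAdjoint)]
    exact cfc_congr fun r _ => inv_mul_cancel₀ (hune r)
  have hxq : q * x = x * q :=
    (VonNeumannAlgebra.mem_commutant_iff.1 (hmemA _).2 x hx).symm
  refine ⟨p, q, c * (q * q), ⟨(hmemA _).1, (hmemA _).2, cfc_nonneg fun r _ => Real.sqrt_nonneg _⟩,
    ?_, mul_mem hx (hmemA _).1, by rw [mul_assoc, hqp, mul_one], ?_, fun v => ?_, fun v => ?_⟩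
  · have hqs : IsSelfAdjoint q := cfc_predicate _ c
    rw [IsSelfAdjoint, star_mul, hqs.star_eq, hxs.star_eq, hxq]
  · have e : p * p = c + (ε : ℂ) • (1 : H →L[ℂ] H) := by
      rw [hp, ← cfc_mul u u c huc.continuousOn huc.continuousOn]
      rw [cfc_congr (g := fun r => r + ε) fun r hr => ?_]
      · rw [cfc_add_const ε (fun r => r) c (ha := hpos.isSelfAdjoint),
          cfc_id' ℝ c (ha := hpos.isSelfAdjoint), Algebra.algebraMap_eq_smul_one,
          Complex.coe_smul]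
      · rw [hu, Real.mul_self_sqrt (hu0 r).le, max_eq_left (spectrum_nonneg_of_nonneg hpos hr)]
    have hps : IsSelfAdjoint p := cfc_predicate _ c
    rw [norm_sq_selfAdjoint hps, e, add_apply, inner_add_right, Complex.add_re, smul_apply,
      one_apply_eq_self, inner_smul_right, Complex.re_ofReal_mul]
    refine add_le_add ?_ (le_of_eq ?_)
    · refine le_of_eq (tendsto_nhds_unique
        (((Complex.continuous_re.tendsto _).comp (tendsto_const_nhds.inner (hlim' ξ))))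
        (tendsto_const_nhds.congr fun m => ?_))
      show _ = (⟪ξ, hA.mid m (x * x) ξ⟫_ℂ).re
      rw [Side.mid, avg, smul_apply, sum_apply, inner_smul_right, inner_sum,
        ← Complex.ofReal_natCast, ← Complex.ofReal_inv, Complex.re_ofReal_mul, Complex.re_sum]
      rw [eq_inv_mul_iff_mul_eq₀ (Nat.cast_ne_zero.2 (Finset.card_pos.2 ⟨1, Γ.one_mem m⟩).ne')]
      rw [Finset.sum_congr rfl (g := fun _ => ‖x ξ‖ ^ 2) fun g hg => ?_, Finset.sum_const,
        nsmul_eq_mul]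
      rw [show a g * (x * x) * star (a g) = star (x * star (a g)) * (x * star (a g)) by
        simp only [star_mul, star_star, hxs.star_eq, mul_assoc], mul_apply_eq_comp,
        ContinuousLinearMap.star_eq_adjoint, ContinuousLinearMap.adjoint_inner_right]
      refine (inner_self_eq_norm_sq (𝕜 := ℂ) _).trans ?_
      rw [mul_apply_eq_comp, ← hA.fix g ⟨m, hg⟩, ← mul_apply_eq_comp x (b g),
        hA.comm_ab ⟨m, hg⟩ hx, mul_apply_eq_comp, norm_unitary (hA.unit_b g ⟨m, hg⟩)]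
    · exact congrArg _ (inner_self_eq_norm_sq (𝕜 := ℂ) ξ)
  · refine (ContinuousLinearMap.le_of_opNorm_le _ ?_ v).trans_eq (one_mul _)
    rw [hq, ← cfc_mul _ _ c hui.continuousOn hui.continuousOn]
    nth_rewrite 1 [← cfc_id' ℝ c (ha := hpos.isSelfAdjoint)]
    rw [← cfc_mul (fun r => r) (fun r => (u r)⁻¹ * (u r)⁻¹) c continuousOn_id
      (hui.mul hui).continuousOn]
    refine norm_cfc_le zero_le_one fun r hr => ?_
    have h0 := spectrum_nonneg_of_nonneg hpos hr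
    rw [Real.norm_eq_abs, hu, ← mul_inv, Real.mul_self_sqrt (hu0 r).le, max_eq_left h0,
      abs_of_nonneg (by positivity), ← div_eq_mul_inv, div_le_one (by linarith)]
    linarith
  · have e : ∀ m, hA.mid m (x * q * (x * q)) = hA.mid m (x * x) * (q * q) := fun m => by
      rw [Side.mid, Side.mid, avg, avg, smul_mul_assoc, Finset.sum_mul]
      congr 1
      refine Finset.sum_congr rfl fun g hg => ?_
      have hq1 : q * star (a g) = star (a g) * q :=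
        (VonNeumannAlgebra.mem_commutant_iff.1 (hmemA _).2 _ (star_mem (hA.mem g ⟨m, hg⟩))).symm
      calc a g * (x * q * (x * q)) * star (a g)
          = a g * (x * (q * x)) * (q * star (a g)) := by simp only [mul_assoc]
        _ = a g * (x * (x * q)) * (star (a g) * q) := by rw [hxq, hq1]
        _ = a g * (x * x) * (q * star (a g)) * q := by simp only [mul_assoc]
        _ = a g * (x * x) * (star (a g) * q) * q := by rw [hq1]
        _ = a g * (x * x) * star (a g) * (q * q) := by simp only [mul_assoc]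
    simp only [e, mul_apply_eq_comp]
    exact hlim' _

/-- CLIP: self-adjoint vectors of `A` and of `B` have nearly real inner products. -/
theorem im_le (hA : Side Γ ξ A a b) (hB : Side Γ ξ B b a) {γ : ℝ} (hγ : 0 ≤ γ)
    (hn : ∀ y ∈ B, IsSelfAdjoint y → ∃ d ∈ A.commutant, IsSelfAdjoint d ∧ ‖y - d‖ ≤ γ * ‖y‖)
    (hZ : ∀ z, (z ∈ A ∧ z ∈ A.commutant) ↔ (z ∈ B ∧ z ∈ B.commutant))
    {x y : H →L[ℂ] H} (hx : x ∈ A) (hxs : IsSelfAdjoint x) (hy : y ∈ B) (hys : IsSelfAdjoint y)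
    {T : ℝ} (hT : 0 < T) :
    |(⟪x ξ, y ξ⟫_ℂ).im| ≤ (T ^ 2 * γ + 3 / T) * (‖x ξ‖ * ‖y ξ‖) := by
  have main : ∀ x ∈ A, IsSelfAdjoint x → ∀ ε : ℝ, 0 < ε → (⟪x ξ, y ξ⟫_ℂ).im ≤
      (T ^ 2 * γ + 3 / T) * (Real.sqrt (‖x ξ‖ ^ 2 + ε * ‖ξ‖ ^ 2) *
        Real.sqrt (‖y ξ‖ ^ 2 + ε * ‖ξ‖ ^ 2)) := by
    intro x hx hxs ε hε
    obtain ⟨px, qx, cx, ⟨hpxA, hpxA', hpx0⟩, hXs, hX, hXe, hpxn, hcx, hlx⟩ :=
      exists_weight hA hx hxs hε
    obtain ⟨py, qy, cy, ⟨hpyB, hpyB', hpy0⟩, hYs, hY, hYe, hpyn, hcy, hly⟩ :=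
      exists_weight hB hy hys hε
    obtain ⟨hpyA, hpyA'⟩ := (hZ py).2 ⟨hpyB, hpyB'⟩
    obtain ⟨hpxB, hpxB'⟩ := (hZ px).1 ⟨hpxA, hpxA'⟩
    have hpp : Commute px py := VonNeumannAlgebra.mem_commutant_iff.1 hpyA' px hpxA
    have hprod : 0 ≤ px * py := Commute.mul_nonneg hpx0 hpy0 hpp
    set z := cfc Real.sqrt (px * py) with hz
    have hzA := cfc_mem (mul_mem hpxA hpyA) Real.sqrt
    have hzA' := cfc_mem (mul_mem hpxA' hpyA') Real.sqrt
    obtain ⟨hzB, hzB'⟩ := (hZ z).1 ⟨hzA, hzA'⟩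
    have hzs : IsSelfAdjoint z := cfc_predicate _ _
    have hzz : z * z = px * py := by
      rw [hz, ← cfc_mul _ _ _ Real.continuous_sqrt.continuousOn Real.continuous_sqrt.continuousOn]
      conv_rhs => rw [← cfc_id' ℝ (px * py) (ha := hprod.isSelfAdjoint)]
      exact cfc_congr fun r hr => Real.mul_self_sqrt (spectrum_nonneg_of_nonneg hprod hr)
    have key := im_le_balanced hA hB hγ hn hzA hzA' hzB hzB' hX hXs hY hYs hcx hcy hlx hly hT
    have hcl : ∀ (s : H →L[ℂ] H), IsSelfAdjoint s → ∀ u w, ⟪s u, w⟫_ℂ = ⟪u, s w⟫_ℂ :=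
      fun s hs u w => (ContinuousLinearMap.isSelfAdjoint_iff_isSymmetric.1 hs) u w
    have hinner : ⟪(x * qx) (z ξ), (y * qy) (z ξ)⟫_ℂ = ⟪x ξ, y ξ⟫_ℂ := by
      have cX : ∀ w ∈ A.commutant, w * (x * qx) = (x * qx) * w := fun w hw =>
        (VonNeumannAlgebra.mem_commutant_iff.1 hw _ hX).symm
      have cY : ∀ w ∈ B.commutant, w * (y * qy) = (y * qy) * w := fun w hw =>
        (VonNeumannAlgebra.mem_commutant_iff.1 hw _ hY).symm
      have exX : x ξ = (x * qx) (px ξ) := by rw [← mul_apply_eq_comp, hXe]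
      have exY : y ξ = (y * qy) (py ξ) := by rw [← mul_apply_eq_comp, hYe]
      rw [exX, exY]
      generalize x * qx = X, y * qy = Y at cX cY ⊢
      calc ⟪X (z ξ), Y (z ξ)⟫_ℂ = ⟪z (X ξ), z (Y ξ)⟫_ℂ := by
            rw [← mul_apply_eq_comp X, ← cX z hzA', ← mul_apply_eq_comp Y, ← cY z hzB',
              mul_apply_eq_comp, mul_apply_eq_comp]
        _ = ⟪X ξ, (px * py) (Y ξ)⟫_ℂ := by rw [hcl z hzs, ← mul_apply_eq_comp z z, hzz]
        _ = ⟪px (X ξ), py (Y ξ)⟫_ℂ := by rw [mul_apply_eq_comp, hcl px hpx0.isSelfAdjoint]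
        _ = ⟪X (px ξ), Y (py ξ)⟫_ℂ := by
            rw [← mul_apply_eq_comp px, cX px hpxA', ← mul_apply_eq_comp py, cY py hpyB',
              mul_apply_eq_comp, mul_apply_eq_comp]
    rw [hinner] at key
    refine key.trans (mul_le_mul_of_nonneg_left ?_ (by positivity))
    calc ‖z ξ‖ ^ 2 = (⟪px ξ, py ξ⟫_ℂ).re := by
          rw [norm_sq_selfAdjoint hzs, hzz, mul_apply_eq_comp, hcl px hpx0.isSelfAdjoint]
      _ ≤ ‖px ξ‖ * ‖py ξ‖ := (Complex.re_le_norm _).trans (norm_inner_le_norm _ _)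
      _ ≤ _ := mul_le_mul (Real.le_sqrt_of_sq_le hpxn) (Real.le_sqrt_of_sq_le hpyn)
          (norm_nonneg _) (Real.sqrt_nonneg _)
  have lim : ∀ x ∈ A, IsSelfAdjoint x →
      (⟪x ξ, y ξ⟫_ℂ).im ≤ (T ^ 2 * γ + 3 / T) * (‖x ξ‖ * ‖y ξ‖) := by
    intro x hx hxs
    have hc : Continuous fun ε : ℝ => (T ^ 2 * γ + 3 / T) *
        (Real.sqrt (‖x ξ‖ ^ 2 + ε * ‖ξ‖ ^ 2) * Real.sqrt (‖y ξ‖ ^ 2 + ε * ‖ξ‖ ^ 2)) := by
      fun_prop
    have ht := (hc.tendsto 0).mono_left (nhdsWithin_le_nhds (s := Set.Ioi 0))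
    simp only [zero_mul, add_zero, Real.sqrt_sq (norm_nonneg _)] at ht
    exact ge_of_tendsto ht (eventually_nhdsWithin_of_forall fun ε hε => main x hx hxs ε hε)
  have h1 := lim x hx hxs
  have h2 := lim (-x) (neg_mem hx) hxs.neg
  simp only [neg_apply, inner_neg_left, Complex.neg_im, norm_neg] at h2
  exact abs_le.2 ⟨by linarith, h1⟩

end Vale.Agent.P096.Three.Flow.Clip
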