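import Vale.Agent.P096.Three.Index
import Vale.Agent.P096.Three.Flow.Band

/-!
P096, type III, flow: the stabilised flows of any two flows have common shifts, the rank one operators
from the rest state to the first level of a far site.
-/

open scoped InnerProductSpace
open Filter Topology

namespace Vale.Agent.P096.Three.Flow

variable {H : Type} [NormedAddCommGroup H] [InnerProductSpace ℂ H] [CompleteSpace H]

/-- The raising operator of a site. -/
noncomputable def shiftUp (n : ℕ) : AmbH H →L[ℂ] AmbH H :=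
  Cent.siteOp n (Matrix.single (1 : Fin 4) (0 : Fin 4) (1 : ℂ))

lemma level_update {n : ℕ} {i : Idx} (h : i n = 1) :
    level i = level (i.update n 0) + siteGap n := by
  have hn : n ∈ i.support := Finsupp.mem_support_iff.2 (by rw [h]; decide)
  have hs : (i.update n 0).support = i.support.erase n := by
    ext m; rcases eq_or_ne m n with rfl | hm <;> simp [*]
  rw [level, level, hs, ← Finset.sum_erase_add _ _ hn]
  congr 1
  · refine Finset.sum_congr rfl fun m hm => ?_
    rw [Finsupp.update_apply, if_neg (Finset.ne_of_mem_erase hm)]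
  · simp [siteLevel, h]

lemma shiftUp_ambU (U : ℝ → H →L[ℂ] H) (n : ℕ) (t : ℝ) :
    ambU U t * shiftUp n =
      Complex.exp ((siteGap n * t : ℝ) * Complex.I) • (shiftUp n * ambU U t) := by
  refine ContinuousLinearMap.ext fun f => lp.ext (funext fun i => ?_)
  rw [smul_apply, lp.coeFn_smul, Pi.smul_apply]
  simp only [ambU, shiftUp, mul_apply_eq_comp, Cent.diagOp_apply, Cent.siteOp_apply,
    Cent.ten_apply, map_sum, map_smul, Finset.smul_sum, smul_smul]
  refine Finset.sum_congr rfl fun k _ => ?_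
  by_cases h : i n = 1 ∧ k = 0
  · obtain ⟨h, rfl⟩ := h
    congr 1
    rw [level_update h, h, Matrix.single_apply_same, mul_one, one_mul, ← Complex.exp_add]
    congr 1
    push_cast
    ring
  · have h0 : Matrix.single (1 : Fin 4) (0 : Fin 4) (1 : ℂ) (i n) k = 0 :=
      Matrix.single_apply_of_ne _ _ _ _ _ (fun ⟨a, b⟩ => h ⟨a.symm, b.symm⟩)
    simp [h0]

lemma norm_shiftUp (n : ℕ) : ‖(shiftUp n : AmbH H →L[ℂ] AmbH H)‖ ≤ 1 := by
  set p := star (shiftUp (H := H) n) * shiftUp n with hp
  have hp2 : star p * p = p := by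
    simp only [hp, shiftUp, Cent.star_siteOp, Cent.siteOp_mul,
      Matrix.conjTranspose_single, star_one, Matrix.single_mul_single_same, one_mul]
  have h1 : ‖p‖ * ‖p‖ = ‖p‖ := by rw [← CStarRing.norm_star_mul_self, hp2]
  have h2 : ‖p‖ ≤ 1 := by nlinarith [norm_nonneg p]
  have h3 : ‖p‖ = ‖shiftUp (H := H) n‖ * ‖shiftUp (H := H) n‖ := CStarRing.norm_star_mul_self
  nlinarith [norm_nonneg (shiftUp (H := H) n)]

lemma norm_shiftUp_atRest {n : ℕ} {v : AmbH H} (hv : Cent.AtRest n v) :
    ‖shiftUp n v‖ = ‖v‖ := by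
  refine (sq_eq_sq₀ (norm_nonneg _) (norm_nonneg _)).1 ?_
  rw [← @inner_self_eq_norm_sq ℂ, ← @inner_self_eq_norm_sq ℂ]
  congr 1
  rw [← ContinuousLinearMap.adjoint_inner_right, ← ContinuousLinearMap.star_eq_adjoint,
    ← mul_apply_eq_comp, shiftUp, Cent.star_siteOp, Cent.siteOp_mul, Matrix.conjTranspose_single,
    star_one, Matrix.single_mul_single_same, one_mul, Cent.inner_siteOp_atRest hv,
    Matrix.single_apply_same, one_mul]

/-- Common shifts of two stabilised flows. -/
theorem hasShifts_amb (U U' : ℝ → H →L[ℂ] H) : HasShifts (ambU U) (ambU U') := by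
  refine ⟨Set.range fun i => -2 * Real.log (Cent.famRatio i), ?_, ?_⟩
  · refine Metric.dense_iff.2 fun q ε hε => ?_
    have hκ : 0 < Real.exp (-q / 2) := Real.exp_pos _
    have hc : ContinuousAt (fun r => -2 * Real.log r) (Real.exp (-q / 2)) :=
      continuousAt_const.mul (Real.continuousAt_log hκ.ne')
    obtain ⟨δ, hδ, hb⟩ := Metric.continuousAt_iff.1 hc ε hε
    obtain ⟨i, hi⟩ := Cent.famW_levels _ hκ δ hδ
    rw [Cent.famW_ratio] at hi
    have := hb (x := Cent.famRatio i) (by rwa [Real.dist_eq])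
    rw [Real.log_exp, show -2 * (-q / 2) = q by ring] at this
    exact ⟨_, this, i, rfl⟩
  · rintro _ ⟨i, rfl⟩
    have hgap : ∀ j, siteGap (Nat.pair i j) = -2 * Real.log (Cent.famRatio i) := fun j => by
      simp only [siteGap, Cent.siteW, Nat.unpair_pair]
      rw [← inv_div, Real.log_inv, Cent.famW_ratio]
      ring
    refine ⟨fun j => shiftUp (Nat.pair i j), fun j t => ?_, fun j t => ?_, fun v => ?_⟩
    · simp only [← hgap j]; exact shiftUp_ambU U _ t
    · simp only [← hgap j]; exact shiftUp_ambU U' _ t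
    refine Metric.tendsto_atTop.2 fun ε hε => ?_
    obtain ⟨w, hw, hwv⟩ := Metric.mem_closure_iff.1
      (Cent.dense_locVecs (H := H) v) (ε / 2) (by positivity)
    rw [dist_eq_norm] at hwv
    obtain ⟨N₀, hN₀⟩ := eventually_atTop.1 (hw : ∀ᶠ m in atTop, Cent.AtRest m w)
    refine ⟨N₀, fun j hj => ?_⟩
    have h0 := norm_shiftUp_atRest (hN₀ _ (hj.trans (Nat.right_le_pair i j)))
    have h1 : |‖shiftUp (Nat.pair i j) v‖ - ‖shiftUp (Nat.pair i j) w‖| ≤ ‖v - w‖ := by
      refine (abs_norm_sub_norm_le _ _).trans ?_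
      rw [← map_sub]
      exact ((shiftUp (H := H) (Nat.pair i j)).le_opNorm (v - w)).trans
        (mul_le_of_le_one_left (norm_nonneg _) (norm_shiftUp (Nat.pair i j)))
    have h2 : |‖v‖ - ‖w‖| ≤ ‖v - w‖ := abs_norm_sub_norm_le _ _
    rw [h0] at h1
    rw [Real.dist_eq]
    calc |‖shiftUp (Nat.pair i j) v‖ - ‖v‖| ≤
          |‖shiftUp (Nat.pair i j) v‖ - ‖w‖| + |‖w‖ - ‖v‖| := abs_sub_le _ _ _
      _ < ε := by rw [abs_sub_comm ‖w‖]; linarith

end Vale.Agent.P096.Three.Flow
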