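import Vale.Agent.P096.Three.Flow.Bridge
import Vale.Agent.P096.Three.Flow.Shifts
import Vale.Agent.P096.Near

/-!
P096, type III, flow: the stabilisations of a close fitting pair satisfy the hypotheses of the mean
estimate. The averages over the pins tend into the centre for all four algebras, and the operator `R`
of any modular data is the one of the real subspace.
-/

open scoped InnerProductSpace
open Filter Topology
open Vale.Agent.P096.Full.Reduce
open TopologicalSpace (SeparableSpace)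
open Vale.Agent.P132.TypeThree (StdData)
open Vale.Agent.P132.Tomita (CycSep Modular opR)

namespace Vale.Agent.P096.Three.Flow

variable {H : Type} [NormedAddCommGroup H] [InnerProductSpace ℂ H] [CompleteSpace H]

omit [CompleteSpace H] in
/-- Bounded operators converging on a dense set converge everywhere. -/
lemma exists_lim {a : ℕ → H →L[ℂ] H} {c : ℝ} (ha : ∀ n, ‖a n‖ ≤ c) [CompleteSpace H] {D : Set H}
    (hD : Dense D) {K : Set H} (hK : IsClosed K)
    (h : ∀ w ∈ D, ∃ k ∈ K, Tendsto (fun n => a n w) atTop (𝓝 k)) (v : H) :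
    ∃ k ∈ K, Tendsto (fun n => a n v) atTop (𝓝 k) := by
  have hc : 0 ≤ c := (norm_nonneg _).trans (ha 0)
  have hb : ∀ n u, ‖a n u‖ ≤ c * ‖u‖ := fun n u =>
    ((a n).le_opNorm u).trans (mul_le_mul_of_nonneg_right (ha n) (norm_nonneg _))
  have hcau : CauchySeq fun n => a n v := by
    refine Metric.cauchySeq_iff.2 fun ε hε => ?_
    obtain ⟨w, hw, hwv⟩ := Metric.mem_closure_iff.1 (hD v) (ε / (4 * (c + 1))) (by positivity)
    rw [dist_eq_norm] at hwv
    have hwv' : c * ‖v - w‖ ≤ ε / 4 := by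
      refine (mul_le_mul (le_add_of_nonneg_right zero_le_one) hwv.le (norm_nonneg _)
        (by positivity)).trans (le_of_eq ?_)
      field_simp
    obtain ⟨k, -, hk⟩ := h w hw
    obtain ⟨N, hN⟩ := Metric.cauchySeq_iff.1 hk.cauchySeq (ε / 4) (by positivity)
    refine ⟨N, fun m hm n hn => ?_⟩
    have h3 := hN m hm n hn
    rw [dist_eq_norm] at h3 ⊢
    have h1 := hb m (v - w)
    have h2 := hb n (v - w)
    rw [map_sub] at h1 h2
    calc ‖a m v - a n v‖ = ‖(a m v - a m w) + (a m w - a n w) - (a n v - a n w)‖ := by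
          congr 1; abel
      _ ≤ ‖a m v - a m w‖ + ‖a m w - a n w‖ + ‖a n v - a n w‖ :=
          (norm_sub_le _ _).trans (add_le_add (norm_add_le _ _) le_rfl)
      _ < ε := by linarith
  obtain ⟨l, hl⟩ := cauchySeq_tendsto_of_complete hcau
  refine ⟨l, ?_, hl⟩
  by_contra hlK
  obtain ⟨ε, hε, hball⟩ := Metric.isOpen_iff.1 hK.isOpen_compl l hlK
  obtain ⟨w, hw, hwv⟩ := Metric.mem_closure_iff.1 (hD v) (ε / (c + 1)) (by positivity)
  rw [dist_eq_norm, lt_div_iff₀ (by positivity)] at hwv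
  obtain ⟨k, hk, hk'⟩ := h w hw
  refine hball ?_ hk
  rw [Metric.mem_ball, dist_eq_norm]
  refine lt_of_le_of_lt (le_of_tendsto' ((hk'.sub hl).norm) fun n => ?_) hwv
  rw [← map_sub, norm_sub_rev v w]
  refine (hb n (w - v)).trans ?_
  nlinarith [norm_nonneg (w - v)]

/-- The vectors of the centre. -/
def centreVecs (M : VonNeumannAlgebra H) (η : H) : Set H :=
  closure {v | ∃ z, (z ∈ M ∧ z ∈ M.commutant) ∧ z η = v}

/-- The means of the pins times their mirrors tend into the vectors of the centre. -/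
lemma avg_pair_tendsto {M : VonNeumannAlgebra H} {η : H} (P : Pinned M η)
    (hd : Dense {v : H | ∃ x ∈ M, x η = v}) (v : H) :
    ∃ k ∈ centreVecs M η,
      Tendsto (fun m => avg P.Γ m (fun g => g * P.r g) v) atTop (𝓝 k) := by
  refine exists_lim (a := fun m => avg P.Γ m fun g => g * P.r g) (c := 1)
    (fun m => norm_avg_le fun g hg => norm_le_one (mul_mem (P.Γ.mem_unitary m g hg)
      (P.r_unitary g ⟨m, hg⟩))) hd isClosed_closure ?_ v
  rintro _ ⟨y, hy, rfl⟩
  obtain ⟨z, hz, hz', hlim⟩ := P.central y hy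
  refine ⟨z η, subset_closure ⟨z, ⟨hz, hz'⟩, rfl⟩, (hlim η).congr fun m => ?_⟩
  simp only [avg, smul_apply, sum_apply]
  congr 1
  refine Finset.sum_congr rfl fun g hg => ?_
  rw [mul_apply_eq_comp, mul_apply_eq_comp, mul_apply_eq_comp, ← P.r_ξ g ⟨m, hg⟩,
    ← mul_apply_eq_comp y, VonNeumannAlgebra.mem_commutant_iff.1 (P.r_mem g ⟨m, hg⟩) y hy,
    mul_apply_eq_comp]

/-- The averages in any algebra with the same centre, over copies of the pins inside with copies of
the mirrors in the commutant, tend into the centre. -/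
theorem central_of_pair {M A : VonNeumannAlgebra H} {η : H} (P : Pinned M η)
    (hM : Dense {v : H | ∃ x ∈ M, x η = v}) (hA : Dense {v : H | ∃ y ∈ A.commutant, y η = v})
    (hc : ∀ z, (z ∈ M ∧ z ∈ M.commutant) ↔ (z ∈ A ∧ z ∈ A.commutant))
    {a b : (H →L[ℂ] H) → (H →L[ℂ] H)} (ha : ∀ g ∈ P.Γ.carrier, a g ∈ A)
    (hau : ∀ g ∈ P.Γ.carrier, a g ∈ unitary (H →L[ℂ] H))
    (hb : ∀ g ∈ P.Γ.carrier, b g ∈ A.commutant)
    (hab : ∀ g ∈ P.Γ.carrier, a g * b g = g * P.r g)
    (hfix : ∀ g ∈ P.Γ.carrier, b g η = star (a g) η) :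
    ∀ x ∈ A, ∃ z ∈ A, z ∈ A.commutant ∧
      ∀ v, Tendsto (fun m => avg P.Γ m (fun g => a g * x * star (a g)) v) atTop (𝓝 (z v)) := by
  have main : ∀ x ∈ A, ∃ z ∈ A, z η ∈ centreVecs M η ∧
      ∀ v, Tendsto (fun m => avg P.Γ m (fun g => a g * x * star (a g)) v) atTop (𝓝 (z v)) := by
    intro x hx
    set T : ℕ → H →L[ℂ] H := fun m => avg P.Γ m (fun g => a g * x * star (a g)) with hT
    have hTn : ∀ m, ‖T m‖ ≤ ‖x‖ := fun m => norm_avg_le fun g hg => by
      have hu := norm_le_one (hau g ⟨m, hg⟩)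
      refine (norm_mul_le _ _).trans ?_
      rw [norm_star]
      exact (mul_le_of_le_one_right (norm_nonneg _) hu).trans
        ((norm_mul_le _ _).trans (mul_le_of_le_one_left (norm_nonneg _) hu))
    have hTA : ∀ m, T m ∈ A := fun m =>
      SMulMemClass.smul_mem (s := A.toStarSubalgebra) _ (sum_mem fun g hg =>
        show a g * x * star (a g) ∈ A from
          mul_mem (mul_mem (ha g ⟨m, hg⟩) hx) (star_mem (ha g ⟨m, hg⟩)))
    obtain ⟨k, hk, hkl⟩ := avg_pair_tendsto P hM (x η)
    have hη : Tendsto (fun m => T m η) atTop (𝓝 k) := hkl.congr fun m => by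
      simp only [hT, avg, smul_apply, sum_apply]
      congr 1
      refine Finset.sum_congr rfl fun g hg => ?_
      rw [← hab g ⟨m, hg⟩, mul_apply_eq_comp, mul_apply_eq_comp, mul_apply_eq_comp,
        ← hfix g ⟨m, hg⟩, ← mul_apply_eq_comp x,
        VonNeumannAlgebra.mem_commutant_iff.1 (hb g ⟨m, hg⟩) x hx, mul_apply_eq_comp]
    have hall : ∀ v, ∃ l ∈ (Set.univ : Set H), Tendsto (fun m => T m v) atTop (𝓝 l) := by
      refine exists_lim hTn hA isClosed_univ ?_
      rintro _ ⟨y, hy, rfl⟩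
      refine ⟨y k, trivial, ((y.continuous.tendsto k).comp hη).congr fun m => ?_⟩
      rw [Function.comp_apply, ← mul_apply_eq_comp,
        ← VonNeumannAlgebra.mem_commutant_iff.1 hy _ (hTA m), mul_apply_eq_comp]
    choose f _ hf using hall
    let z : H →L[ℂ] H := continuousLinearMapOfTendsto (fun m => T m) (f := f)
      (tendsto_pi_nhds.2 hf)
    have hzf : ∀ v, Tendsto (fun m => T m v) atTop (𝓝 (z v)) := hf
    refine ⟨z, ?_, by rw [tendsto_nhds_unique (hzf η) hη]; exact hk, hzf⟩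
    rw [← VonNeumannAlgebra.commutant_commutant A, VonNeumannAlgebra.mem_commutant_iff]
    intro y hy
    ext v
    refine tendsto_nhds_unique ((y.continuous.tendsto _).comp (hzf v))
      ((hzf (y v)).congr fun m => ?_)
    rw [Function.comp_apply, ← mul_apply_eq_comp,
      VonNeumannAlgebra.mem_commutant_iff.1 hy _ (hTA m), mul_apply_eq_comp]
  intro x hx
  obtain ⟨z, hz, -, hzl⟩ := main x hx
  refine ⟨z, hz, ?_, hzl⟩
  obtain ⟨w, -, hwη, hwl⟩ := main (star x) (star_mem hx)
  have hadj : ∀ u v, ⟪w u, v⟫_ℂ = ⟪u, z v⟫_ℂ := fun u v => by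
    refine tendsto_nhds_unique ((hwl u).inner tendsto_const_nhds)
      ((tendsto_const_nhds.inner (hzl v)).congr fun m => ?_)
    rw [← ContinuousLinearMap.adjoint_inner_left, ← ContinuousLinearMap.star_eq_adjoint]
    congr 2
    simp only [avg, star_smul, star_sum, star_mul, star_star, star_inv₀, star_natCast, mul_assoc]
  obtain ⟨u, hu, hul⟩ := mem_closure_iff_seq_limit.1 hwη
  choose d hd hdu using hu
  have hdl : Tendsto (fun n => d n η) atTop (𝓝 (w η)) := by simpa only [hdu] using hul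
  obtain ⟨k, hk⟩ : ∃ k, Tendsto (fun n => star (d n) η) atTop (𝓝 k) := by
    refine cauchySeq_tendsto_of_complete (Metric.cauchySeq_iff.2 fun ε hε => ?_)
    obtain ⟨N, hN⟩ := Metric.cauchySeq_iff.1 hdl.cauchySeq ε hε
    refine ⟨N, fun m hm n hn => lt_of_eq_of_lt ?_ (hN m hm n hn)⟩
    rw [dist_eq_norm, dist_eq_norm, ← sub_apply, ← sub_apply, ← star_sub]
    set e := d m - d n
    have he : e * star e = star e * e :=
      VonNeumannAlgebra.mem_commutant_iff.1 (star_mem (sub_mem (hd m).2 (hd n).2)) e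
        (sub_mem (hd m).1 (hd n).1)
    refine (sq_eq_sq₀ (norm_nonneg _) (norm_nonneg _)).1 ?_
    rw [← @inner_self_eq_norm_sq ℂ, ← @inner_self_eq_norm_sq ℂ,
      ContinuousLinearMap.star_eq_adjoint, ContinuousLinearMap.adjoint_inner_left,
      ← ContinuousLinearMap.adjoint_inner_right e, ← ContinuousLinearMap.star_eq_adjoint,
      ← mul_apply_eq_comp e, ← mul_apply_eq_comp (star e), he]
  have comm : ∀ {p q : H →L[ℂ] H}, p ∈ A → q ∈ A.commutant → ∀ v, p (q v) = q (p v) :=
    fun hp hq v => DFunLike.congr_fun (VonNeumannAlgebra.mem_commutant_iff.1 hq _ hp) v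
  have key : ∀ y ∈ A, ∀ c ∈ A.commutant, ∀ b ∈ A.commutant,
      ⟪c η, z (y (b η))⟫_ℂ = ⟪c η, y (b k)⟫_ℂ := by
    intro y hy c hc' b hb'
    rw [← hadj]
    have e1 : w (c η) = c (w η) := by
      refine tendsto_nhds_unique (hwl (c η))
        (((c.continuous.tendsto _).comp (hwl η)).congr fun m => ?_)
      rw [Function.comp_apply]
      exact (comm (SMulMemClass.smul_mem (s := A.toStarSubalgebra) _ (sum_mem fun g hg =>
        show a g * star x * star (a g) ∈ A from mul_mem (mul_mem (ha g ⟨m, hg⟩) (star_mem hx))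
          (star_mem (ha g ⟨m, hg⟩)))) hc' η).symm
    rw [e1]
    have hr := (tendsto_const_nhds (x := c η)).inner (𝕜 := ℂ)
      ((y.continuous.tendsto _).comp ((b.continuous.tendsto _).comp hk))
    refine tendsto_nhds_unique (((c.continuous.tendsto _).comp hdl).inner tendsto_const_nhds)
      (hr.congr fun n => ?_)
    obtain ⟨hdA, hdA'⟩ := (hc _).1 (hd n)
    simp only [Function.comp_apply]
    rw [← comm hdA hc', ← comm (star_mem hdA) hb', comm hy (star_mem hdA'),
      ContinuousLinearMap.star_eq_adjoint, ContinuousLinearMap.adjoint_inner_right]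
  have hbk : ∀ b ∈ A.commutant, b k = z (b η) := fun b hb' => by
    refine hA.eq_of_inner_right ℂ ?_
    rintro _ ⟨c, hc', rfl⟩
    simpa using (key 1 (one_mem _) c hc' b hb').symm
  refine VonNeumannAlgebra.mem_commutant_iff.2 fun y hy => ?_
  ext v
  refine congrFun (Continuous.ext_on hA (y.continuous.comp z.continuous)
    (z.continuous.comp y.continuous) ?_) v
  rintro _ ⟨b, hb', rfl⟩
  simp only [Function.comp_apply]
  refine hA.eq_of_inner_right ℂ ?_
  rintro _ ⟨c, hc', rfl⟩
  rw [← hbk b hb', key y hy c hc' b hb']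

/-- The operator `R` of modular data is the one of the real subspace. -/
theorem opR_eq {M : VonNeumannAlgebra H} {η : H} {R : H →L[ℂ] H} {J : H ≃ₗᵢ⋆[ℂ] H}
    {U : ℝ → H →L[ℂ] H} (h : StdData M η R J U) : R = opR M η := by
  open Vale.Agent.P132.Tomita Vale.Agent.P132.TypeThree Vale.Agent.P104.Continuous in
  have hK : ∀ v, (2⁻¹ : ℂ) • (R v + J (opT R v)) ∈ kS M η := fun v => by
    refine Metric.mem_closure_iff.2 fun ε hε => ?_
    obtain ⟨y, hy, h1, h2⟩ := h.graph v (ε / 4) (by positivity)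
    have h2' : ‖star y η - J (opT R v)‖ ≤ ε / 4 := by
      rw [← h.mod.J_J (star y η), ← map_sub, J.norm_map]; exact h2
    refine ⟨((2⁻¹ : ℂ) • (y + star y)) η, ⟨_, smul_mem_vn _ (add_mem hy (star_mem hy)), ?_, rfl⟩, ?_⟩
    · rw [IsSelfAdjoint, star_smul, star_add, star_star, add_comm (star y)]; simp
    rw [dist_comm, dist_eq_norm, smul_apply, add_apply, ← smul_sub, norm_smul,
      add_sub_add_comm, norm_inv, Complex.norm_ofNat]
    linarith [norm_add_le (y η - R v) (star y η - J (opT R v))]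
  open Vale.Agent.P132.Tomita Vale.Agent.P132.TypeThree Vale.Agent.P104.Continuous in
  have hp : ∀ v, pK M η v = (2⁻¹ : ℂ) • (R v + J (opT R v)) := fun v => by
    let : InnerProductSpace ℝ H := InnerProductSpace.complexToReal
    have : CompleteSpace (kS M η) :=
      (Submodule.isClosed_topologicalClosure (saVec M η)).completeSpace_coe
    refine Submodule.eq_starProjection_of_mem_of_inner_eq_zero (hK v) fun w hw => ?_
    have hcl : IsClosed {w : H |
        (⟪v - (2⁻¹ : ℂ) • (R v + J (opT R v)), w⟫_ℂ).re = 0} :=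
      isClosed_eq (Complex.continuous_re.comp (continuous_const.inner continuous_id))
        continuous_const
    refine closure_minimal ?_ hcl hw
    rintro _ ⟨x, hx, hxs, rfl⟩
    show (⟪v - (2⁻¹ : ℂ) • (R v + J (opT R v)), x η⟫_ℂ).re = 0
    have e1 : (⟪J (opT R v), x η⟫_ℂ).re = (⟪v, opT R (J (x η))⟫_ℂ).re := by
      conv_lhs => rw [← h.mod.J_J (x η), inner_map_map', ← inner_conj_symm]
      rw [Complex.conj_re, inner_proj opT_selfAdjoint]
    have e2 := graph_one h.mod hx
    rw [hxs.star_eq] at e2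
    rw [inner_sub_left, inner_smul_left, inner_add_left, Complex.sub_re]
    rw [← e2, inner_sub_right, inner_smul_right, Complex.sub_re] at e1
    rw [map_inv₀, map_ofNat, inner_proj h.mod.R_sa]
    simp [Complex.mul_re] at e1 ⊢
    linarith
  ext v
  rw [Vale.Agent.P132.Tomita.opR_apply, Vale.Agent.P132.Tomita.qK, hp, hp]
  rw [map_smul, map_smul (Vale.Agent.P132.Tomita.opT R), J.map_smulₛₗ]
  simp only [map_neg, Complex.conj_I, neg_neg]
  simp only [smul_add, smul_smul]
  rw [show Complex.I * (2⁻¹ * -Complex.I) = (2⁻¹ : ℂ) by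
      rw [mul_neg, mul_neg, mul_left_comm, Complex.I_mul_I, mul_neg, mul_one, neg_neg],
    show Complex.I * (2⁻¹ * Complex.I) = -(2⁻¹ : ℂ) by
      rw [mul_left_comm, Complex.I_mul_I, mul_neg, mul_one]]
  module

lemma commutant_near_smul {M N : VonNeumannAlgebra H} {γ C : ℝ}
    (h : ∀ a ∈ Set.centralizer (N : Set (H →L[ℂ] H)), ‖a‖ ≤ 1 →
      ∃ b ∈ Set.centralizer (M : Set (H →L[ℂ] H)), ‖a - b‖ ≤ C * γ) :
    ∀ y ∈ N.commutant, ∃ d ∈ M.commutant, ‖y - d‖ ≤ C * γ * ‖y‖ := by
  refine fun y hy => exists_near_smul (M := N.commutant) (fun a ha ha1 => ?_) hy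
  obtain ⟨b, hb, hab⟩ := h a (fun x hx => VonNeumannAlgebra.mem_commutant_iff.1 ha x hx) ha1
  exact ⟨b, VonNeumannAlgebra.mem_commutant_iff.2 fun x hx => hb x hx, hab⟩

/-- The mean on the stabilisations. -/
theorem ambMean : AmbSpec → AmbMeanSpec := by
  intro hA η hη
  obtain ⟨γ₀, d, hγ₀, hd, hm⟩ := meanLe_of_close η hη
  obtain ⟨Ca, hCa, hclose⟩ := hA.close
  obtain ⟨Cc, hCc, hcom⟩ := commutant_near.{0}
  refine ⟨γ₀ / (Cc * Ca + 1), d, by positivity, hd, ?_⟩
  intro H _ _ _ _ M N ξ P R R' J J' U U' γ hM hN hfit hγ0 hγ hcl t ht v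
  obtain ⟨R₂, J₂, hM₂, -⟩ := hA.data H M ξ R J U hM
  obtain ⟨R₂', J₂', hN₂, -⟩ := hA.data H N ξ R' J' U' hN
  have cM : CycSep (amb M) (put0 ξ) := ⟨hM₂.std.2.1, hM₂.std.2.2⟩
  have cN : CycSep (amb N) (put0 ξ) := ⟨hN₂.std.2.1, hN₂.std.2.2⟩
  have hcl₂ := hclose H M N γ hcl
  have hswap : ∀ {A : VonNeumannAlgebra (AmbH H)} (z : AmbH H →L[ℂ] AmbH H),
      (z ∈ A ∧ z ∈ A.commutant) ↔ (z ∈ A.commutant ∧ z ∈ A.commutant.commutant) := fun {A} z => by
    rw [VonNeumannAlgebra.commutant_commutant, and_comm]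
  have hcc : ∀ {A : VonNeumannAlgebra (AmbH H)}, CycSep A (put0 ξ) →
      Dense {w : AmbH H | ∃ y ∈ A.commutant.commutant, y (put0 ξ) = w} := fun {A} h => by
    simpa only [VonNeumannAlgebra.commutant_commutant] using h.cyclic
  have hmem : ∀ {A : VonNeumannAlgebra (AmbH H)} {x : AmbH H →L[ℂ] AmbH H}, x ∈ A →
      x ∈ A.commutant.commutant := fun {A x} h => by
    rwa [VonNeumannAlgebra.commutant_commutant]
  have hrg : ∀ g ∈ P.Γ.carrier, P.r g * g = g * P.r g := fun g hg =>
    (VonNeumannAlgebra.mem_commutant_iff.1 (P.r_mem g hg) g (P.memM g hg)).symm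
  have hgfix : ∀ g ∈ P.Γ.carrier, g (put0 ξ) = star (P.r g) (put0 ξ) := fun g hg => by
    have e : P.r g (g (put0 ξ)) = put0 ξ := by
      rw [← mul_apply_eq_comp, hrg g hg, mul_apply_eq_comp, P.r_ξ g hg, ← mul_apply_eq_comp,
        (Unitary.mem_iff.1 (Groups.unitary_carrier hg)).2, one_apply_eq_self]
    refine Eq.trans ?_ (congrArg (fun w => (star (P.r g) : AmbH H →L[ℂ] AmbH H) w) e)
    rw [← mul_apply_eq_comp, (Unitary.mem_iff.1 (P.r_unitary g hg)).1, one_apply_eq_self]
  let Q : Close (AmbH H) :=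
    { M := amb M
      N := amb N
      ξ := put0 ξ
      cycM := cM
      cycN := cN
      Γ := P.Γ
      memM := P.memM
      memN := hfit.memN
      r := P.r
      r_memM := P.r_mem
      r_memN := hfit.r_memN
      r_unitary := P.r_unitary
      r_ξ := P.r_ξ
      centre := hfit.centre
      centM := P.central
      centN := central_of_pair P cM.cyclic cN.commutant_dense hfit.centre hfit.memN
        (fun g hg => Groups.unitary_carrier hg) hfit.r_memN (fun g _ => rfl) P.r_ξ
      centM' := fun x hx => by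
        obtain ⟨z, h1, h2, h3⟩ := central_of_pair (a := P.r) (b := id) P cM.cyclic (hcc cM) hswap
          P.r_mem P.r_unitary (fun g hg => hmem (P.memM g hg)) hrg hgfix x hx
        exact ⟨z, by rwa [VonNeumannAlgebra.commutant_commutant] at h2, h1, h3⟩
      centN' := fun x hx => by
        obtain ⟨z, h1, h2, h3⟩ := central_of_pair (a := P.r) (b := id) P cM.cyclic (hcc cN)
          (fun z => (hfit.centre z).trans (hswap z)) hfit.r_memN P.r_unitary
          (fun g hg => hmem (hfit.memN g hg)) hrg hgfix x hx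
        exact ⟨z, by rwa [VonNeumannAlgebra.commutant_commutant] at h2, h1, h3⟩
      γ := Cc * (Ca * γ)
      γ_nonneg := by positivity
      near := commutant_near_smul fun a ha ha1 =>
        hcom (AmbH H) (amb M).toStarSubalgebra (amb N).toStarSubalgebra _ (by positivity)
          hcl₂.1 a ha ha1
      near' := commutant_near_smul fun a ha ha1 =>
        hcom (AmbH H) (amb N).toStarSubalgebra (amb M).toStarSubalgebra _ (by positivity)
          hcl₂.2 a ha ha1 }
  have hγ' : Q.γ ≤ γ₀ := by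
    show Cc * (Ca * γ) ≤ γ₀
    rw [lt_div_iff₀ (by positivity)] at hγ
    nlinarith
  have h₁ := hM₂.mod
  have h₂ := hN₂.mod
  rw [opR_eq hM₂] at h₁
  rw [opR_eq hN₂] at h₂
  exact hm (AmbH H) Q J₂ J₂' (ambU U) (ambU U') h₁ h₂ (hasShifts_amb U U') hγ' t ht v

/-- FLOW BRIDGE. -/
theorem flowBridge : FlowBridge := flowBridge_of ambMean

end Vale.Agent.P096.Three.Flow
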