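import Vale.Agent.P096.Three.Flow.Step
import Vale.Agent.P096.Full.Reduce.Moment

/-!
P096, type III, flow, GAP: a bound below an absolute constant is a bound of the size of the defect.
For a unitary `w` of `M` and the group means, `(V - 1) (w g w g⋆) v` has twice the square of
`(V - 1) w v`, up to third order terms and the defect.
-/

open scoped InnerProductSpace ComplexConjugate
open Filter Topology
open Vale.Agent.P096.Full.Reduce

namespace Vale.Agent.P096.Three.Flow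

variable {H : Type} [NormedAddCommGroup H] [InnerProductSpace ℂ H] [CompleteSpace H]

/-- A self-adjoint contraction of `M` is half the sum of a unitary and its adjoint. -/
lemma exists_unitary_half (M : VonNeumannAlgebra H) {h : H →L[ℂ] H} (hh : h ∈ M)
    (hs : IsSelfAdjoint h) (h1 : ‖h‖ ≤ 1) :
    ∃ u ∈ M, u ∈ unitary (H →L[ℂ] H) ∧ (2 : ℂ) • h = u + star u := by
  set f : ℝ → ℝ := fun r => Real.sqrt (1 - r * r)
  have hf : Continuous f := Real.continuous_sqrt.comp (by fun_prop)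
  set s := cfc f h
  have hsM : s ∈ M := cfc_mem hh _
  have hss : star s = s := (cfc_predicate f h).star_eq
  have hc : h * s = s * h :=
    ((show Commute h h from Commute.refl h).cfc_real f).eq.symm
  have hsq : h * h + s * s = 1 := by
    have e : cfc (fun r : ℝ => r * r + f r * f r) h = 1 := by
      rw [← cfc_one ℝ h hs]
      refine cfc_congr fun r hr => ?_
      have h2 : |r| ≤ 1 := by
        simpa using (spectrum.norm_le_norm_mul_of_mem hr).trans
          (mul_le_one₀ h1 (norm_nonneg _) ContinuousLinearMap.norm_id_le)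
      simp only [f, Pi.one_apply]
      rw [Real.mul_self_sqrt (by nlinarith [abs_le.1 h2])]
      ring
    rw [← e, cfc_add h (fun r => r * r) (fun r => f r * f r),
      cfc_mul (fun r : ℝ => r) (fun r => r) h, cfc_mul f f h, cfc_id' ℝ h hs]
  refine ⟨h + Complex.I • s, add_mem hh (SMulMemClass.smul_mem (s := M.toStarSubalgebra) _ hsM),
    Unitary.mem_iff.2 ⟨?_, ?_⟩, ?_⟩
  · rw [star_add, star_smul, hs.star_eq, hss, Complex.star_def, Complex.conj_I, add_mul, mul_add,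
      mul_add, smul_mul_smul_comm, mul_smul_comm, smul_mul_assoc, hc,
      show -Complex.I * Complex.I = 1 by rw [neg_mul, Complex.I_mul_I, neg_neg], one_smul, neg_smul]
    rw [← hsq]; abel
  · rw [star_add, star_smul, hs.star_eq, hss, Complex.star_def, Complex.conj_I, add_mul, mul_add,
      mul_add, smul_mul_smul_comm, mul_smul_comm, smul_mul_assoc, hc,
      show Complex.I * -Complex.I = 1 by rw [mul_neg, Complex.I_mul_I, neg_neg], one_smul, neg_smul]
    rw [← hsq]; abel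
  · rw [star_add, star_smul, hs.star_eq, hss, Complex.star_def, Complex.conj_I, two_smul, neg_smul]
    abel

lemma apply_star_apply {u : H →L[ℂ] H} (hu : u ∈ unitary (H →L[ℂ] H)) (v : H) :
    u (star u v) = v ∧ star u (u v) = v := by
  obtain ⟨h1, h2⟩ := Unitary.mem_iff.1 hu
  exact ⟨by rw [← mul_apply_eq_comp, h2, one_apply_eq_self],
    by rw [← mul_apply_eq_comp, h1, one_apply_eq_self]⟩

lemma re_inner_star_mul (T : H →L[ℂ] H) (v : H) : (⟪v, (star T * T) v⟫_ℂ).re = ‖T v‖ ^ 2 := by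
  rw [mul_apply_eq_comp, inner_star']
  exact inner_self_eq_norm_sq (𝕜 := ℂ) _

lemma commute_of_mem {M : VonNeumannAlgebra H} {a b : H →L[ℂ] H} (ha : a ∈ M)
    (hb : b ∈ M.commutant) : a * b = b * a :=
  VonNeumannAlgebra.mem_commutant_iff.1 hb a ha

namespace Setting

variable {S : Setting H}

/-- A bound on the unitaries of `M` bounds all contractions. -/
lemma bd_of_unitary {V : H →L[ℂ] H} {r : ℝ}
    (h : ∀ u ∈ S.M, u ∈ unitary (H →L[ℂ] H) → ∀ v ∈ S.K, ‖V (u v) - u v‖ ≤ r * ‖v‖) :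
    S.Bd V (2 * r) := by
  intro x hx hx1 v hv
  have key : ∀ a ∈ S.M, IsSelfAdjoint a → ‖a‖ ≤ 1 → ‖V (a v) - a v‖ ≤ r * ‖v‖ := by
    intro a ha has ha1
    obtain ⟨u, hu, hu', e⟩ := exists_unitary_half S.M ha has ha1
    have e2 : (2 : ℂ) • (V (a v) - a v) =
        (V (u v) - u v) + (V (star u v) - star u v) := by
      rw [smul_sub, ← map_smul, ← smul_apply, e, add_apply, map_add]; abel
    have e3 := congrArg (fun w : H => ‖w‖) e2
    simp only [norm_smul, Complex.norm_ofNat] at e3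
    linarith [norm_add_le (V (u v) - u v) (V (star u v) - star u v), h u hu hu' v hv,
      h _ (star_mem hu) (Unitary.star_mem hu') v hv]
  set a : H →L[ℂ] H := (1 / 2 : ℂ) • (x + star x)
  set b : H →L[ℂ] H := (-Complex.I / 2) • (x - star x)
  have hxs : ‖star x‖ ≤ 1 := by rwa [norm_star]
  have ha : a ∈ S.M := S.smul_memM _ (add_mem hx (star_mem hx))
  have hb : b ∈ S.M := S.smul_memM _ (sub_mem hx (star_mem hx))
  have has : IsSelfAdjoint a := by
    rw [IsSelfAdjoint, star_smul, star_add, star_star, add_comm (star x)]; simp [a]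
  have hbs : IsSelfAdjoint b := by
    rw [IsSelfAdjoint, star_smul, star_sub, star_star]
    simp only [b, Complex.star_def, map_div₀, map_neg, Complex.conj_I, neg_neg, map_ofNat]
    rw [← neg_sub x (star x), smul_neg, ← neg_smul, neg_div]
  have ha1 : ‖a‖ ≤ 1 := by
    rw [norm_smul]; norm_num
    linarith [norm_add_le x (star x)]
  have hb1 : ‖b‖ ≤ 1 := by
    rw [norm_smul]; norm_num
    linarith [norm_sub_le x (star x)]
  have e : x = a + Complex.I • b := by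
    simp only [a, b, smul_smul]
    rw [show Complex.I * (-Complex.I / 2) = (1 / 2 : ℂ) by
      rw [mul_div, mul_neg, Complex.I_mul_I, neg_neg], ← smul_add]
    rw [show x + star x + (x - star x) = (2 : ℂ) • x by rw [two_smul]; abel, smul_smul]
    norm_num
  have e2 : V (x v) - x v = (V (a v) - a v) + Complex.I • (V (b v) - b v) := by
    conv_lhs => rw [e]
    simp only [add_apply, map_add, smul_sub]
    rw [show (Complex.I • b) v = Complex.I • b v from rfl, map_smul]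
    abel
  rw [e2]
  refine (norm_add_le _ _).trans ?_
  rw [norm_smul, Complex.norm_I, one_mul]
  linarith [key a ha has ha1, key b hb hbs hb1]

/-- `g r g` fixes `S.K`. -/
lemma gr_K {g : H →L[ℂ] H} (hg : g ∈ S.Γ.carrier) {v : H} (hv : v ∈ S.K) :
    g (S.r g v) = v := by
  rw [S.r_K hg hv, (apply_star_apply (Groups.unitary_carrier hg) v).1]

/-- The central mean of `n` at a vector of `S.K` is the projection of `n v`. -/
lemma mean_eq_P {n z : H →L[ℂ] H} (hn : n ∈ S.M) (hz : z ∈ S.Z)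
    (h : ∀ v, Tendsto (fun m => avg S.Γ m (fun g => g * n * star g) v) atTop (𝓝 (z v)))
    {v : H} (hv : v ∈ S.K) : z v = S.P (n v) := by
  refine (Submodule.eq_starProjection_of_mem_of_inner_eq_zero (S.Z_K hz hv) fun k hk => ?_).symm
  have hlim := (((innerSL ℂ k).continuous).tendsto (z v)).comp (h v)
  have hc : ∀ m, ⟪k, avg S.Γ m (fun g => g * n * star g) v⟫_ℂ = ⟪k, n v⟫_ℂ := fun m => by
    have e : ∀ g ∈ S.Γ.G m, ⟪k, (g * n * star g) v⟫_ℂ = ⟪k, n v⟫_ℂ := fun g hg => by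
      have hgc : g ∈ S.Γ.carrier := ⟨m, hg⟩
      have hgu := Groups.unitary_carrier hgc
      rw [mul_apply_eq_comp, mul_apply_eq_comp, ← S.r_K hgc hv, ← mul_apply_eq_comp n,
        commute_of_mem hn (S.r_mem g hgc), mul_apply_eq_comp]
      nth_rewrite 1 [← gr_K hgc hk]
      rw [unitary_inner hgu, unitary_inner (S.r_unitary g hgc)]
    rw [avg, smul_apply, sum_apply, inner_smul_right, inner_sum, Finset.sum_congr rfl e,
      Finset.sum_const, nsmul_eq_mul, ← mul_assoc, inv_mul_cancel₀ (card_ne m), one_mul]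
  have := tendsto_nhds_unique hlim (tendsto_const_nhds.congr fun m => (hc m).symm)
  rw [inner_sub_left, sub_eq_zero]
  have h2 := congrArg (starRingEnd ℂ) this
  simpa [inner_conj_symm] using h2.symm

variable {γ : ℝ} {V : H →L[ℂ] H}

lemma Move.star_apply_K (h : S.Move γ V) {v : H} (hv : v ∈ S.K) :
    V v = v ∧ star V v = v :=
  ⟨S.fix_K h.comm_z h.fix hv, star_apply_of_fix h.unit (S.fix_K h.comm_z h.fix hv)⟩

/-- The scalar inequality behind GAP. -/
lemma gap_arith {R γ : ℝ} (hR : 0 ≤ R) (hγ : 0 ≤ γ) (hR1 : R ≤ 1 / 16)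
    (h : 7 / 4 * R ^ 2 ≤ R ^ 2 + 2 * R ^ 3 + 4 * γ * R + 15 * γ ^ 2) : R ≤ 16 * γ := by
  by_contra hc
  nlinarith [mul_le_mul_of_nonneg_left hR1 (sq_nonneg R)]

omit [CompleteSpace H] in
lemma mul_le_of_le {T : H →L[ℂ] H} {x : H} {c : ℝ} (hc : 0 ≤ c) (hT : ‖T‖ ≤ c) (hx : ‖x‖ ≤ 1) :
    ‖T x‖ ≤ c :=
  ((T.le_opNorm x).trans (mul_le_mul hT hx (norm_nonneg _) hc)).trans_eq (mul_one c)

/-- Means of inner products converge. -/
lemma tendsto_re {a b : H} {f : (H →L[ℂ] H) → (H →L[ℂ] H)} {L : H →L[ℂ] H}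
    (hl : Tendsto (fun k => avg S.Γ k f b) atTop (𝓝 (L b))) :
    Tendsto (fun k => ((S.Γ.G k).card : ℝ)⁻¹ * ∑ g ∈ S.Γ.G k, (⟪a, f g b⟫_ℂ).re) atTop
      (𝓝 (⟪a, L b⟫_ℂ).re) := by
  have := ((Complex.continuous_re.comp (innerSL ℂ a).continuous).tendsto (L b)).comp hl
  refine this.congr fun k => ?_
  show (⟪a, avg S.Γ k f b⟫_ℂ).re = _
  rw [avg, smul_apply, sum_apply, inner_smul_right, inner_sum, ← Complex.ofReal_natCast,
    ← Complex.ofReal_inv, Complex.re_ofReal_mul, Complex.re_sum]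

/-- The lower bound at one element of the groups. -/
lemma gap_low (h : S.Move γ V) (hγ : 0 ≤ γ) {R : ℝ} (hR : 0 ≤ R)
    (hbd : ∀ u ∈ S.M, u ∈ unitary (H →L[ℂ] H) → ∀ k ∈ S.K, ‖V (u k) - u k‖ ≤ R * ‖k‖)
    {w g m n Φ : H →L[ℂ] H} (hw : w ∈ S.M) (hwu : w ∈ unitary (H →L[ℂ] H))
    (hg : g ∈ S.Γ.carrier) (hΦ : Φ = V * w * star V) (hem : ‖(Φ - w) - m‖ ≤ γ)
    (hen : ‖star Φ * (Φ - w) - n‖ ≤ γ) {v : H} (hv : v ∈ S.K) (hv1 : ‖v‖ ≤ 1) :
    ‖V (w v) - w v‖ ^ 2 + 2 * (⟪V (w v) - w v, (g * n * star g) (w v)⟫_ℂ).re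
        + 7 / 8 * (⟪w v, (g * (star m * m) * star g) (w v)⟫_ℂ).re
        - 2 * γ * ‖V (w v) - w v‖ - 8 * γ ^ 2 ≤ R ^ 2 := by
  have hgu := Groups.unitary_carrier hg
  have hgs := Unitary.star_mem hgu
  have hΦu : Φ ∈ unitary (H →L[ℂ] H) :=
    hΦ ▸ mul_mem (mul_mem h.unit hwu) (Unitary.star_mem h.unit)
  have hgw : g * w * star g * w ∈ S.M :=
    mul_mem (mul_mem (mul_mem (S.memM g hg) hw) (star_mem (S.memM g hg))) hw
  have hguw : g * w * star g * w ∈ unitary (H →L[ℂ] H) :=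
    mul_mem (mul_mem (mul_mem hgu hwu) hgs) hwu
  have hb := hbd _ hgw hguw v hv
  have hVg : ∀ a, V (g a) = g (V a) := fun a => by
    rw [← mul_apply_eq_comp, h.comm_g g hg, mul_apply_eq_comp]
  have hVg' : ∀ a, V (star g a) = star g (V a) := fun a => by
    rw [← mul_apply_eq_comp, h.comm_g _ (Groups.star_carrier hg), mul_apply_eq_comp]
  have e0 : ∀ a, Φ (V a) = V (w a) := fun a => by
    rw [hΦ]; simp only [mul_apply_eq_comp, (apply_star_apply h.unit a).2]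
  have hsplit : V ((g * w * star g * w) v) - (g * w * star g * w) v
      = g (Φ (star g (V (w v) - w v)) + (Φ - w) (star g (w v))) := by
    simp only [mul_apply_eq_comp, map_sub, map_add, sub_apply, hVg, ← hVg', e0]
    abel
  rw [hsplit, unitary_norm hgu] at hb
  have h2 := pow_le_pow_left₀ (norm_nonneg _) (hb.trans (mul_le_of_le_one_right hR hv1)) 2
  rw [norm_add_sq (𝕜 := ℂ), unitary_norm hΦu, unitary_norm hgs] at h2
  have h5 : (⟪w v, (g * (star m * m) * star g) (w v)⟫_ℂ).re = ‖m (star g (w v))‖ ^ 2 := by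
    rw [← re_inner_star_mul, mul_apply_eq_comp, mul_apply_eq_comp, ← inner_star' (star g),
      star_star]
  have e2 : ∀ T : H →L[ℂ] H, ⟪V (w v) - w v, (g * T * star g) (w v)⟫_ℂ
      = ⟪star g (V (w v) - w v), T (star g (w v))⟫_ℂ := fun T => by
    rw [mul_apply_eq_comp, mul_apply_eq_comp, ← inner_star' (star g), star_star]
  rw [h5, e2]
  generalize hx : star g (w v) = x at h2 ⊢
  generalize hd : V (w v) - w v = d at h2 ⊢
  have hxn : ‖x‖ ≤ 1 := by
    rw [← hx, unitary_norm hgs, unitary_norm hwu]; exact hv1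
  have h3 : (⟪star g d, n x⟫_ℂ).re - γ * ‖d‖ ≤ RCLike.re ⟪Φ (star g d), (Φ - w) x⟫_ℂ := by
    have e1 : ⟪Φ (star g d), (Φ - w) x⟫_ℂ = ⟪star g d, (star Φ * (Φ - w)) x⟫_ℂ := by
      rw [mul_apply_eq_comp (star Φ), inner_star']
    have h4 : ‖⟪star g d, (star Φ * (Φ - w) - n) x⟫_ℂ‖ ≤ γ * ‖d‖ := by
      refine (norm_inner_le_norm _ _).trans ?_
      rw [unitary_norm hgs, mul_comm γ]
      exact mul_le_mul_of_nonneg_left (mul_le_of_le hγ hen hxn) (norm_nonneg _)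
    rw [sub_apply (star Φ * (Φ - w)) n, inner_sub_right, ← e1] at h4
    have h7 := (Complex.abs_re_le_norm _).trans h4
    rw [Complex.sub_re, abs_le] at h7
    change _ ≤ (⟪Φ (star g d), (Φ - w) x⟫_ℂ).re
    linarith [h7.1]
  have h7 : ‖m x‖ ≤ ‖(Φ - w) x‖ + γ := by
    calc ‖m x‖ = ‖(Φ - w) x - (Φ - w - m) x‖ := by rw [sub_apply (Φ - w) m, sub_sub_cancel]
      _ ≤ _ := (norm_sub_le _ _).trans (add_le_add le_rfl (mul_le_of_le hγ hem hxn))
  have h8 := pow_le_pow_left₀ (norm_nonneg _) h7 2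
  nlinarith [sq_nonneg (‖(Φ - w) x‖ - 7 * γ)]

/-- The cross term. -/
lemma gap_cross (h : S.Move γ V) {R : ℝ} (hR : 0 ≤ R)
    (hbd : ∀ u ∈ S.M, u ∈ unitary (H →L[ℂ] H) → ∀ k ∈ S.K, ‖V (u k) - u k‖ ≤ R * ‖k‖)
    {w n : H →L[ℂ] H} (hw : w ∈ S.M) (hwu : w ∈ unitary (H →L[ℂ] H)) {v : H}
    (hr : ‖V (w v) - w v‖ ≤ R)
    (hn : ‖n v - (v - V (star w (star V (w v))))‖ ≤ γ) :
    -R ^ 3 - γ * R ≤ (⟪S.P (star w (V (w v) - w v)), n v⟫_ℂ).re := by
  set d : H := V (w v) - w v with hd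
  set a : H := star w d with ha
  set c : H := star w (V (w v) + star V (w v) - w v - w v) with hc
  have hPk : ∀ (a b : H), b ∈ S.K → ⟪b, S.P a⟫_ℂ = ⟪b, a⟫_ℂ := fun a b hb => by
    conv_rhs => rw [← Submodule.starProjection_eq_self_iff.2 hb]
    exact (Submodule.inner_starProjection_left_eq_right _ b a).symm
  have hPa : S.P a ∈ S.K := Submodule.starProjection_apply_mem _ _
  have hPc : S.P c ∈ S.K := Submodule.starProjection_apply_mem _ _
  have hPan : ‖S.P a‖ ≤ R :=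
    ((Submodule.norm_starProjection_apply_le _ _).trans_eq
      (unitary_norm (Unitary.star_mem hwu) _)).trans hr
  have hcn : ‖S.P c‖ ≤ R ^ 2 := by
    have e2 : ‖S.P c‖ ^ 2 = (⟪S.P c, c⟫_ℂ).re := by
      rw [← hPk c _ hPc]
      exact (inner_self_eq_norm_sq (𝕜 := ℂ) _).symm
    generalize hk : S.P c = k at e2 hPc
    have e1 : ⟪k, c⟫_ℂ = -⟪V (w k) - w k, V (w v) - w v⟫_ℂ := by
      rw [hc, inner_star']
      simp only [inner_sub_left, inner_sub_right, inner_add_right, unitary_inner h.unit,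
        inner_star']
      ring
    have e3 : ‖k‖ ^ 2 ≤ R * ‖k‖ * R := by
      rw [e2, e1]
      refine (Complex.re_le_norm _).trans ?_
      rw [norm_neg]
      exact (norm_inner_le_norm _ _).trans
        (mul_le_mul (hbd w hw hwu k hPc) hr (norm_nonneg _) (by positivity))
    rcases (norm_nonneg k).eq_or_lt with h0 | h0
    · rw [← h0]; positivity
    · nlinarith
  have hb : ⟪S.P a, v - V (star w (star V (w v)))⟫_ℂ = ⟪S.P a, a⟫_ℂ - ⟪S.P a, c⟫_ℂ := by
    have hVk : ∀ q, ⟪S.P a, V q⟫_ℂ = ⟪S.P a, q⟫_ℂ := fun q => by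
      conv_lhs => rw [← (h.star_apply_K hPa).1]
      exact unitary_inner h.unit _ _
    rw [inner_sub_right, hVk, ← inner_sub_right, ← inner_sub_right]
    congr 1
    simp only [ha, hd, hc, map_sub, map_add, (apply_star_apply hwu v).2]
    abel
  have h9 : -(γ * R) ≤ (⟪S.P a, n v⟫_ℂ).re
      - (⟪S.P a, v - V (star w (star V (w v)))⟫_ℂ).re := by
    rw [← Complex.sub_re, ← inner_sub_right]
    have h10 := (Complex.abs_re_le_norm _).trans ((norm_inner_le_norm (𝕜 := ℂ) _ _).trans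
      (mul_le_mul hPan hn (norm_nonneg _) hR))
    nlinarith [(abs_le.1 h10).1]
  have h11 : -R ^ 3 ≤ (⟪S.P a, v - V (star w (star V (w v)))⟫_ℂ).re := by
    rw [hb, Complex.sub_re, ← hPk a _ hPa, ← hPk c _ hPa]
    have i1 : (⟪S.P a, S.P a⟫_ℂ).re = ‖S.P a‖ ^ 2 := inner_self_eq_norm_sq (𝕜 := ℂ) _
    have i2 := (Complex.re_le_norm _).trans (norm_inner_le_norm (𝕜 := ℂ) (S.P a) (S.P c))
    nlinarith [mul_le_mul hPan hcn (norm_nonneg _) hR, sq_nonneg ‖S.P a‖]
  linarith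

/-- The doubling inequality at one unitary. -/
lemma gap_step (h : S.Move γ V) (hγ : 0 ≤ γ) {R : ℝ} (hR : 0 ≤ R)
    (hbd : ∀ u ∈ S.M, u ∈ unitary (H →L[ℂ] H) → ∀ k ∈ S.K, ‖V (u k) - u k‖ ≤ R * ‖k‖)
    {w : H →L[ℂ] H} (hw : w ∈ S.M) (hwu : w ∈ unitary (H →L[ℂ] H)) {v : H} (hv : v ∈ S.K)
    (hv1 : ‖v‖ ≤ 1) :
    7 / 4 * ‖V (w v) - w v‖ ^ 2 ≤ R ^ 2 + 2 * R ^ 3 + 4 * γ * R + 15 * γ ^ 2 := by
  set Φ : H →L[ℂ] H := V * w * star V with hΦ
  have hΦu : Φ ∈ unitary (H →L[ℂ] H) := mul_mem (mul_mem h.unit hwu) (Unitary.star_mem h.unit)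
  have hwn : ‖w‖ ≤ 1 := norm_le_one hwu
  have hrR : ‖V (w v) - w v‖ ≤ R := (hbd w hw hwu v hv).trans (mul_le_of_le_one_right hR hv1)
  obtain ⟨m0, hm0, hm0n⟩ := h.near w hw
  obtain ⟨m1, hm1, hm1n⟩ := h.near (star w) (star_mem hw)
  rw [norm_star] at hm1n
  have hmM : m0 - w ∈ S.M := sub_mem hm0 hw
  have hnM : 1 - m1 * w ∈ S.M := sub_mem (one_mem _) (mul_mem hm1 hw)
  have hem : ‖(Φ - w) - (m0 - w)‖ ≤ γ := by
    rw [sub_sub_sub_cancel_right]
    exact hm0n.trans (mul_le_of_le_one_right hγ hwn)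
  have hΦe : star Φ * (Φ - w) = 1 - V * star w * star V * w := by
    rw [mul_sub, (Unitary.mem_iff.1 hΦu).1, hΦ]
    simp only [star_mul, star_star, mul_assoc]
  have hen : ‖star Φ * (Φ - w) - (1 - m1 * w)‖ ≤ γ := by
    rw [hΦe, sub_sub_sub_cancel_left, ← sub_mul]
    refine (norm_mul_le _ _).trans ((mul_le_of_le_one_right (norm_nonneg _) hwn).trans ?_)
    rw [norm_sub_rev]
    exact hm1n.trans (mul_le_of_le_one_right hγ hwn)
  obtain ⟨z, hz1, hz2, hzlim⟩ := S.central _ hnM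
  obtain ⟨y, hy1, hy2, hylim⟩ := S.central _ (mul_mem (star_mem hmM) hmM)
  have hzv := mean_eq_P hnM ⟨hz1, hz2⟩ hzlim hv
  have hyv := mean_eq_P (mul_mem (star_mem hmM) hmM) ⟨hy1, hy2⟩ hylim hv
  set m : H →L[ℂ] H := m0 - w
  set n : H →L[ℂ] H := 1 - m1 * w
  set d : H := V (w v) - w v with hd
  have hmain : ‖d‖ ^ 2 + 2 * (⟪d, z (w v)⟫_ℂ).re + 7 / 8 * (⟪w v, y (w v)⟫_ℂ).re
      - 2 * γ * ‖d‖ - 8 * γ ^ 2 ≤ R ^ 2 := by
    refine le_of_tendsto' ((((tendsto_const_nhds.add ((tendsto_re (hzlim (w v))).const_mul 2)).add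
      ((tendsto_re (hylim (w v))).const_mul (7 / 8))).sub tendsto_const_nhds).sub
      tendsto_const_nhds) fun k => ?_
    have hc : (0 : ℝ) < (S.Γ.G k).card := by
      exact_mod_cast Finset.card_pos.2 ⟨1, S.Γ.one_mem k⟩
    have := Finset.sum_le_sum fun g (hg : g ∈ S.Γ.G k) =>
      gap_low h hγ hR hbd hw hwu ⟨k, hg⟩ hΦ hem hen hv hv1
    simp only [Finset.sum_sub_distrib, Finset.sum_add_distrib, ← Finset.mul_sum, Finset.sum_const,
      nsmul_eq_mul] at this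
    refine le_of_mul_le_mul_left ?_ hc
    field_simp
    linarith
  have hzw : ∀ {T : H →L[ℂ] H}, T ∈ S.M.commutant → ∀ a, T (w a) = w (T a) := fun hT a => by
    rw [← mul_apply_eq_comp, ← commute_of_mem hw hT, mul_apply_eq_comp]
  have hsq : 7 / 8 * ‖d‖ ^ 2 - 8 * γ ^ 2 ≤ (⟪w v, y (w v)⟫_ℂ).re := by
    have hPv : ∀ q, ⟪v, S.P q⟫_ℂ = ⟪v, q⟫_ℂ := fun q => by
      conv_rhs => rw [← Submodule.starProjection_eq_self_iff.2 hv]
      exact (Submodule.inner_starProjection_left_eq_right _ v q).symm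
    rw [hzw hy2, unitary_inner hwu, hyv, hPv, re_inner_star_mul]
    have hev : (Φ - w) v = d := by
      rw [sub_apply, hΦ, hd, mul_apply_eq_comp, mul_apply_eq_comp, (h.star_apply_K hv).2]
    have h7 : ‖d‖ ≤ ‖m v‖ + γ := by
      calc ‖d‖ = ‖m v + (Φ - w - m) v‖ := by rw [sub_apply (Φ - w) m, hev, add_sub_cancel]
        _ ≤ _ := (norm_add_le _ _).trans (add_le_add le_rfl (mul_le_of_le hγ hem hv1))
    have h8 := pow_le_pow_left₀ (norm_nonneg _) h7 2
    nlinarith [sq_nonneg (‖m v‖ - 7 * γ)]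
  have hn' : ‖n v - (v - V (star w (star V (w v))))‖ ≤ γ := by
    have := mul_le_of_le hγ hen hv1
    rw [hΦe, sub_apply] at this
    simp only [sub_apply (1 : H →L[ℂ] H), one_apply_eq_self, mul_apply_eq_comp] at this
    rwa [norm_sub_rev]
  have hcross : -R ^ 3 - γ * R ≤ (⟪d, z (w v)⟫_ℂ).re := by
    have e : ⟪d, z (w v)⟫_ℂ = ⟪S.P (star w d), n v⟫_ℂ := by
      rw [hzw hz2, hzv]
      conv_lhs => rw [← (apply_star_apply hwu d).1, unitary_inner hwu]
      exact (Submodule.inner_starProjection_left_eq_right _ _ _).symm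
    rw [e]
    exact gap_cross h hR hbd hw hwu hrR hn'
  nlinarith [mul_le_mul_of_nonneg_left hrR hγ]

end Setting

/-- GAP. -/
theorem gapSpec : GapSpec := by
  refine ⟨32, 1 / 16, 1, by norm_num, by norm_num, by norm_num, ?_⟩
  intro H _ _ _ S γ V hγ hγ1 hV hB
  set A : Set ℝ := {t | ∃ w ∈ S.M, w ∈ unitary (H →L[ℂ] H) ∧ ∃ v ∈ S.K, ‖v‖ ≤ 1 ∧
    t = ‖V (w v) - w v‖}
  have hne : A.Nonempty :=
    ⟨0, 1, one_mem _, one_mem _, 0, S.K.zero_mem, by simp, by simp⟩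
  have hle : ∀ t ∈ A, t ≤ 1 / 16 := by
    rintro t ⟨w, hw, hwu, v, hv, hv1, rfl⟩
    exact (hB w hw (norm_le_one hwu) v hv).trans (mul_le_of_le_one_right (by norm_num) hv1)
  set R := sSup A
  have hR0 : 0 ≤ R := le_csSup ⟨_, hle⟩ ⟨1, one_mem _, one_mem _, 0, S.K.zero_mem, by simp, by simp⟩
  have hbd : ∀ u ∈ S.M, u ∈ unitary (H →L[ℂ] H) → ∀ k ∈ S.K, ‖V (u k) - u k‖ ≤ R * ‖k‖ := by
    intro u hu huu k hk
    rcases (norm_nonneg k).eq_or_lt with h0 | h0
    · simp [norm_eq_zero.1 h0.symm]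
    have hk1 : ‖((‖k‖ : ℂ)⁻¹) • k‖ ≤ 1 := by
      simp [norm_smul, h0.ne']
    have := le_csSup ⟨_, hle⟩ (show _ ∈ A from
      ⟨u, hu, huu, _, S.K.smul_mem _ hk, hk1, rfl⟩)
    simp only [map_smul, ← smul_sub, norm_smul, norm_inv, Complex.norm_real, norm_norm] at this
    rwa [inv_mul_le_iff₀ h0, mul_comm ‖k‖ R] at this
  have h2 : 7 / 4 * R ^ 2 ≤ R ^ 2 + 2 * R ^ 3 + 4 * γ * R + 15 * γ ^ 2 := by
    set B := R ^ 2 + 2 * R ^ 3 + 4 * γ * R + 15 * γ ^ 2 with hBdef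
    have hB0 : 0 ≤ B := by positivity
    have : R ≤ Real.sqrt (4 / 7 * B) := csSup_le hne (by
      rintro t ⟨w, hw, hwu, v, hv, hv1, rfl⟩
      refine Real.le_sqrt_of_sq_le ?_
      linarith [Setting.gap_step hV hγ hR0 hbd hw hwu hv hv1])
    have h3 := pow_le_pow_left₀ hR0 this 2
    rw [Real.sq_sqrt (by positivity)] at h3
    linarith
  have h16 := Setting.gap_arith hR0 hγ (csSup_le hne hle) h2
  intro x hx hx1 v hv
  exact (Setting.bd_of_unitary hbd x hx hx1 v hv).trans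
    (mul_le_mul_of_nonneg_right (by linarith) (norm_nonneg v))

end Vale.Agent.P096.Three.Flow
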