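import Vale.Agent.P096.Three.Flow.Gap

/-!
P096, type III, flow: a small mean over windows gives a uniform bound. The mean over a window of
the moves of one unitary is compared with the moves of products of its translates.
-/

open scoped InnerProductSpace ComplexConjugate
open Filter Topology MeasureTheory
open Vale.Agent.P096.Full.Reduce

namespace Vale.Agent.P096.Three.Flow

variable {H : Type} [NormedAddCommGroup H] [InnerProductSpace ℂ H] [CompleteSpace H]

omit [CompleteSpace H] in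
/-- A bounded strongly continuous family applied to a continuous curve. -/
lemma contApply {P : Type*} [TopologicalSpace P] {T : P → H →L[ℂ] H} {x : P → H} {C : ℝ}
    (hC : ∀ p, ‖T p‖ ≤ C) (hT : ∀ y, Continuous fun p => T p y) (hx : Continuous x) :
    Continuous fun p => T p (x p) := by
  refine continuous_iff_continuousAt.2 fun p₀ => ?_
  have h1 : Tendsto (fun p => T p (x p₀)) (𝓝 p₀) (𝓝 (T p₀ (x p₀))) := (hT (x p₀)).continuousAt
  have h2 : Tendsto (fun p => T p (x p - x p₀)) (𝓝 p₀) (𝓝 0) := by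
    refine squeeze_zero_norm (fun p => ((T p).le_opNorm _).trans
      (mul_le_mul_of_nonneg_right (hC p) (norm_nonneg _))) ?_
    simpa using ((hx.tendsto p₀).sub (tendsto_const_nhds (x := x p₀))).norm.const_mul C
  have h3 := h2.add h1
  rw [zero_add] at h3
  exact h3.congr fun p => by rw [← map_add, sub_add_cancel]

namespace Setting

variable (S : Setting H)

lemma U_unitary (t : ℝ) : S.U t ∈ unitary (H →L[ℂ] H) := by
  refine Unitary.mem_iff.2 ⟨?_, ?_⟩
  · rw [S.U_star, ← S.U_add, neg_add_cancel, S.U_zero]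
  · rw [S.U_star, ← S.U_add, add_neg_cancel, S.U_zero]

lemma U_cancel (t : ℝ) : S.U (-t) * S.U t = 1 := by rw [← S.U_add, neg_add_cancel, S.U_zero]

lemma sigma_unitary {u : H →L[ℂ] H} (hu : u ∈ unitary (H →L[ℂ] H)) (t : ℝ) :
    S.sigma t u ∈ unitary (H →L[ℂ] H) :=
  mul_mem (mul_mem (S.U_unitary t) hu) (S.U_unitary _)

lemma sigma_mem {u : H →L[ℂ] H} (hu : u ∈ S.M) (t : ℝ) : S.sigma t u ∈ S.M := S.U_mem t u hu

lemma sigma_sigma (u : H →L[ℂ] H) (s a : ℝ) : S.sigma s (S.sigma a u) = S.sigma (s + a) u := by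
  simp only [sigma, S.U_add, neg_add_rev]
  simp only [mul_assoc]

lemma sigma_g {g : H →L[ℂ] H} (hg : g ∈ S.Γ.carrier) (t : ℝ) : S.sigma t g = g := by
  rw [sigma, S.U_g t g hg, mul_assoc, ← S.U_add, add_neg_cancel, S.U_zero, mul_one]

lemma sigma_mul (a b : H →L[ℂ] H) (t : ℝ) : S.sigma t (a * b) = S.sigma t a * S.sigma t b := by
  simp only [sigma, mul_assoc]
  rw [← mul_assoc (S.U (-t)) (S.U t), S.U_cancel, one_mul]

lemma cont_sigma {u : H →L[ℂ] H} (_hu : u ∈ unitary (H →L[ℂ] H)) (y : H) :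
    Continuous fun t => S.sigma t u y := by
  have h1 : Continuous fun t : ℝ => u (S.U (-t) y) :=
    u.continuous.comp ((S.U_cont y).comp continuous_neg)
  simpa only [sigma, mul_apply_eq_comp] using
    contApply (fun t => norm_le_one (S.U_unitary t)) S.U_cont h1

variable {S} {γ : ℝ} {V : H →L[ℂ] H}

lemma Move.cont_mv (_h : S.Move γ V) {u : H →L[ℂ] H} (hu : u ∈ unitary (H →L[ℂ] H)) (y : H) :
    Continuous fun t => mv V (S.sigma t u) y := by
  have h1 : Continuous fun t => star (S.sigma t u) y := by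
    have : ∀ t, star (S.sigma t u) = S.sigma t (star u) := fun t => by
      simp only [sigma, star_mul, S.U_star, neg_neg, mul_assoc]
    simpa only [this] using S.cont_sigma (Unitary.star_mem hu) y
  have h2 := contApply (fun t => norm_le_one (S.sigma_unitary hu t)) (S.cont_sigma hu)
    ((star V : H →L[ℂ] H).continuous.comp h1)
  have h3 := V.continuous.comp h2
  simpa only [mv, mul_apply_eq_comp, Function.comp_def] using h3

/-- The move of a translate, seen through the flow. -/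
lemma Move.norm_mv_sigma (h : S.Move γ V) {u : H →L[ℂ] H} (hu : u ∈ unitary (H →L[ℂ] H)) (t : ℝ)
    {x : H} (hx : x ∈ S.K) :
    ‖mv V (S.sigma t u) x - x‖ = ‖V (S.U t (star u x)) - S.U t (star u x)‖ := by
  rw [h.norm_mv_sub (S.sigma_unitary hu t) hx]
  have : star (S.sigma t u) x = S.U t (star u x) := by
    simp only [sigma, star_mul, S.U_star, neg_neg, mul_apply_eq_comp, S.U_K (-t) hx]
  rw [this]

end Setting

omit [CompleteSpace H] in
/-- The square of a mean is at most the mean of the squares. -/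
lemma norm_sq_mean_le {ℓ : ℝ} (hℓ : 0 < ℓ) {f : ℝ → H} (hf : Continuous f) :
    ‖((2 * ℓ)⁻¹ : ℝ) • ∫ a in (-ℓ)..ℓ, f a‖ ^ 2 ≤ (2 * ℓ)⁻¹ * ∫ a in (-ℓ)..ℓ, ‖f a‖ ^ 2 := by
  set c := (2 * ℓ)⁻¹ * ∫ a in (-ℓ)..ℓ, ‖f a‖
  have hc : 0 ≤ c := mul_nonneg (by positivity)
    (intervalIntegral.integral_nonneg (by linarith) fun a _ => norm_nonneg _)
  have h1 : ‖((2 * ℓ)⁻¹ : ℝ) • ∫ a in (-ℓ)..ℓ, f a‖ ≤ c := by
    rw [norm_smul, Real.norm_of_nonneg (by positivity)]
    exact mul_le_mul_of_nonneg_left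
      (intervalIntegral.norm_integral_le_integral_norm (by linarith)) (by positivity)
  refine (pow_le_pow_left₀ (norm_nonneg _) h1 2).trans ?_
  have h2 : 0 ≤ ∫ a in (-ℓ)..ℓ, (‖f a‖ - c) ^ 2 :=
    intervalIntegral.integral_nonneg (by linarith) fun a _ => sq_nonneg _
  have e : ∀ a, (‖f a‖ - c) ^ 2 = ‖f a‖ ^ 2 - (2 * c) * ‖f a‖ + c ^ 2 := fun a => by ring
  have i1 : IntervalIntegrable (fun a => ‖f a‖ ^ 2) volume (-ℓ) ℓ :=
    ((hf.norm).pow 2).intervalIntegrable _ _
  have i2 : IntervalIntegrable (fun a => 2 * c * ‖f a‖) volume (-ℓ) ℓ :=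
    ((hf.norm).const_mul _).intervalIntegrable _ _
  simp only [e] at h2
  rw [intervalIntegral.integral_add (i1.sub i2) intervalIntegrable_const,
    intervalIntegral.integral_sub i1 i2, intervalIntegral.integral_const_mul,
    intervalIntegral.integral_const, smul_eq_mul] at h2
  have e2 : (∫ a in (-ℓ)..ℓ, ‖f a‖) = 2 * ℓ * c := by
    simp only [c]; field_simp
  rw [e2] at h2
  rw [le_inv_mul_iff₀ (by positivity)]
  linarith

/-- Lower bounds at every shift give one for the window mean. -/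
lemma window_swap {G : ℝ → ℝ → ℝ} {ℓ c : ℝ} (hℓ : 0 < ℓ)
    (hG : Continuous fun p : ℝ × ℝ => G p.2 p.1) (h : ∀ a, c ≤ ∫ s in (0 : ℝ)..ℓ, G a s) :
    c ≤ ∫ s in (0 : ℝ)..ℓ, (2 * ℓ)⁻¹ * ∫ a in (-ℓ)..ℓ, G a s := by
  have hi : IntegrableOn (Function.uncurry fun s a => G a s) (Set.uIoc 0 ℓ ×ˢ Set.uIoc (-ℓ) ℓ) :=
    (hG.continuousOn.integrableOn_compact (isCompact_uIcc.prod isCompact_uIcc)).mono_set
      (Set.prod_mono Set.uIoc_subset_uIcc Set.uIoc_subset_uIcc)
  rw [intervalIntegral.integral_const_mul, intervalIntegral_intervalIntegral_swap hi,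
    le_inv_mul_iff₀ (by positivity)]
  have := intervalIntegral.integral_mono_on (μ := volume) (a := -ℓ) (b := ℓ) (by linarith)
    intervalIntegrable_const
    ((intervalIntegral.continuous_parametric_intervalIntegral_of_continuous'
      (f := fun a s => G a s) (hG.comp continuous_swap) _ _).intervalIntegrable _ _)
    fun a _ => h a
  rw [intervalIntegral.integral_const, smul_eq_mul] at this
  linarith

namespace Setting

variable {S : Setting H} {γ : ℝ} {V : H →L[ℂ] H}

variable (S) in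
/-- The chain of averaged moves of `u` starting at `v`. -/
noncomputable def chain (V u : H →L[ℂ] H) (ℓ : ℝ) (v : H) : ℕ → ℝ → H
  | 0, _ => v
  | k + 1, s => chain V u ℓ v k s + (1 / 2 : ℂ) • S.P (((2 * ℓ)⁻¹ : ℝ) • ∫ a in (-ℓ)..ℓ,
      (mv V (S.sigma (s + a) u) (chain V u ℓ v k s) - chain V u ℓ v k s))

variable {u : H →L[ℂ] H} {ℓ : ℝ} {v : H}

lemma chain_mem (hv : v ∈ S.K) : ∀ k s, S.chain V u ℓ v k s ∈ S.K := by
  intro k
  induction k with
  | zero => exact fun _ => hv
  | succ k ih => exact fun s => add_mem (ih s) (S.K.smul_mem _ (S.P_mem _))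

lemma Move.cont_joint (h : S.Move γ V) (hu' : u ∈ unitary (H →L[ℂ] H)) {f : ℝ → H}
    (hf : Continuous f) : Continuous fun p : ℝ × ℝ => mv V (S.sigma (p.1 + p.2) u) (f p.1) :=
  contApply (fun _ => norm_le_one (h.mv_unitary (S.sigma_unitary hu' _)))
    (fun y => (h.cont_mv hu' y).comp (continuous_fst.add continuous_snd)) (hf.comp continuous_fst)

lemma Move.cont_window (h : S.Move γ V) (hu' : u ∈ unitary (H →L[ℂ] H)) (s : ℝ) (y : H) :
    Continuous fun a => mv V (S.sigma (s + a) u) y :=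
  (h.cont_mv hu' y).comp (continuous_const.add continuous_id)

lemma Move.chain_cont (h : S.Move γ V) (hu' : u ∈ unitary (H →L[ℂ] H)) :
    ∀ k, Continuous (S.chain V u ℓ v k) := by
  intro k
  induction k with
  | zero => exact continuous_const
  | succ k ih =>
    refine ih.add ((S.P.continuous.comp
      ((intervalIntegral.continuous_parametric_intervalIntegral_of_continuous' ?_ _ _).const_smul
        ((2 * ℓ)⁻¹ : ℝ))).const_smul (1 / 2 : ℂ))
    exact (h.cont_joint hu' ih).sub (ih.comp continuous_fst)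

lemma Move.chain_succ (h : S.Move γ V) (hu' : u ∈ unitary (H →L[ℂ] H)) (hℓ : 0 < ℓ) (hv : v ∈ S.K)
    (k : ℕ) (s : ℝ) : S.chain V u ℓ v (k + 1) s = (1 / 2 : ℂ) • S.chain V u ℓ v k s +
      (1 / 2 : ℂ) • S.P (((2 * ℓ)⁻¹ : ℝ) • ∫ a in (-ℓ)..ℓ,
        mv V (S.sigma (s + a) u) (S.chain V u ℓ v k s)) := by
  conv_lhs => rw [chain]
  rw [intervalIntegral.integral_sub ((h.cont_window hu' s _).intervalIntegrable _ _)
    intervalIntegrable_const, intervalIntegral.integral_const, smul_sub, smul_smul,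
    show (2 * ℓ)⁻¹ * (ℓ - -ℓ) = 1 by field_simp; ring, one_smul, map_sub,
    S.P_of_mem (chain_mem hv k s)]
  module

lemma Move.chain_norm (h : S.Move γ V) (hu' : u ∈ unitary (H →L[ℂ] H)) (hℓ : 0 < ℓ) (hv : v ∈ S.K)
    (hv1 : ‖v‖ = 1) : ∀ k s, ‖S.chain V u ℓ v k s‖ ≤ 1 := by
  intro k
  induction k with
  | zero => exact fun _ => hv1.le
  | succ k ih =>
    intro s
    rw [h.chain_succ hu' hℓ hv]
    refine (norm_add_le _ _).trans ?_
    rw [norm_smul, norm_smul, show ‖(1 / 2 : ℂ)‖ = 1 / 2 by norm_num]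
    have := intervalIntegral.norm_integral_le_of_norm_le_const (C := 1) (a := -ℓ) (b := ℓ)
      (f := fun a => mv V (S.sigma (s + a) u) (S.chain V u ℓ v k s)) fun a _ => by
        rw [unitary_norm (h.mv_unitary (S.sigma_unitary hu' _))]; exact ih s
    have h4 : ‖((2 * ℓ)⁻¹ : ℝ) • ∫ a in (-ℓ)..ℓ, mv V (S.sigma (s + a) u) (S.chain V u ℓ v k s)‖
        ≤ 1 := by
      rw [norm_smul, Real.norm_of_nonneg (by positivity), inv_mul_le_iff₀ (by positivity)]
      rw [abs_of_nonneg (by linarith)] at this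
      linarith
    linarith [ih s, (S.norm_P_le _).trans h4]

/-- The chain loses the window mean. -/
lemma Move.chain_decay (h : S.Move γ V) (hu' : u ∈ unitary (H →L[ℂ] H)) (hℓ : 0 < ℓ) (hv : v ∈ S.K)
    (hv1 : ‖v‖ = 1) (win : ∀ x ∈ S.K, ∀ s,
      ∫ a in (-ℓ)..ℓ, ‖mv V (S.sigma (s + a) u) x - x‖ ^ 2 ≤ 2 * (1 / 65536) * ℓ * ‖x‖ ^ 2)
    {s : ℝ} (hs : s ∈ Set.Icc 0 ℓ) :
    (⟪v, S.chain V u ℓ v 64 s⟫_ℂ).re ≤
      1 - ℓ⁻¹ * ∫ a in (0 : ℝ)..ℓ, ‖mv V (S.sigma a u) v - v‖ ^ 2 := by
  have qc : ∀ y, Continuous fun a => ‖mv V (S.sigma a u) y - y‖ ^ 2 :=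
    fun y => (((h.cont_mv hu' y).sub continuous_const).norm).pow 2
  set q := fun (s : ℝ) (x : H) => ‖mv V (S.sigma s u) x - x‖ ^ 2 with hq
  have ha := fun s y => h.cont_window hu' s y
  set x := S.chain V u ℓ v
  have xK : ∀ k s, x k s ∈ S.K := chain_mem hv
  set φ : H → ℝ := fun e => (2 * ℓ)⁻¹ * ∫ a in (-ℓ)..ℓ, q (s + a) (S.P e)
  have hi : ∀ e, IntervalIntegrable (fun a => q (s + a) e) volume (-ℓ) ℓ := fun e =>
    (((qc e).comp (continuous_const.add continuous_id))).intervalIntegrable _ _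
  have hP : ∀ k, ‖(1 / 2 : ℂ) • S.P (((2 * ℓ)⁻¹ : ℝ) • ∫ a in (-ℓ)..ℓ,
      (mv V (S.sigma (s + a) u) (x k s) - x k s))‖ ^ 2 ≤ φ (x k s) / 4 := fun k => by
    rw [norm_smul, mul_pow, show ‖(1 / 2 : ℂ)‖ = 1 / 2 by norm_num]
    have h1 := norm_sq_mean_le hℓ (f := fun a => mv V (S.sigma (s + a) u) (x k s) - x k s)
      ((ha s (x k s)).sub continuous_const)
    have h2 := pow_le_pow_left₀ (norm_nonneg _) (S.norm_P_le (((2 * ℓ)⁻¹ : ℝ) • ∫ a in (-ℓ)..ℓ,
      (mv V (S.sigma (s + a) u) (x k s) - x k s))) 2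
    simp only [φ, S.P_of_mem (xK k s)]
    linarith
  have := decay (fun k => x k s) φ (1 / 65536) (by norm_num) hv1
    (fun e => by
      simp only [φ]
      rw [inv_mul_le_iff₀ (by positivity)]
      refine (win _ (S.P_mem e) s).trans ?_
      nlinarith [pow_le_pow_left₀ (norm_nonneg _) (S.norm_P_le e) 2])
    (fun e => mul_nonneg (by positivity) (intervalIntegral.integral_nonneg (by linarith)
      fun a _ => sq_nonneg _))
    (fun a b => by
      simp only [φ, map_sub]
      have e1 : ∀ r, q (s + r) (S.P a) ≤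
          2 * q (s + r) (S.P b) + 2 * q (s + r) (S.P a - S.P b) := fun r => by
        simp only [q, map_sub]
        set p := mv V (S.sigma (s + r) u) (S.P a) - S.P a
        set p' := mv V (S.sigma (s + r) u) (S.P b) - S.P b
        rw [show mv V (S.sigma (s + r) u) (S.P a) - mv V (S.sigma (s + r) u) (S.P b) -
          (S.P a - S.P b) = p - p' by simp only [p, p']; abel]
        nlinarith [norm_le_insert' p p', norm_nonneg (p - p'), norm_nonneg p, norm_nonneg p',
          sq_nonneg (‖p'‖ - ‖p - p'‖)]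
      have := intervalIntegral.integral_mono_on (μ := volume) (a := -ℓ) (b := ℓ) (by linarith)
        (hi _) (((hi _).const_mul 2).add ((hi _).const_mul 2)) fun r _ => e1 r
      rw [intervalIntegral.integral_add ((hi _).const_mul 2) ((hi _).const_mul 2),
        intervalIntegral.integral_const_mul, intervalIntegral.integral_const_mul] at this
      have h0 : (0 : ℝ) ≤ (2 * ℓ)⁻¹ := by positivity
      nlinarith)
    (fun k => by
      rw [show x (k + 1) s = x k s + (1 / 2 : ℂ) • S.P (((2 * ℓ)⁻¹ : ℝ) • ∫ a in (-ℓ)..ℓ,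
        (mv V (S.sigma (s + a) u) (x k s) - x k s)) from rfl]
      rw [@norm_add_sq ℂ, inner_smul_right, S.inner_P (xK k s), RCLike.real_smul_eq_coe_smul (K := ℂ),
        inner_smul_right]
      have e : (⟪x k s, ∫ a in (-ℓ)..ℓ, (mv V (S.sigma (s + a) u) (x k s) - x k s)⟫_ℂ).re =
          -(∫ a in (-ℓ)..ℓ, q (s + a) (x k s)) / 2 := by
        have hcomm := (RCLike.reCLM.comp ((innerSL ℂ (x k s)).restrictScalars ℝ)
          ).intervalIntegral_comp_comm (μ := volume) (a := -ℓ) (b := ℓ)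
          (show IntervalIntegrable (fun a => mv V (S.sigma (s + a) u) (x k s) - x k s) volume (-ℓ) ℓ from
            ((ha s (x k s)).sub continuous_const).intervalIntegrable _ _)
        simp only [ContinuousLinearMap.comp_apply, ContinuousLinearMap.coe_restrictScalars',
          innerSL_apply_apply, RCLike.reCLM_apply, RCLike.re_to_complex] at hcomm
        rw [← hcomm, neg_div, ← intervalIntegral.integral_div, ← intervalIntegral.integral_neg]
        refine intervalIntegral.integral_congr fun a _ => ?_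
        simp only [q]
        rw [inner_sub_right, Complex.sub_re, ← S.inner_P (xK k s) (mv V (S.sigma (s + a) u) (x k s)),
          ← Setting.iota, h.re_inner_iota (S.sigma_unitary hu' _) (xK k s)]
        simp only [inner_self_eq_norm_sq_to_K]
        norm_num [← Complex.ofReal_pow]
      have h3 := hP k
      rw [RCLike.real_smul_eq_coe_smul (K := ℂ)] at h3
      simp only [φ, S.P_of_mem (xK k s)] at *
      simp only [RCLike.re_to_complex, Complex.mul_re] at *
      norm_num at *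
      rw [e]
      linarith)
    (fun k => by
      rw [show x (k + 1) s = x k s + (1 / 2 : ℂ) • S.P (((2 * ℓ)⁻¹ : ℝ) • ∫ a in (-ℓ)..ℓ,
        (mv V (S.sigma (s + a) u) (x k s) - x k s)) from rfl, add_sub_cancel_left]
      exact hP k)
  refine ((Complex.re_le_norm _).trans (norm_inner_le_norm _ _)).trans ?_
  rw [hv1, one_mul]
  refine this.trans ?_
  simp only [φ]
  change 1 - 2 * ((2 * ℓ)⁻¹ * ∫ a in (-ℓ)..ℓ, q (s + a) (S.P v)) ≤ _
  rw [S.P_of_mem hv]
  have sub : ∫ a in (0 : ℝ)..ℓ, q a v ≤ ∫ a in (-ℓ)..ℓ, q (s + a) v := by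
    rw [intervalIntegral.integral_comp_add_left (fun a => q a v) s]
    exact intervalIntegral.integral_mono_interval (by linarith [hs.2]) hℓ.le
      (by linarith [hs.1]) (Eventually.of_forall fun a => sq_nonneg _)
      ((qc v).intervalIntegrable _ _)
  have e : 2 * ((2 * ℓ)⁻¹ * ∫ a in (-ℓ)..ℓ, q (s + a) v) =
      ℓ⁻¹ * ∫ a in (-ℓ)..ℓ, q (s + a) v := by field_simp
  rw [e]
  have := mul_le_mul_of_nonneg_left sub (inv_nonneg.2 hℓ.le)
  linarith

/-- One averaged step, pointwise in the shift. -/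
lemma Move.shift_low (h : S.Move γ V) (hγ : 0 ≤ γ) (hu : u ∈ S.M)
    (hu' : u ∈ unitary (H →L[ℂ] H)) (hℓ : 0 < ℓ) (hv : v ∈ S.K) (hv1 : ‖v‖ = 1) {x : ℝ → H}
    (xc : Continuous x) (xK : ∀ s, x s ∈ S.K) (hx1 : ∀ s, ‖x s‖ ≤ 1) {c : ℝ}
    (ih : ∀ w ∈ S.M, w ∈ unitary (H →L[ℂ] H) →
      c ≤ ∫ s in (0 : ℝ)..ℓ, (⟪v, S.iota V (S.sigma s w) (x s)⟫_ℂ).re)
    {w : H →L[ℂ] H} (hw : w ∈ S.M) (hw' : w ∈ unitary (H →L[ℂ] H)) (a : ℝ) :
    c - 2 * γ * ℓ ≤ ∫ s in (0 : ℝ)..ℓ,
      (⟪v, S.iota V (S.sigma s w) (S.iota V (S.sigma (s + a) u) (x s))⟫_ℂ).re := by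
  have cI : ∀ {w : H →L[ℂ] H}, w ∈ unitary (H →L[ℂ] H) → ∀ {y : ℝ → H}, Continuous y →
      Continuous fun s => S.iota V (S.sigma s w) (y s) := fun hw _ hy =>
    S.P.continuous.comp (contApply
      (fun s => norm_le_one (h.mv_unitary (S.sigma_unitary hw s))) (h.cont_mv hw) hy)
  set G := fun (a s : ℝ) =>
    (⟪v, S.iota V (S.sigma s w) (S.iota V (S.sigma (s + a) u) (x s))⟫_ℂ).re
  show c - 2 * γ * ℓ ≤ ∫ s in (0 : ℝ)..ℓ, G a s
  set u' := S.sigma a u
  have hu1 := S.sigma_mem hu a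
  have hu2 := S.sigma_unitary hu' a
  set Fm := fun (m : ℕ) (s : ℝ) => (⟪v, avg S.Γ m (fun g =>
    mv V (S.sigma s w * (g * S.sigma s u' * star g))) (x s)⟫_ℂ).re
  have hsig : ∀ g ∈ S.Γ.carrier, ∀ s, S.sigma s w * (g * S.sigma s u' * star g) =
      S.sigma s (w * (g * u' * star g)) := fun g hg s => by
    simp only [S.sigma_mul, S.sigma_g hg, S.sigma_g (Groups.star_carrier hg)]
  have hFm : ∀ m, Continuous (Fm m) := fun m => by
    have : Fm m = fun s => (((S.Γ.G m).card : ℝ))⁻¹ * ∑ g ∈ S.Γ.G m,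
        (⟪v, mv V (S.sigma s (w * (g * u' * star g))) (x s)⟫_ℂ).re := by
      funext s
      simp only [Fm, avg, smul_apply, sum_apply, inner_smul_right, inner_sum]
      rw [← Complex.ofReal_natCast, ← Complex.ofReal_inv, Complex.re_ofReal_mul, Complex.re_sum]
      refine congrArg _ (Finset.sum_congr rfl fun g hg => by rw [hsig g ⟨m, hg⟩])
    rw [this]
    refine continuous_const.mul (continuous_finsetSum _ fun g hg => Complex.continuous_re.comp
      (continuous_const.inner (contApply (fun s => norm_le_one (h.mv_unitary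
        (S.sigma_unitary (mul_mem hw' (mul_mem (mul_mem (S.Γ.mem_unitary m g hg) hu2)
          (Unitary.star_mem (S.Γ.mem_unitary m g hg)))) s))) (h.cont_mv
        (mul_mem hw' (mul_mem (mul_mem (S.Γ.mem_unitary m g hg) hu2)
          (Unitary.star_mem (S.Γ.mem_unitary m g hg))))) xc)))
  have hF1 : ∀ m, c ≤ ∫ s in (0 : ℝ)..ℓ, Fm m s := fun m => by
    have hc : 0 < ((S.Γ.G m).card : ℝ) :=
      Nat.cast_pos.2 (Finset.card_pos.2 ⟨1, S.Γ.one_mem m⟩)
    have : ∀ s, Fm m s = ((S.Γ.G m).card : ℝ)⁻¹ * ∑ g ∈ S.Γ.G m,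
        (⟪v, S.iota V (S.sigma s (w * (g * u' * star g))) (x s)⟫_ℂ).re := fun s => by
      simp only [Fm, avg, smul_apply, sum_apply, inner_smul_right, inner_sum]
      rw [← Complex.ofReal_natCast, ← Complex.ofReal_inv, Complex.re_ofReal_mul, Complex.re_sum]
      refine congrArg _ (Finset.sum_congr rfl fun g hg => by
        rw [hsig g ⟨m, hg⟩, Setting.iota, S.inner_P hv])
    simp only [this]
    have ci : ∀ g ∈ S.Γ.G m, IntervalIntegrable (fun s =>
        (⟪v, S.iota V (S.sigma s (w * (g * u' * star g))) (x s)⟫_ℂ).re) volume 0 ℓ := fun g hg =>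
      (Complex.continuous_re.comp (continuous_const.inner (cI (mul_mem hw' (mul_mem (mul_mem
        (S.Γ.mem_unitary m g hg) hu2) (Unitary.star_mem (S.Γ.mem_unitary m g hg)))) xc))
        ).intervalIntegrable _ _
    rw [intervalIntegral.integral_const_mul, intervalIntegral.integral_finsetSum ci,
      le_inv_mul_iff₀ hc, ← nsmul_eq_mul]
    refine Finset.card_nsmul_le_sum _ _ _ fun g hg => ?_
    have hgM := S.memM g ⟨m, hg⟩
    have hgu := S.Γ.mem_unitary m g hg
    exact ih _ (mul_mem hw (mul_mem (mul_mem hgM hu1) (star_mem hgM)))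
      (mul_mem hw' (mul_mem (mul_mem hgu hu2) (Unitary.star_mem hgu)))
  set D := fun (m : ℕ) (s : ℝ) => max (Fm m s - G a s - 2 * γ) 0
  have hGc : Continuous (G a) := Complex.continuous_re.comp (continuous_const.inner
    (cI hw' (S.P.continuous.comp (contApply
      (fun s => norm_le_one (h.mv_unitary (S.sigma_unitary hu' _)))
      (fun y => (h.cont_mv hu' y).comp (continuous_id.add continuous_const)) xc))))
  have hDc : ∀ m, Continuous (D m) := fun m =>
    (((hFm m).sub hGc).sub continuous_const).max continuous_const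
  have hG2 : ∀ s, |G a s| ≤ 1 := fun s => by
    refine (Complex.abs_re_le_norm _).trans ((norm_inner_le_norm _ _).trans ?_)
    rw [hv1, one_mul]
    refine (S.norm_P_le _).trans ?_
    rw [unitary_norm (h.mv_unitary (S.sigma_unitary hw' s))]
    refine (S.norm_P_le _).trans ?_
    rw [unitary_norm (h.mv_unitary (S.sigma_unitary hu' _))]
    exact hx1 s
  have hF2 : ∀ m s, |Fm m s| ≤ 1 := fun m s => by
    refine (Complex.abs_re_le_norm _).trans ((norm_inner_le_norm _ _).trans ?_)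
    rw [hv1, one_mul]
    refine (norm_avg_apply_le (c := 1) _ fun g hg => ?_).trans (by rw [one_mul]; exact hx1 s)
    exact norm_le_one (h.mv_unitary (mul_mem (S.sigma_unitary hw' s) (mul_mem (mul_mem
      (S.Γ.mem_unitary m g hg) (S.sigma_unitary hu2 s))
      (Unitary.star_mem (S.Γ.mem_unitary m g hg)))))
  have lim : Tendsto (fun m => ∫ s in (0 : ℝ)..ℓ, D m s) atTop (𝓝 0) := by
    have := intervalIntegral.tendsto_integral_filter_of_dominated_convergence
      (μ := volume) (a := 0) (b := ℓ) (l := atTop) (F := D) (f := fun _ => (0 : ℝ))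
      (fun _ => 2) (Eventually.of_forall fun m => (hDc m).aestronglyMeasurable)
      (Eventually.of_forall fun m => Eventually.of_forall fun s _ => by
        rw [Real.norm_eq_abs, abs_of_nonneg (le_max_right _ _)]
        refine max_le ?_ zero_le_two
        linarith [abs_le.1 (hF2 m s), abs_le.1 (hG2 s)])
      intervalIntegrable_const (Eventually.of_forall fun s _ => ?_)
    · simpa using this
    · refine Metric.tendsto_nhds.2 fun ε hε => ?_
      filter_upwards [h.step (S.sigma_mem hw s) (S.sigma_unitary hw' s) (S.sigma_mem hu1 s)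
        (S.sigma_unitary hu2 s) hv (xK s) (half_pos hε)] with m hm
      rw [Real.dist_eq, sub_zero, abs_of_nonneg (le_max_right _ _)]
      refine max_lt ?_ hε
      have h5 := (Complex.re_le_norm _).trans hm
      rw [Complex.sub_re, abs_of_nonneg hγ, hv1, one_mul, S.sigma_sigma] at h5
      simp only [Fm, G, u', S.sigma_sigma] at h5 ⊢
      have := mul_le_mul_of_nonneg_left (hx1 s) (by positivity : 0 ≤ 2 * γ)
      linarith
  have hb : ∀ m, c ≤
      (∫ s in (0 : ℝ)..ℓ, G a s) + 2 * γ * ℓ + ∫ s in (0 : ℝ)..ℓ, D m s := fun m => by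
    refine (hF1 m).trans ?_
    have i3 : IntervalIntegrable (fun _ : ℝ => 2 * γ) volume 0 ℓ := intervalIntegrable_const
    have := intervalIntegral.integral_mono_on (μ := volume) hℓ.le
      ((hFm m).intervalIntegrable 0 ℓ)
      (((hGc.intervalIntegrable 0 ℓ).add i3).add ((hDc m).intervalIntegrable 0 ℓ))
      fun s _ => show Fm m s ≤ G a s + 2 * γ + D m s by
        linarith [le_max_left (Fm m s - G a s - 2 * γ) 0]
    rw [intervalIntegral.integral_add ((hGc.intervalIntegrable 0 ℓ).add i3)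
      ((hDc m).intervalIntegrable 0 ℓ), intervalIntegral.integral_add
      (hGc.intervalIntegrable 0 ℓ) i3, intervalIntegral.integral_const, smul_eq_mul] at this
    linarith
  have := ge_of_tendsto' (tendsto_const_nhds.add lim) hb
  linarith

/-- All unitaries see the chain. -/
lemma Move.low (h : S.Move γ V) (hγ : 0 ≤ γ) (hu : u ∈ S.M)
    (hu' : u ∈ unitary (H →L[ℂ] H)) (hℓ : 0 < ℓ) (hv : v ∈ S.K) (hv1 : ‖v‖ = 1) {μ : ℝ}
    (hμ : ∀ w ∈ S.M, w ∈ unitary (H →L[ℂ] H) →
      ∫ s in (0 : ℝ)..ℓ, ‖mv V (S.sigma s w) v - v‖ ^ 2 ≤ μ) :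
    ∀ (k : ℕ), ∀ w ∈ S.M, w ∈ unitary (H →L[ℂ] H) → ℓ - μ / 2 - 2 * k * γ * ℓ ≤
      ∫ s in (0 : ℝ)..ℓ, (⟪v, S.iota V (S.sigma s w) (S.chain V u ℓ v k s)⟫_ℂ).re := by
  have cI : ∀ {w : H →L[ℂ] H}, w ∈ unitary (H →L[ℂ] H) → ∀ {y : ℝ → H}, Continuous y →
      Continuous fun s => S.iota V (S.sigma s w) (y s) := fun hw _ hy =>
    S.P.continuous.comp (contApply
      (fun s => norm_le_one (h.mv_unitary (S.sigma_unitary hw s))) (h.cont_mv hw) hy)
  intro k
  induction k with
  | zero =>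
    intro w hw hw'
    have e : ∀ s, (⟪v, S.iota V (S.sigma s w) (S.chain V u ℓ v 0 s)⟫_ℂ).re =
        1 - ‖mv V (S.sigma s w) v - v‖ ^ 2 / 2 := fun s => by
      rw [chain, h.re_inner_iota (S.sigma_unitary hw' s) hv, hv1]; ring
    simp only [e]
    have c1 : Continuous fun s => ‖mv V (S.sigma s w) v - v‖ ^ 2 / 2 :=
      ((((h.cont_mv hw' v).sub (continuous_const (y := v))).norm).pow 2).div_const 2
    rw [intervalIntegral.integral_sub intervalIntegrable_const (c1.intervalIntegrable _ _),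
      intervalIntegral.integral_div, intervalIntegral.integral_const, smul_eq_mul]
    push_cast
    linarith [hμ w hw hw']
  | succ k ih =>
    intro w hw hw'
    have xc := h.chain_cont (ℓ := ℓ) (v := v) hu' k
    have G1 := h.shift_low hγ hu hu' hℓ hv hv1 xc (chain_mem hv k) (h.chain_norm hu' hℓ hv hv1 k)
      ih hw hw'
    set x := S.chain V u ℓ v k
    set G := fun (a s : ℝ) =>
      (⟪v, S.iota V (S.sigma s w) (S.iota V (S.sigma (s + a) u) (x s))⟫_ℂ).re
    have hGj : Continuous fun p : ℝ × ℝ => G p.2 p.1 :=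
      Complex.continuous_re.comp (continuous_const.inner (S.P.continuous.comp (contApply
        (fun p => norm_le_one (h.mv_unitary (S.sigma_unitary hw' _)))
        (fun y => (h.cont_mv hw' y).comp continuous_fst)
        (S.P.continuous.comp (h.cont_joint hu' xc)))))
    have e : ∀ s, (⟪v, S.iota V (S.sigma s w) (S.chain V u ℓ v (k + 1) s)⟫_ℂ).re =
        1 / 2 * (⟪v, S.iota V (S.sigma s w) (x s)⟫_ℂ).re +
        1 / 2 * ((2 * ℓ)⁻¹ * ∫ a in (-ℓ)..ℓ, G a s) := by
      intro s
      set L : H →L[ℂ] ℂ := (innerSL ℂ v).comp (S.P.comp (mv V (S.sigma s w)))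
      have hL : ∀ y, ⟪v, S.iota V (S.sigma s w) y⟫_ℂ = L y := fun y => rfl
      have hLi := (RCLike.reCLM.comp ((L.comp S.P).restrictScalars ℝ)).intervalIntegral_comp_comm
        (μ := volume) (a := -ℓ) (b := ℓ)
        ((h.cont_window hu' s (x s)).intervalIntegrable _ _)
      simp only [ContinuousLinearMap.comp_apply, ContinuousLinearMap.coe_restrictScalars',
        RCLike.reCLM_apply, RCLike.re_to_complex] at hLi
      have eG : ∀ a, G a s = (L (S.P (mv V (S.sigma (s + a) u) (x s)))).re := fun a => rfl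
      simp only [eG]
      rw [hLi, hL, hL, h.chain_succ hu' hℓ hv, RCLike.real_smul_eq_coe_smul (K := ℂ)]
      simp only [map_add, map_smul, smul_eq_mul, Complex.add_re, Complex.mul_re]
      norm_num [x]
    have i1 : IntervalIntegrable (fun s => (⟪v, S.iota V (S.sigma s w) (x s)⟫_ℂ).re) volume 0 ℓ :=
      (Complex.continuous_re.comp (continuous_const.inner (cI hw' xc))).intervalIntegrable _ _
    have i2 : IntervalIntegrable (fun s => (2 * ℓ)⁻¹ * ∫ a in (-ℓ)..ℓ, G a s) volume 0 ℓ :=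
      (continuous_const.mul (intervalIntegral.continuous_parametric_intervalIntegral_of_continuous'
        (f := fun s a => G a s) hGj _ _)).intervalIntegrable _ _
    have h7 := window_swap hℓ hGj G1
    have h8 := ih w hw hw'
    rw [intervalIntegral.integral_congr fun s _ => e s,
      intervalIntegral.integral_add (i1.const_mul _) (i2.const_mul _),
      intervalIntegral.integral_const_mul, intervalIntegral.integral_const_mul]
    push_cast
    linarith [mul_nonneg hγ hℓ.le]

/-- IMPROVE: a crude bound on windows is a bound of the size of the defect. -/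
theorem Move.improve (h : S.Move γ V) (hγ : 0 ≤ γ) (hℓ : 0 < ℓ)
    (hκ : ∀ u ∈ S.M, u ∈ unitary (H →L[ℂ] H) → ∀ x ∈ S.K,
      ∫ s in (0 : ℝ)..ℓ, ‖mv V (S.sigma s u) x - x‖ ^ 2 ≤ 1 / 65536 * ℓ * ‖x‖ ^ 2) :
    ∀ u ∈ S.M, u ∈ unitary (H →L[ℂ] H) → ∀ x ∈ S.K,
      ∫ s in (0 : ℝ)..ℓ, ‖mv V (S.sigma s u) x - x‖ ^ 2 ≤ 256 * γ * ℓ * ‖x‖ ^ 2 := by
  suffices key : ∀ v ∈ S.K, ‖v‖ = 1 → ∀ u ∈ S.M, u ∈ unitary (H →L[ℂ] H) →
      ∫ s in (0 : ℝ)..ℓ, ‖mv V (S.sigma s u) v - v‖ ^ 2 ≤ 256 * γ * ℓ by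
    intro u hu hu' x hx
    rcases (norm_nonneg x).eq_or_lt with h0 | h0
    · simp [norm_eq_zero.1 h0.symm]
    set w : H := ((‖x‖⁻¹ : ℝ) : ℂ) • x
    have hw1 : ‖w‖ = 1 := by
      rw [norm_smul, Complex.norm_real, norm_inv, norm_norm, inv_mul_cancel₀ h0.ne']
    have h1 := key w (S.K.smul_mem _ hx) hw1 u hu hu'
    simp only [w, map_smul, ← smul_sub, norm_smul, Complex.norm_real, norm_inv, norm_norm,
      mul_pow, intervalIntegral.integral_const_mul] at h1
    rw [inv_pow, inv_mul_le_iff₀ (by positivity)] at h1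
    linarith
  intro v hv hv1
  set q := fun (u : H →L[ℂ] H) (s : ℝ) (x : H) => ‖mv V (S.sigma s u) x - x‖ ^ 2 with hq
  have qc : ∀ {u : H →L[ℂ] H}, u ∈ unitary (H →L[ℂ] H) → ∀ x, Continuous fun s => q u s x :=
    fun hu x => (((h.cont_mv hu x).sub continuous_const).norm).pow 2
  set T : Set ℝ := {t | ∃ u ∈ S.M, u ∈ unitary (H →L[ℂ] H) ∧ t = ∫ s in (0 : ℝ)..ℓ, q u s v}
  have hT : T.Nonempty := ⟨_, 1, one_mem _, one_mem _, rfl⟩
  have hTb : BddAbove T := ⟨1 / 65536 * ℓ * ‖v‖ ^ 2, by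
    rintro _ ⟨u, hu, hu', rfl⟩; exact hκ u hu hu' v hv⟩
  set μ := sSup T
  have hμ : ∀ u ∈ S.M, u ∈ unitary (H →L[ℂ] H) → ∫ s in (0 : ℝ)..ℓ, q u s v ≤ μ :=
    fun u hu hu' => le_csSup hTb ⟨u, hu, hu', rfl⟩
  suffices μ ≤ 256 * γ * ℓ from fun u hu hu' => (hμ u hu hu').trans this
  have main : ∀ u ∈ S.M, u ∈ unitary (H →L[ℂ] H) →
      ∫ s in (0 : ℝ)..ℓ, q u s v ≤ μ / 2 + 128 * γ * ℓ := by
    intro u hu hu'
    -- windows of length `2 ℓ` around `s`
    have win : ∀ x ∈ S.K, ∀ s, ∫ a in (-ℓ)..ℓ, q u (s + a) x ≤ 2 * (1 / 65536) * ℓ * ‖x‖ ^ 2 := by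
      intro x hx s
      have piece : ∀ c, ∫ a in c..(c + ℓ), q u (s + a) x ≤ 1 / 65536 * ℓ * ‖x‖ ^ 2 := fun c => by
        have := hκ _ (S.sigma_mem hu (s + c)) (S.sigma_unitary hu' _) x hx
        simp only [S.sigma_sigma] at this
        refine le_of_eq_of_le ?_ this
        have := intervalIntegral.integral_comp_add_right (fun a => q u (s + a) x) c
          (a := (0 : ℝ)) (b := ℓ)
        rw [zero_add, add_comm ℓ c] at this
        rw [← this]
        refine intervalIntegral.integral_congr fun a _ => ?_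
        simp only [q, add_left_comm]
      have c1 : Continuous fun a => q u (s + a) x := (qc hu' x).comp (continuous_const.add continuous_id)
      have := intervalIntegral.integral_add_adjacent_intervals
        (c1.intervalIntegrable (μ := volume) (-ℓ) 0) (c1.intervalIntegrable 0 ℓ)
      have p1 := piece (-ℓ)
      have p2 := piece 0
      rw [neg_add_cancel] at p1
      rw [zero_add] at p2
      linarith
    have dec := fun s (hs : s ∈ Set.Icc 0 ℓ) => h.chain_decay hu' hℓ hv hv1 win hs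
    have low := h.low hγ hu hu' hℓ hv hv1 hμ
    set x := S.chain V u ℓ v
    have xc : ∀ k, Continuous (x k) := h.chain_cont hu'
    have xK : ∀ k s, x k s ∈ S.K := chain_mem hv
    have e64 := low 64 1 (one_mem _) (one_mem _)
    have i1 : ∀ s, S.iota V (S.sigma s 1) (x 64 s) = x 64 s := fun s => by
      have h9 : S.sigma s (1 : H →L[ℂ] H) = 1 := S.sigma_g ⟨0, S.Γ.one_mem 0⟩ s
      have : mv V (1 : H →L[ℂ] H) = 1 := by simp [mv, (Unitary.mem_iff.1 h.unit).2]
      rw [Setting.iota, h9, this, one_apply_eq_self, S.P_of_mem (xK 64 s)]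
    simp only [i1] at e64
    have h10 := intervalIntegral.integral_mono_on (μ := volume) hℓ.le
      ((Complex.continuous_re.comp (continuous_const.inner (xc 64))).intervalIntegrable 0 ℓ)
      intervalIntegrable_const dec
    rw [intervalIntegral.integral_const, smul_eq_mul, sub_zero, mul_sub, mul_one, ← mul_assoc,
      mul_inv_cancel₀ hℓ.ne', one_mul] at h10
    simp only [Function.comp_apply] at h10
    push_cast at e64
    linarith
  have : μ ≤ μ / 2 + 128 * γ * ℓ := csSup_le hT (by rintro _ ⟨u, hu, hu', rfl⟩; exact main u hu hu')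
  linarith

end Setting

/-- GROW. -/
theorem growSpec : GrowSpec := by
  refine ⟨32, 1 / 131072, 1 / 67108864, by norm_num, by norm_num, by norm_num, ?_⟩
  intro H _ _ _ F d hd hγ hmean t ht
  set S := F.S
  set V := F.D t
  set γ := F.γ
  have hγ0 : 0 ≤ γ := F.γ_nonneg
  have h : S.Move γ V := F.move t
  have all : ∀ n : ℕ, ∀ u ∈ S.M, u ∈ unitary (H →L[ℂ] H) → ∀ x ∈ S.K,
      ∫ s in (0 : ℝ)..(d / 2 ^ n), ‖mv V (S.sigma s u) x - x‖ ^ 2 ≤
        256 * γ * (d / 2 ^ n) * ‖x‖ ^ 2 := by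
    intro n
    induction n with
    | zero =>
      refine h.improve hγ0 (by simpa using hd) fun u _ hu' x hx => ?_
      simp only [pow_zero, div_one]
      have h1 := hmean t ht (star u x)
      have h2 : Continuous fun s => ‖V (S.U s (star u x)) - S.U s (star u x)‖ ^ 2 :=
        ((((V.continuous).comp (S.U_cont _)).sub (S.U_cont _)).norm).pow 2
      have h3 := intervalIntegral.integral_mono_interval (μ := volume) (a := 0) (b := d) (c := -d)
        (d := d) (by linarith) hd.le le_rfl (Eventually.of_forall fun s => sq_nonneg _)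
        (h2.intervalIntegrable _ _)
      have e : ∀ s, ‖mv V (S.sigma s u) x - x‖ = ‖V (S.U s (star u x)) - S.U s (star u x)‖ :=
        fun s => h.norm_mv_sigma hu' s hx
      simp only [e]
      refine h3.trans (h1.trans (le_of_eq ?_))
      rw [unitary_norm (Unitary.star_mem hu')]
      ring
    | succ n ih =>
      refine h.improve hγ0 (by positivity) fun u hu hu' x hx => ?_
      have h2 : Continuous fun s => ‖mv V (S.sigma s u) x - x‖ ^ 2 :=
        (((h.cont_mv hu' x).sub continuous_const).norm).pow 2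
      have h3 := intervalIntegral.integral_mono_interval (μ := volume) (a := 0)
        (b := d / 2 ^ (n + 1)) (c := 0) (d := d / 2 ^ n) le_rfl (by positivity)
        (div_le_div_of_nonneg_left hd.le (by positivity)
          (pow_le_pow_right₀ one_le_two (Nat.le_succ n)))
        (Eventually.of_forall fun s => sq_nonneg _) (h2.intervalIntegrable _ _)
      refine h3.trans ((ih u hu hu' x hx).trans ?_)
      have e : d / 2 ^ n = 2 * (d / 2 ^ (n + 1)) := by rw [pow_succ]; field_simp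
      rw [e]
      have h4 : 0 ≤ d / 2 ^ (n + 1) * ‖x‖ ^ 2 := by positivity
      nlinarith [mul_le_mul_of_nonneg_right hγ h4]
  have at0 : ∀ u ∈ S.M, u ∈ unitary (H →L[ℂ] H) → ∀ x ∈ S.K,
      ‖mv V u x - x‖ ^ 2 ≤ 256 * γ * ‖x‖ ^ 2 := by
    intro u hu hu' x hx
    set f := fun s => ‖mv V (S.sigma s u) x - x‖ ^ 2
    have hf : Continuous f := (((h.cont_mv hu' x).sub continuous_const).norm).pow 2
    have e0 : f 0 = ‖mv V u x - x‖ ^ 2 := by
      simp [f, Setting.sigma, neg_zero, S.U_zero]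
    by_contra hc
    rw [not_le, ← e0] at hc
    obtain ⟨r, hr, hball⟩ := Metric.mem_nhds_iff.1 (hf.continuousAt.preimage_mem_nhds
      (isOpen_Ioi.mem_nhds (show (256 * γ * ‖x‖ ^ 2 + f 0) / 2 < f 0 by linarith)))
    obtain ⟨n, hn⟩ := exists_pow_lt_of_lt_one (div_pos hr hd) (show (1 / 2 : ℝ) < 1 by norm_num)
    have hn' : d / 2 ^ n < r := by
      rw [div_pow, one_pow, lt_div_iff₀ hd] at hn
      rw [div_eq_mul_inv, ← one_div]; linarith
    have hp : 0 < d / 2 ^ n := by positivity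
    have h5 := intervalIntegral.integral_mono_on (μ := volume) hp.le intervalIntegrable_const
      (hf.intervalIntegrable 0 (d / 2 ^ n)) fun s hs => le_of_lt (hball (by
        rw [Metric.mem_ball, Real.dist_eq, sub_zero, abs_of_nonneg hs.1]; linarith [hs.2]))
    rw [intervalIntegral.integral_const, smul_eq_mul, sub_zero] at h5
    nlinarith [all n u hu hu' x hx]
  have hr : ∀ u ∈ S.M, u ∈ unitary (H →L[ℂ] H) → ∀ v ∈ S.K,
      ‖V (u v) - u v‖ ≤ 16 * Real.sqrt γ * ‖v‖ := by
    intro u hu hu' v hv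
    have h1 := at0 _ (star_mem hu) (Unitary.star_mem hu') v hv
    rw [h.norm_mv_sub (Unitary.star_mem hu') hv, star_star] at h1
    refine le_of_pow_le_pow_left₀ two_ne_zero (by positivity) (h1.trans (le_of_eq ?_))
    rw [mul_pow, mul_pow, Real.sq_sqrt hγ0]
    ring
  intro x hx hx1 v hv
  refine (Setting.bd_of_unitary hr x hx hx1 v hv).trans (le_of_eq ?_)
  ring

end Vale.Agent.P096.Three.Flow
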