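import Vale.Agent.P096.Three.Flow.Basic

/-!
P096, type III, flow: the product identity for `V u V* u*` and the decay of a chain of averages.
-/

open scoped InnerProductSpace ComplexConjugate
open Filter Topology
open Vale.Agent.P096.Full.Reduce

namespace Vale.Agent.P096.Three.Flow

variable {H : Type} [NormedAddCommGroup H] [InnerProductSpace ℂ H] [CompleteSpace H]

/-- A chain losing a quarter of a nearly constant quadratic quantity at every step. -/
theorem decay {E : Type*} [SeminormedAddCommGroup E] (x : ℕ → E) (φ : E → ℝ) (κ : ℝ)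
    (hκ : 32768 * κ ≤ 1) (h1 : ‖x 0‖ = 1) (hup : ∀ e, φ e ≤ κ * ‖e‖ ^ 2) (h0 : ∀ e, 0 ≤ φ e)
    (hsub : ∀ a b, φ a ≤ 2 * φ b + 2 * φ (a - b))
    (hdrop : ∀ k, ‖x (k + 1)‖ ^ 2 ≤ ‖x k‖ ^ 2 - φ (x k) / 4)
    (hmove : ∀ k, ‖x (k + 1) - x k‖ ^ 2 ≤ φ (x k) / 4) :
    ‖x 64‖ ≤ 1 - 2 * φ (x 0) := by
  set A := φ (x 0)
  have hA : 0 ≤ A := h0 _
  have hs := Real.sq_sqrt hA
  set r := Real.sqrt A
  have hr : 0 ≤ r := Real.sqrt_nonneg _
  have key : ∀ k ≤ 64, ‖x k - x 0‖ ≤ k * r ∧ ‖x k‖ ^ 2 ≤ 1 - k * A / 16 := by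
    intro k hk
    induction k with
    | zero => simp [h1]
    | succ k ih =>
      obtain ⟨e1, e2⟩ := ih (Nat.le_of_succ_le hk)
      have hk' : (k : ℝ) ≤ 64 := by exact_mod_cast Nat.le_of_succ_le hk
      have e3 : ‖x k - x 0‖ ^ 2 ≤ 4096 * A := by
        refine (pow_le_pow_left₀ (norm_nonneg _) (e1.trans (mul_le_mul_of_nonneg_right hk' hr)) 2).trans
          (le_of_eq ?_)
        rw [mul_pow, hs]; norm_num
      have e4 : φ (x k - x 0) ≤ A / 8 := by
        rcases le_or_gt κ 0 with hk0 | hk0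
        · exact ((hup _).trans (mul_nonpos_of_nonpos_of_nonneg hk0 (sq_nonneg _))).trans (by positivity)
        · refine (hup _).trans ((mul_le_mul_of_nonneg_left e3 hk0.le).trans ?_)
          nlinarith
      have e5 : φ (x 0 - x k) ≤ A / 8 := by
        rcases le_or_gt κ 0 with hk0 | hk0
        · exact ((hup _).trans (mul_nonpos_of_nonpos_of_nonneg hk0 (sq_nonneg _))).trans (by positivity)
        · rw [← norm_sub_rev] at e3
          refine (hup _).trans ((mul_le_mul_of_nonneg_left e3 hk0.le).trans ?_)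
          nlinarith
      have u1 := hsub (x k) (x 0)
      have u2 := hsub (x 0) (x k)
      refine ⟨?_, ?_⟩
      · have m1 : ‖x (k + 1) - x k‖ ≤ r := by
          refine le_of_pow_le_pow_left₀ two_ne_zero hr ((hmove k).trans ?_)
          rw [hs]; linarith
        push_cast
        linarith [norm_sub_le_norm_sub_add_norm_sub (x (k + 1)) (x k) (x 0)]
      · push_cast
        linarith [hdrop k]
  have h64 := (key 64 le_rfl).2
  norm_num at h64
  have : ‖x 64‖ ^ 2 ≤ (1 - 2 * A) ^ 2 := by nlinarith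
  refine le_of_pow_le_pow_left₀ two_ne_zero ?_ this
  nlinarith [sq_nonneg ‖x 64‖]

/-- `V u V* u*`. -/
noncomputable def mv (V u : H →L[ℂ] H) : H →L[ℂ] H := V * u * star V * star u

namespace Setting

variable (S : Setting H) {γ : ℝ} {V : H →L[ℂ] H}

/-- The compressed move of `u` on the vectors of the centre. -/
noncomputable def iota (V u : H →L[ℂ] H) (v : H) : H := S.P (mv V u v)

variable {S}

lemma Move.fix_mem (h : S.Move γ V) {v : H} (hv : v ∈ S.K) : V v = v := S.fix_K h.comm_z h.fix hv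

lemma Move.fix_mem' (h : S.Move γ V) {v : H} (hv : v ∈ S.K) : star V v = v :=
  star_apply_of_fix h.unit (h.fix_mem hv)

lemma Move.mv_unitary (h : S.Move γ V) {u : H →L[ℂ] H} (hu : u ∈ unitary (H →L[ℂ] H)) :
    mv V u ∈ unitary (H →L[ℂ] H) :=
  mul_mem (mul_mem (mul_mem h.unit hu) (Unitary.star_mem h.unit)) (Unitary.star_mem hu)

/-- The move of `u` at a vector of the centre. -/
lemma Move.norm_mv_sub (h : S.Move γ V) {u : H →L[ℂ] H} (hu : u ∈ unitary (H →L[ℂ] H)) {v : H}
    (hv : v ∈ S.K) : ‖mv V u v - v‖ = ‖V (star u v) - star u v‖ := by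
  have e : v = (V * u) (star u v) := by
    rw [mul_apply_eq_comp, ← mul_apply_eq_comp u, (Unitary.mem_iff.1 hu).2, one_apply_eq_self,
      h.fix_mem hv]
  conv_lhs => arg 1; arg 2; rw [e]
  rw [mv, mul_assoc (V * u), mul_apply_eq_comp, ← map_sub, unitary_norm (mul_mem h.unit hu),
    mul_apply_eq_comp, norm_star_sub h.unit]

/-- The real part of the compressed move. -/
lemma Move.re_inner_iota (h : S.Move γ V) {u : H →L[ℂ] H} (hu : u ∈ unitary (H →L[ℂ] H)) {v : H}
    (hv : v ∈ S.K) : (⟪v, S.iota V u v⟫_ℂ).re = ‖v‖ ^ 2 - ‖mv V u v - v‖ ^ 2 / 2 := by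
  rw [iota, S.inner_P hv, @norm_sub_sq ℂ, unitary_norm (h.mv_unitary hu), inner_re_symm]
  simp only [RCLike.re_to_complex]
  ring

lemma Move.mv_mul (h : S.Move γ V) {w u g : H →L[ℂ] H} (hw : w ∈ unitary (H →L[ℂ] H))
    (hg : g ∈ S.Γ.carrier) :
    mv V (w * (g * u * star g)) = mv V w * (w * (g * mv V u * star g) * star w) := by
  have gu := Unitary.mem_iff.1 (Groups.unitary_carrier hg)
  have hV := Unitary.mem_iff.1 h.unit
  have hw' := Unitary.mem_iff.1 hw
  have c1 : V * g = g * V := h.comm_g g hg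
  have c2 : star V * star g = star g * star V := by
    have := congrArg star c1
    rw [star_mul, star_mul] at this
    exact this.symm
  have c3 : star V * g * V = g := by rw [mul_assoc, ← c1, ← mul_assoc, hV.1, one_mul]
  have c4 : star g * star V * g = star V := by
    rw [← c2, mul_assoc, gu.1, mul_one]
  calc mv V (w * (g * u * star g))
      = V * w * (g * u * (star g * star V * g) * star u * star g) * star w := by
        simp only [mv, star_mul, star_star, mul_assoc]
    _ = V * w * (star V * g * V * u * star V * star u * star g) * star w := by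
        rw [c4, c3]
    _ = _ := by
        simp only [mv, mul_assoc]
        rw [← mul_assoc (star w) w, hw'.1, one_mul]

lemma norm_avg_apply_le {m : ℕ} {f : (H →L[ℂ] H) → (H →L[ℂ] H)} {c : ℝ} (v : H)
    (hf : ∀ g ∈ S.Γ.G m, ‖f g‖ ≤ c) : ‖avg S.Γ m f v‖ ≤ c * ‖v‖ :=
  (ContinuousLinearMap.le_opNorm _ _).trans
    (mul_le_mul_of_nonneg_right (norm_avg_le hf) (norm_nonneg _))

/-- STEP: averaged over the groups, the moves multiply. -/
theorem Move.step (h : S.Move γ V) {w u : H →L[ℂ] H} (hw : w ∈ S.M)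
    (hw' : w ∈ unitary (H →L[ℂ] H)) (hu : u ∈ S.M) (hu' : u ∈ unitary (H →L[ℂ] H)) {v y : H}
    (hv : v ∈ S.K) (hy : y ∈ S.K) {ε : ℝ} (hε : 0 < ε) :
    ∀ᶠ m in atTop, ‖⟪v, avg S.Γ m (fun g => mv V (w * (g * u * star g))) y⟫_ℂ
      - ⟪v, S.iota V w (S.iota V u y)⟫_ℂ‖ ≤ 2 * |γ| * (‖v‖ * ‖y‖) + ε := by
  obtain ⟨m₀, hm₀, hd⟩ := h.near u hu
  set q := m₀ * star u
  have hq : q ∈ S.M := mul_mem hm₀ (star_mem hu)
  set c := mv V u
  have hcq : ‖c - q‖ ≤ |γ| := by
    have e : c - q = (V * u * star V - m₀) * star u := by rw [sub_mul]; rfl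
    rw [e]
    refine (norm_mul_le _ _).trans
      ((mul_le_of_le_one_right (norm_nonneg _) (norm_le_one (Unitary.star_mem hu'))).trans
        (hd.trans ?_))
    calc γ * ‖u‖ ≤ |γ| * ‖u‖ := mul_le_mul_of_nonneg_right (le_abs_self γ) (norm_nonneg _)
      _ ≤ |γ| := mul_le_of_le_one_right (abs_nonneg _) (norm_le_one hu')
  obtain ⟨z, hz, hz', hlim⟩ := S.central q hq
  have hzZ : z ∈ S.Z := ⟨hz, hz'⟩
  set A := fun m => avg S.Γ m fun g => g * c * star g with hA
  set B := fun m => avg S.Γ m fun g => g * q * star g with hB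
  have hAB : ∀ m x, ‖A m x - B m x‖ ≤ |γ| * ‖x‖ := fun m x => by
    have e : A m - B m = avg S.Γ m fun g => g * (c - q) * star g := by
      simp [hA, hB, avg, mul_sub, sub_mul, Finset.sum_sub_distrib, smul_sub]
    rw [← sub_apply, e]
    refine norm_avg_apply_le x fun g hg => ?_
    have hu := norm_le_one (S.Γ.mem_unitary m g hg)
    refine (norm_mul_le _ _).trans
      ((mul_le_of_le_one_right (norm_nonneg _) (by rwa [norm_star])).trans ?_)
    exact (norm_mul_le _ _).trans ((mul_le_of_le_one_left (norm_nonneg _) hu).trans hcq)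
  have havg : ∀ m, avg S.Γ m (fun g => mv V (w * (g * u * star g))) =
      mv V w * w * A m * star w := fun m => by
    rw [avg_congr fun g hg => h.mv_mul hw' ⟨m, hg⟩]
    simp only [hA, avg, mul_smul_comm, smul_mul_assoc, Finset.mul_sum, Finset.sum_mul, mul_assoc, c]
  -- the averages see `c` itself between vectors of the centre
  have hAc : ∀ m, ∀ η ∈ S.K, ⟪η, A m y⟫_ℂ = ⟪η, c y⟫_ℂ := by
    intro m η hη
    simp only [hA, avg]
    rw [smul_apply, sum_apply, inner_smul_right, inner_sum,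
      Finset.sum_congr rfl fun g hg => ?_, Finset.sum_const, nsmul_eq_mul, ← mul_assoc,
      inv_mul_cancel₀ (card_ne m), one_mul]
    have hgc : g ∈ S.Γ.carrier := ⟨m, hg⟩
    have hr := VonNeumannAlgebra.mem_commutant_iff.1 (S.r_mem g hgc)
    have r1 : V * S.r g = S.r g * V := h.comm_r g hgc
    have r2 : star V * S.r g = S.r g * star V := by
      have hV := Unitary.mem_iff.1 h.unit
      calc star V * S.r g = star V * S.r g * (V * star V) := by rw [hV.2, mul_one]
        _ = star V * (V * S.r g) * star V := by rw [r1]; simp only [mul_assoc]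
        _ = S.r g * star V := by rw [← mul_assoc (star V) V, hV.1, one_mul]
    have rc : c * S.r g = S.r g * c := by
      simp only [c, mv, mul_assoc]
      rw [hr _ (star_mem hu), ← mul_assoc (star V), r2, mul_assoc (S.r g),
        ← mul_assoc u, hr _ hu, mul_assoc (S.r g), ← mul_assoc V, r1, mul_assoc (S.r g)]
    rw [mul_apply_eq_comp, mul_apply_eq_comp, ← S.r_K hgc hy, ← mul_apply_eq_comp c, rc,
      mul_apply_eq_comp, ← inner_star (T := g), ← S.r_K hgc hη,
      unitary_inner (S.r_unitary g hgc)]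
  have hzy : ‖z y - S.iota V u y‖ ≤ |γ| * ‖y‖ := by
    set η := z y - S.iota V u y
    have hη : η ∈ S.K := sub_mem (S.Z_K hzZ hy) (S.P_mem _)
    have l1 : Tendsto (fun m => ‖⟪η, B m y⟫_ℂ - ⟪η, A m y⟫_ℂ‖) atTop
        (𝓝 ‖⟪η, z y⟫_ℂ - ⟪η, c y⟫_ℂ‖) :=
      (((tendsto_const_nhds.inner (hlim y)).sub (tendsto_const_nhds.congr
        fun m => (hAc m η hη).symm))).norm
    have l2 : ∀ m, ‖⟪η, B m y⟫_ℂ - ⟪η, A m y⟫_ℂ‖ ≤ ‖η‖ * (|γ| * ‖y‖) := fun m => by
      rw [← inner_sub_right]
      refine (norm_inner_le_norm _ _).trans (mul_le_mul_of_nonneg_left ?_ (norm_nonneg _))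
      rw [norm_sub_rev]; exact hAB m y
    have l3 := le_of_tendsto l1 (Eventually.of_forall l2)
    rw [← S.inner_P hη (c y), ← inner_sub_right] at l3
    change ‖⟪η, η⟫_ℂ‖ ≤ _ at l3
    rw [inner_self_eq_norm_sq_to_K] at l3
    norm_num at l3
    rcases (norm_nonneg η).eq_or_lt with h0 | h0
    · rw [← h0]; positivity
    · exact le_of_mul_le_mul_left (by linarith [sq ‖η‖]) h0
  have main : Tendsto (fun m => ⟪v, (mv V w * w * B m * star w) y⟫_ℂ) atTop
      (𝓝 ⟪v, mv V w (z y)⟫_ℂ) := by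
    have e : mv V w (z y) = (mv V w * w) (z (star w y)) := by
      rw [mul_apply_eq_comp, ← mul_apply_eq_comp z, S.comm_Z hzZ (star_mem hw), ← mul_apply_eq_comp w,
        ← mul_assoc, (Unitary.mem_iff.1 hw').2, one_mul]
    rw [e]
    exact (tendsto_const_nhds.inner ((((mv V w * w).continuous).tendsto _).comp (hlim _)))
  filter_upwards [Metric.tendsto_nhds.1 main ε hε] with m hm
  rw [dist_eq_norm] at hm
  rw [havg]
  have p1 : ‖⟪v, (mv V w * w * A m * star w) y⟫_ℂ - ⟪v, (mv V w * w * B m * star w) y⟫_ℂ‖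
      ≤ |γ| * (‖v‖ * ‖y‖) := by
    simp only [mul_apply_eq_comp, ← inner_sub_right, ← map_sub]
    refine (norm_inner_le_norm _ _).trans ?_
    rw [unitary_norm (h.mv_unitary hw'), unitary_norm hw']
    have := mul_le_mul_of_nonneg_left (hAB m (star w y)) (norm_nonneg v)
    rw [unitary_norm (Unitary.star_mem hw')] at this
    linarith
  have p2 : ‖⟪v, mv V w (z y)⟫_ℂ - ⟪v, S.iota V w (S.iota V u y)⟫_ℂ‖ ≤ |γ| * (‖v‖ * ‖y‖) := by
    rw [iota, S.inner_P hv, ← inner_sub_right, ← map_sub]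
    refine (norm_inner_le_norm _ _).trans ?_
    rw [unitary_norm (h.mv_unitary hw')]
    have := mul_le_mul_of_nonneg_left hzy (norm_nonneg v)
    simp only [iota] at this ⊢
    linarith
  refine (norm_sub_le_norm_sub_add_norm_sub _ ⟪v, (mv V w * w * B m * star w) y⟫_ℂ _).trans ?_
  refine (add_le_add_right (norm_sub_le_norm_sub_add_norm_sub _ ⟪v, mv V w (z y)⟫_ℂ _) _).trans ?_
  linarith

end Setting

end Vale.Agent.P096.Three.Flow
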